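import Crest.Agent.R034.Defs

set_option autoImplicit false

namespace Crest.Agent.R034

open Finset Filter

lemma b1_pow_le (y : ℝ) (hy0 : 0 ≤ y) (hy1 : y ≤ 1) (n : ℕ) :
    (1 - y) ^ n ≤ 1 - n * y + (n * y) ^ 2 / 2 := by
  induction n with
  | zero => simp
  | succ n ih =>
    have h1 : (1 - y) ^ (n + 1) ≤ (1 - n * y + (n * y) ^ 2 / 2) * (1 - y) := by
      rw [pow_succ]; exact mul_le_mul_of_nonneg_right ih (by linarith)
    refine h1.trans ?_
    push_cast
    have h2 : 0 ≤ ((n : ℝ) * y) ^ 2 * y := by positivity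
    nlinarith [sq_nonneg y]

lemma b1_psi_nonneg (x : ℝ) (hx1 : x ≤ 1) (n : ℕ) :
    0 ≤ n * x - 1 + (1 - x) ^ n := by
  have := one_add_mul_le_pow (a := -x) (by linarith) n
  have e : (1 + -x) = 1 - x := by ring
  rw [e] at this
  linarith

lemma b1_psi_ge (x y : ℝ) (hy0 : 0 ≤ y) (hyx : y ≤ x) (hx1 : x ≤ 1) (n : ℕ) (hn : n * y ≤ 1) :
    x * y * (n * (n - 1)) / 4 ≤ n * x - 1 + (1 - x) ^ n := by
  induction n with
  | zero => simp
  | succ n ih =>
    have hn' : (n : ℝ) * y ≤ 1 := by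
      push_cast at hn; nlinarith
    have ih' := ih hn'
    have h1 : (1 - x) ^ n ≤ (1 - y) ^ n := pow_le_pow_left₀ (by linarith) (by linarith) n
    have h2 := b1_pow_le y hy0 (by linarith) n
    have hny : 0 ≤ (n : ℝ) * y := by positivity
    have h3 : (1 - x) ^ n ≤ 1 - n * y / 2 := by nlinarith
    have hx0 : 0 ≤ x := by linarith
    have h4 : x * (n * y / 2) ≤ x * (1 - (1 - x) ^ n) :=
      mul_le_mul_of_nonneg_left (by linarith) hx0
    rw [pow_succ]
    push_cast
    nlinarith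

lemma b1_cast_pred (m : ℕ) : ((m - 1 : ℕ) : ℝ) = m - 1 + ind (m = 0) := by
  rcases Nat.eq_zero_or_pos m with h | h
  · subst h; simp [ind_pos]
  · rw [ind_neg (by omega), Nat.cast_sub h]; simp

lemma b1_pred_lip (m m' : ℕ) : |((m - 1 : ℕ) : ℝ) - ((m' - 1 : ℕ) : ℝ)| ≤ |(m : ℝ) - m'| := by
  rw [b1_cast_pred, b1_cast_pred]
  rcases Nat.eq_zero_or_pos m with h | h <;> rcases Nat.eq_zero_or_pos m' with h' | h'
  · subst h; subst h'; simp
  · subst h
    have : (1 : ℝ) ≤ m' := by exact_mod_cast h'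
    rw [ind_pos rfl, ind_neg (by omega)]
    rw [abs_of_nonpos (by simp; linarith), abs_of_nonpos (by simp)]
    simp
  · subst h'
    have : (1 : ℝ) ≤ m := by exact_mod_cast h
    rw [ind_pos rfl, ind_neg (by omega)]
    rw [abs_of_nonneg (by simp; linarith), abs_of_nonneg (by simp)]
    simp
  · rw [ind_neg (by omega), ind_neg (by omega)]
    apply le_of_eq; congr 1; ring

section
variable {F : Type} [Field F] [Fintype F] [DecidableEq F]

omit [Fintype F] in
lemma b1_mult_eq {s : ℕ} (ω : Fin s → Ln F) (p : Pt F) :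
    (mult ω p : ℝ) = ∑ j, ind (On p (ω j)) := by
  unfold mult; rw [card_filter_eq_sum_ind]

omit [Fintype F] in
lemma b1_deg_eq (L : Finset (Ln F)) (y : PPt F) :
    (deg L y : ℝ) = ∑ l ∈ L, ind (POn y l) := by
  unfold deg; rw [card_filter_eq_sum_ind]

lemma b1_pr_on (L : Finset (Ln F)) (hL : L.card = Fintype.card F) (p : Pt F) :
    pr (fun a : {l // l ∈ L} => On p a.1) = (deg L (Sum.inl p) : ℝ) / Fintype.card F := by
  unfold pr ex
  rw [Fintype.card_coe, hL, b1_deg_eq]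
  congr 1
  exact Finset.sum_coe_sort L (fun l => ind (On p l))

lemma b1_ex_pred (L : Finset (Ln F)) (hL : L.card = Fintype.card F) [Nonempty {l // l ∈ L}]
    (s : ℕ) (p : Pt F) :
    ex (fun ω : Fin s → {l // l ∈ L} => ((mult (fun j => (ω j).1) p - 1 : ℕ) : ℝ)) =
      s * ((deg L (Sum.inl p) : ℝ) / Fintype.card F) - 1 +
        (1 - (deg L (Sum.inl p) : ℝ) / Fintype.card F) ^ s := by
  simp_rw [b1_cast_pred]
  rw [ex_add, ex_sub, ex_const]
  congr 1
  · congr 1
    simp_rw [b1_mult_eq]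
    rw [ex_sum]
    have : ∀ j : Fin s, ex (fun ω : Fin s → {l // l ∈ L} => ind (On p (ω j).1)) =
        (deg L (Sum.inl p) : ℝ) / Fintype.card F := by
      intro j
      rw [← b1_pr_on L hL p]
      exact ex_coord (A := fun _ : Fin s => {l // l ∈ L}) j (fun _ a => ind (On p a.1))
    simp_rw [this]
    simp
  · have h1 : ∀ ω : Fin s → {l // l ∈ L}, (mult (fun j => (ω j).1) p = 0) ↔
        ∀ j ∈ (univ : Finset (Fin s)), ¬ On p (ω j).1 := by
      intro ω
      unfold mult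
      rw [Finset.card_eq_zero, Finset.filter_eq_empty_iff]
    simp_rw [fun ω => ind_congr (h1 ω)]
    have h2 := pr_forall_coord (A := fun _ : Fin s => {l // l ∈ L}) univ
      (fun _ a => ¬ On p a.1)
    unfold pr at h2
    rw [h2]
    have h3 := pr_not (fun a : {l // l ∈ L} => On p a.1)
    rw [b1_pr_on L hL p] at h3
    unfold pr at h3
    rw [h3]
    simp

lemma b1_sum_deg (L : Finset (Ln F)) (hL : L.card = Fintype.card F)
    (hdeg : ∀ d, 2 * deg L (Sum.inr d) ≤ Fintype.card F) (l : Ln F) :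
    (Fintype.card F : ℝ) / 2 ≤ ∑ p ∈ pts l, (deg L (Sum.inl p) : ℝ) := by
  simp_rw [b1_deg_eq]
  rw [Finset.sum_comm]
  have h1 : ∀ l' ∈ L, 1 - ind (POn (Sum.inr l.1) l') ≤
      ∑ p ∈ pts l, ind (POn (Sum.inl p) l') := by
    intro l' _
    by_cases h : l'.1 = l.1
    · rw [ind_pos (show POn (Sum.inr l.1) l' from h), sub_self]
      exact Finset.sum_nonneg fun _ _ => ind_nonneg _
    · rw [ind_neg (show ¬ POn (Sum.inr l.1) l' from h), sub_zero]
      obtain ⟨p, hp1, hp2⟩ := exists_meet h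
      calc (1 : ℝ) = ind (POn (Sum.inl p) l') := (ind_pos hp1).symm
        _ ≤ _ := Finset.single_le_sum (f := fun p => ind (POn (Sum.inl p) l'))
          (fun _ _ => ind_nonneg _) (mem_pts.mpr hp2)
  refine le_trans ?_ (Finset.sum_le_sum h1)
  rw [Finset.sum_sub_distrib, ← b1_deg_eq]
  have h2 : (2 : ℝ) * deg L (Sum.inr l.1) ≤ Fintype.card F := by exact_mod_cast hdeg l.1
  simp only [Finset.sum_const, hL, nsmul_eq_mul, mul_one]
  linarith

lemma b1_sum_cov (L : Finset (Ln F)) (l : Ln F) (k : ℕ)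
    (h : Fintype.card F ≤ idx (unc L) l + k) :
    ∑ p ∈ pts l, ind (p ∉ unc L) ≤ k := by
  simp_rw [ind_not]
  rw [Finset.sum_sub_distrib, ← idx_eq_sum]
  have : (Fintype.card F : ℝ) ≤ idx (unc L) l + k := by exact_mod_cast h
  simp only [Finset.sum_const, card_pts, nsmul_eq_mul, mul_one]
  linarith

lemma b1_ex_ge (L : Finset (Ln F)) (hL : L.card = Fintype.card F) [Nonempty {l // l ∈ L}]
    (hdeg : ∀ d, 2 * deg L (Sum.inr d) ≤ Fintype.card F) (s : ℕ) (hs : 2 ≤ s) (l : Ln F)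
    (h : Fintype.card F ≤ idx (unc L) l + 300 * s) :
    (s : ℝ) / 38400 ≤ ex (fun ω : Fin s → {l // l ∈ L} =>
      ∑ p ∈ pts l, ((mult (fun j => (ω j).1) p - 1 : ℕ) : ℝ)) := by
  rw [ex_sum]
  simp_rw [b1_ex_pred L hL s]
  have hq0 : (0 : ℝ) < Fintype.card F := by exact_mod_cast Fintype.card_pos
  have hs2 : (2 : ℝ) ≤ s := by exact_mod_cast hs
  set y : ℝ := 1 / (1200 * s) with hy
  have hy0 : 0 < y := by positivity
  have hsy : (s : ℝ) * y = 1 / 1200 := by rw [hy]; field_simp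
  have h1 : ∀ p ∈ pts l, ((deg L (Sum.inl p) : ℝ) / Fintype.card F - y * ind (p ∉ unc L)) *
      (y * s ^ 2 / 8) ≤ s * ((deg L (Sum.inl p) : ℝ) / Fintype.card F) - 1 +
        (1 - (deg L (Sum.inl p) : ℝ) / Fintype.card F) ^ s := by
    intro p _
    set x : ℝ := (deg L (Sum.inl p) : ℝ) / Fintype.card F with hx
    have hx0 : 0 ≤ x := by positivity
    have hx1 : x ≤ 1 := by
      rw [hx, div_le_one hq0, ← hL]
      exact_mod_cast Finset.card_filter_le _ _
    have hc : 0 ≤ y * (s : ℝ) ^ 2 / 8 := by positivity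
    by_cases hxy : y ≤ x
    · refine le_trans ?_ (b1_psi_ge x y hy0.le hxy hx1 s (by linarith))
      have h2 : (x - y * ind (p ∉ unc L)) * (y * s ^ 2 / 8) ≤ x * (y * s ^ 2 / 8) :=
        mul_le_mul_of_nonneg_right (by
          have := mul_nonneg hy0.le (ind_nonneg (p ∉ unc L)); linarith) hc
      refine h2.trans ?_
      have h3 : (s : ℝ) ^ 2 / 8 ≤ s * (s - 1) / 4 := by nlinarith
      have h4 := mul_le_mul_of_nonneg_left h3 (mul_nonneg hx0 hy0.le)
      linarith
    · refine le_trans ?_ (b1_psi_nonneg x hx1 s)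
      by_cases hp : p ∈ unc L
      · have : deg L (Sum.inl p) = 0 := by
          unfold deg
          rw [Finset.card_eq_zero, Finset.filter_eq_empty_iff]
          exact fun l' hl' => mem_unc.mp hp l' hl'
        have hx' : x = 0 := by rw [hx, this]; simp
        rw [hx', ind_neg (not_not.mpr hp)]; simp
      · rw [ind_pos hp]
        exact mul_nonpos_of_nonpos_of_nonneg (by linarith) hc
  refine le_trans ?_ (Finset.sum_le_sum h1)
  rw [← Finset.sum_mul, Finset.sum_sub_distrib, ← Finset.sum_div, ← Finset.mul_sum]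
  have h2 : (1 : ℝ) / 2 ≤ (∑ p ∈ pts l, (deg L (Sum.inl p) : ℝ)) / Fintype.card F := by
    rw [le_div_iff₀ hq0]
    have := b1_sum_deg L hL hdeg l
    linarith
  have h3 := b1_sum_cov L l (300 * s) h
  push_cast at h3
  have h4 : y * ∑ p ∈ pts l, ind (p ∉ unc L) ≤ 1 / 4 := by
    have := mul_le_mul_of_nonneg_left h3 hy0.le
    nlinarith
  have h5 : y * (s : ℝ) ^ 2 / 8 = s / 9600 := by
    have : y * (s : ℝ) ^ 2 = (s * y) * s := by ring
    rw [this, hsy]; ring
  rw [h5]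
  have h6 : (1 : ℝ) / 4 * (s / 9600) ≤ ((∑ p ∈ pts l, (deg L (Sum.inl p) : ℝ)) / Fintype.card F -
      y * ∑ p ∈ pts l, ind (p ∉ unc L)) * (s / 9600) :=
    mul_le_mul_of_nonneg_right (by linarith) (by positivity)
  linarith

lemma b1_sum_on_le {l l' : Ln F} (h : l ≠ l') : ∑ p ∈ pts l, ind (On p l') ≤ 1 := by
  rw [← card_filter_eq_sum_ind]
  exact_mod_cast card_inter_le_one h

lemma b1_bdd_diff (L : Finset (Ln F)) (s : ℕ) (l : Ln F) (hl : l ∉ L)
    (ω : Fin s → {l // l ∈ L}) (i : Fin s) (a : {l // l ∈ L}) :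
    |∑ p ∈ pts l, ((mult (fun j => (ω j).1) p - 1 : ℕ) : ℝ) -
      ∑ p ∈ pts l, ((mult (fun j => (Function.update ω i a j).1) p - 1 : ℕ) : ℝ)| ≤ 2 := by
  rw [← Finset.sum_sub_distrib]
  refine (Finset.abs_sum_le_sum_abs _ _).trans ?_
  have h1 : ∀ p ∈ pts l, |((mult (fun j => (ω j).1) p - 1 : ℕ) : ℝ) -
      ((mult (fun j => (Function.update ω i a j).1) p - 1 : ℕ) : ℝ)| ≤
      ind (On p (ω i).1) + ind (On p a.1) := by
    intro p _
    refine (b1_pred_lip _ _).trans ?_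
    rw [b1_mult_eq, b1_mult_eq, ← Finset.sum_sub_distrib,
      Finset.sum_eq_single i (fun j _ hj => by rw [Function.update_of_ne hj, sub_self])
        (fun h => absurd (Finset.mem_univ i) h), Function.update_self]
    have := ind_nonneg (On p (ω i).1)
    have := ind_nonneg (On p a.1)
    rw [abs_le]; constructor <;> linarith
  refine (Finset.sum_le_sum h1).trans ?_
  rw [Finset.sum_add_distrib]
  have h2 := b1_sum_on_le (l := l) (l' := (ω i).1) (fun h => hl (h ▸ (ω i).2))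
  have h3 := b1_sum_on_le (l := l) (l' := a.1) (fun h => hl (h ▸ a.2))
  linarith

lemma b1_Z_le {s : ℕ} (ω : Fin s → Ln F) :
    ∑ p, (mult ω p : ℝ) * (mult ω p - 1) ≤
      ∑ j, ∑ j' ∈ univ.erase j, (1 + Fintype.card F * ind (ω j = ω j')) := by
  have h1 : ∀ p : Pt F, (mult ω p : ℝ) * (mult ω p - 1) =
      ∑ j, ∑ j' ∈ univ.erase j, ind (On p (ω j)) * ind (On p (ω j')) := by
    intro p
    rw [b1_mult_eq, Finset.sum_mul]
    refine Finset.sum_congr rfl fun j _ => ?_
    rw [← Finset.mul_sum, Finset.sum_erase_eq_sub (Finset.mem_univ j)]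
    by_cases h : On p (ω j)
    · rw [ind_pos h]
    · rw [ind_neg h]; simp
  simp_rw [h1]
  rw [Finset.sum_comm]
  refine Finset.sum_le_sum fun j _ => ?_
  rw [Finset.sum_comm]
  refine Finset.sum_le_sum fun j' _ => ?_
  have h2 : ∑ p, ind (On p (ω j)) * ind (On p (ω j')) = ∑ p ∈ pts (ω j), ind (On p (ω j')) := by
    unfold pts
    rw [Finset.sum_filter]
    refine Finset.sum_congr rfl fun p _ => ?_
    by_cases h : On p (ω j)
    · rw [ind_pos h, if_pos h, one_mul]
    · rw [ind_neg h, if_neg h, zero_mul]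
  rw [h2]
  by_cases h : ω j = ω j'
  · rw [ind_pos h]
    have : ∑ p ∈ pts (ω j), ind (On p (ω j')) ≤ ∑ p ∈ pts (ω j), (1 : ℝ) :=
      Finset.sum_le_sum fun p _ => ind_le_one _
    simp only [Finset.sum_const, card_pts, nsmul_eq_mul, mul_one] at this
    linarith
  · rw [ind_neg h]
    have := b1_sum_on_le h
    linarith

lemma b1_ex_Z (L : Finset (Ln F)) (hL : L.card = Fintype.card F) [Nonempty {l // l ∈ L}]
    (s : ℕ) :
    ex (fun ω : Fin s → {l // l ∈ L} =>
      ∑ p, (mult (fun j => (ω j).1) p : ℝ) * (mult (fun j => (ω j).1) p - 1)) ≤ 2 * s ^ 2 := by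
  have hq0 : (0 : ℝ) < Fintype.card F := by exact_mod_cast Fintype.card_pos
  refine (ex_mono fun ω => b1_Z_le _).trans ?_
  rw [ex_sum]
  have h1 : ∀ j : Fin s, ex (fun ω : Fin s → {l // l ∈ L} =>
      ∑ j' ∈ univ.erase j, (1 + Fintype.card F * ind ((ω j).1 = (ω j').1))) ≤ 2 * s := by
    intro j
    rw [ex_sum]
    have h2 : ∀ j' ∈ univ.erase j, ex (fun ω : Fin s → {l // l ∈ L} =>
        (1 + Fintype.card F * ind ((ω j).1 = (ω j').1))) ≤ 2 := by
      intro j' hj'
      have hne : j' ≠ j := Finset.ne_of_mem_erase hj'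
      rw [ex_add, ex_const, ex_mul_left]
      have h3 : ex (fun ω : Fin s → {l // l ∈ L} => ind ((ω j).1 = (ω j').1)) ≤
          1 / Fintype.card F := by
        rw [ex_update (A := fun _ : Fin s => {l // l ∈ L}) j]
        refine ex_le_of_le fun ω => ?_
        simp only [Function.update_self, Function.update_of_ne hne]
        have h4 := pr_mem_finset (Ω := {l // l ∈ L}) {ω j'}
        rw [Fintype.card_coe, hL, Finset.card_singleton, Nat.cast_one] at h4
        rw [← h4]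
        exact ex_mono fun a => ind_mono fun h => Finset.mem_singleton.mpr (Subtype.ext h)
      have h5 := mul_le_mul_of_nonneg_left h3 hq0.le
      rw [mul_one_div_cancel hq0.ne'] at h5
      linarith
    refine (Finset.sum_le_sum h2).trans ?_
    rw [Finset.sum_const, nsmul_eq_mul]
    have : ((univ.erase j).card : ℝ) ≤ s := by
      have := Finset.card_erase_le (s := (univ : Finset (Fin s))) (a := j)
      rw [Finset.card_univ, Fintype.card_fin] at this
      exact_mod_cast this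
    linarith
  refine (Finset.sum_le_sum fun j _ => h1 j).trans (le_of_eq ?_)
  simp only [Finset.sum_const, Finset.card_univ, Fintype.card_fin, nsmul_eq_mul]
  ring

lemma b1_pred_le (m : ℕ) : ((m - 1 : ℕ) : ℝ) ≤ (m : ℝ) * (m - 1) ∧
    ((m - 1 : ℕ) : ℝ) ^ 2 ≤ (m : ℝ) * (m - 1) := by
  rcases Nat.eq_zero_or_pos m with h | h
  · subst h; simp
  · rw [Nat.cast_sub h]
    have : (1 : ℝ) ≤ m := by exact_mod_cast h
    push_cast
    constructor <;> nlinarith

lemma b1_card_Eb {s : ℕ} (hs : 2 ≤ s) (hsq : 2457600 * s ≤ Fintype.card F) (ω : Fin s → Ln F)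
    (hZ : ∑ p, (mult ω p : ℝ) * (mult ω p - 1) ≤ 16 * s ^ 2) :
    ((Eb ω).card : ℝ) ≤ 16 * 153600 ^ 2 * Fintype.card F := by
  have hq0 : (0 : ℝ) < Fintype.card F := by exact_mod_cast Fintype.card_pos
  have hs2 : (2 : ℝ) ≤ s := by exact_mod_cast hs
  have hsq' : (2457600 : ℝ) * s ≤ Fintype.card F := by exact_mod_cast hsq
  have h1 : ∑ p, ((mult ω p - 1 : ℕ) : ℝ) ≤ 16 * s ^ 2 :=
    (Finset.sum_le_sum fun p _ => (b1_pred_le _).1).trans hZ
  have h2 : ∑ p, ((mult ω p - 1 : ℕ) : ℝ) ^ 2 ≤ 16 * s ^ 2 :=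
    (Finset.sum_le_sum fun p _ => (b1_pred_le _).2).trans hZ
  have h3 : (∑ p, ((mult ω p - 1 : ℕ) : ℝ)) / Fintype.card F ≤ s / 153600 := by
    rw [div_le_iff₀ hq0]
    nlinarith
  have h4 := card_dev_le (fun p => ((mult ω p - 1 : ℕ) : ℝ)) (a := (s : ℝ) / 153600)
    (by positivity) (Eb ω) (fun l hl => by
      unfold Eb at hl
      have := (Finset.mem_filter.mp hl).2
      refine le_trans ?_ (le_abs_self _)
      linarith)
  refine h4.trans ?_
  rw [div_le_iff₀ (by positivity)]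
  have h5 := mul_le_mul_of_nonneg_left h2 hq0.le
  refine h5.trans (le_of_eq ?_)
  ring

/-- A sample of lines of `L` having many multiple points on every line of `H`. -/
theorem b1_sample (L : Finset (Ln F)) (hL : L.card = Fintype.card F)
    (hdeg : ∀ d, 2 * deg L (Sum.inr d) ≤ Fintype.card F) (H : Finset (Ln F)) (s : ℕ) (hs : 2 ≤ s)
    (hsq : 2457600 * s ≤ Fintype.card F)
    (hH : ∀ l ∈ H, l ∉ L ∧ Fintype.card F ≤ idx (unc L) l + 300 * s)
    (hnum : (H.card : ℝ) * Real.exp (-((s : ℝ) / (8 * 76800 ^ 2))) < 1 / 2) :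
    ∃ ω : Fin s → Ln F, ((Eb ω).card : ℝ) ≤ 16 * 153600 ^ 2 * Fintype.card F ∧ H ⊆ Eb ω := by
  have hne : L.Nonempty := by
    rw [← Finset.card_pos, hL]; exact Fintype.card_pos
  have : Nonempty {l // l ∈ L} := hne.coe_sort
  have hs2 : (2 : ℝ) ≤ s := by exact_mod_cast hs
  set X : Ln F → (Fin s → {l // l ∈ L}) → ℝ := fun l ω =>
    ∑ p ∈ pts l, ((mult (fun j => (ω j).1) p - 1 : ℕ) : ℝ) with hX
  set Z : (Fin s → {l // l ∈ L}) → ℝ := fun ω =>
    ∑ p, (mult (fun j => (ω j).1) p : ℝ) * (mult (fun j => (ω j).1) p - 1) with hZ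
  have h1 : pr (fun ω => ∃ l ∈ H, X l ω ≤ ex (X l) - s / 76800) ≤
      H.card * Real.exp (-((s : ℝ) / (8 * 76800 ^ 2))) := by
    refine pr_exists_le_card H (fun l ω => X l ω ≤ ex (X l) - s / 76800) fun l hl => ?_
    have := mcdiarmid_lower (A := fun _ : Fin s => {l // l ∈ L}) (c := 2) (t := (s : ℝ) / 76800)
      (N := s) (by norm_num) (by positivity) (by simp) (by positivity) (X l)
      (fun ω i a => b1_bdd_diff L s l (hH l hl).1 ω i a)
    refine this.trans (le_of_eq ?_)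
    congr 2
    field_simp
    ring
  have h2 : pr (fun ω => 16 * (s : ℝ) ^ 2 ≤ Z ω) ≤ 1 / 8 := by
    refine (markov (f := Z) (fun ω => ?_) (by positivity)).trans ?_
    · exact Finset.sum_nonneg fun p _ => le_trans (Nat.cast_nonneg _) (b1_pred_le _).1
    · rw [div_le_iff₀ (by positivity)]
      have := b1_ex_Z L hL s
      linarith
  have h3 := (pr_or_le (fun ω => ∃ l ∈ H, X l ω ≤ ex (X l) - s / 76800)
    (fun ω => 16 * (s : ℝ) ^ 2 ≤ Z ω)).trans (add_le_add h1 h2)
  obtain ⟨ω, hω⟩ := exists_not_of_pr_lt_one (lt_of_le_of_lt h3 (by linarith))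
  push Not at hω
  refine ⟨fun j => (ω j).1, b1_card_Eb hs hsq _ hω.2.le, fun l hl => ?_⟩
  unfold Eb
  rw [Finset.mem_filter]
  refine ⟨Finset.mem_univ _, ?_⟩
  have h4 := hω.1 l hl
  have h5 := b1_ex_ge L hL hdeg s hs l (hH l hl).2
  change (s : ℝ) / 76800 ≤ X l ω
  change (s : ℝ) / 38400 ≤ ex (X l) at h5
  linarith

end

end Crest.Agent.R034
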