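import Crest.Agent.R034.Defs

set_option autoImplicit false

namespace Crest.Agent.R034

open Finset Filter

lemma bp_sigma {F : Type} [Fintype F] [DecidableEq F] {K : ℕ} (E : Finset (Ln F))
    (I : Finset (Ix F K)) :
    ∑ i ∈ I, pr (fun a : F => (i.1, a) ∈ E) ≤ K * (E.card : ℝ) / Fintype.card F := by
  have h1 : ∑ i ∈ I, pr (fun a : F => (i.1, a) ∈ E) ≤
      ∑ i : Ix F K, pr (fun a : F => (i.1, a) ∈ E) :=
    sum_le_sum_of_subset_of_nonneg (subset_univ _) fun i _ _ => pr_nonneg _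
  refine h1.trans (le_of_eq ?_)
  have h2 : (E.card : ℝ) = ∑ d : Dir F, ∑ a : F, ind ((d, a) ∈ E) := by
    rw [← Fintype.sum_prod_type' (fun (d : Dir F) (a : F) => ind ((d, a) ∈ E)),
      ← card_filter_eq_sum_ind univ (fun l : Ln F => (l.1, l.2) ∈ E)]
    simp
  unfold pr ex
  rw [← sum_div, Fintype.sum_prod_type, h2, mul_sum]
  congr 1
  refine sum_congr rfl fun d _ => ?_
  simp

lemma bp_eventually (M : ℝ) : ∀ᶠ q : ℕ in atTop, M ≤ √(√(q : ℝ)) :=
  (Real.tendsto_sqrt_atTop.comp (Real.tendsto_sqrt_atTop.comp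
    tendsto_natCast_atTop_atTop)).eventually_ge_atTop M

lemma bp_sq (q : ℕ) : √(√(q : ℝ)) ^ 2 = √(q : ℝ) := Real.sq_sqrt (Real.sqrt_nonneg _)

lemma bp_four (q : ℕ) : √(√(q : ℝ)) ^ 4 = (q : ℝ) := by
  rw [show (4 : ℕ) = 2 * 2 from rfl, pow_mul, bp_sq, Real.sq_sqrt (Nat.cast_nonneg _)]

lemma bp_ln_pow {F : Type} [Fintype F] {t : ℝ} (ht : 2 ≤ t) (hq : t ^ 4 = Fintype.card F)
    (s : ℕ) : (Fintype.card (Ln F) : ℝ) ^ s ≤ Real.exp (12 * s * Real.log t) := by
  have h0 : 0 < t := by linarith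
  have h1 : (Fintype.card (Ln F) : ℝ) ≤ t ^ 12 := by
    rw [card_ln]
    push_cast
    rw [← hq]
    have h2 : (2 : ℝ) ≤ t ^ 4 := by
      calc (2 : ℝ) ≤ 2 ^ 4 := by norm_num
        _ ≤ t ^ 4 := by gcongr
    have h3 : t ^ 12 = t ^ 4 * t ^ 4 * t ^ 4 := by ring
    rw [h3]
    generalize t ^ 4 = u at h2
    nlinarith [mul_nonneg (by linarith : 0 ≤ u) (by nlinarith : 0 ≤ u * u - u - 1)]
  calc (Fintype.card (Ln F) : ℝ) ^ s ≤ (t ^ 12) ^ s := by gcongr
    _ = Real.exp (12 * s * Real.log t) := by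
      rw [← pow_mul, ← Real.exp_log (pow_pos h0 (12 * s)), Real.log_pow]
      push_cast
      rfl

lemma bp_two_pow (n : ℕ) : (2 : ℝ) ^ n ≤ Real.exp n := by
  have : (2 : ℝ) ≤ Real.exp 1 := by linarith [Real.add_one_le_exp 1]
  calc (2 : ℝ) ^ n ≤ Real.exp 1 ^ n := by gcongr
    _ = Real.exp n := by rw [← Real.exp_nat_mul, mul_one]

theorem badB1_prob (K : ℕ) : ∀ᶠ q : ℕ in atTop, ∀ (F : Type) [Field F] [Fintype F]
    [DecidableEq F], Fintype.card F = q → pr (fun T : Ix F K → F => BadB1 T) ≤ 1 / 10 := by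
  filter_upwards [bp_eventually 19, bp_eventually ((5 + K * (16 * 153600 ^ 2)) * 40)]
    with q h19 hM F _ _ _ hq
  have h2 := bp_sq q
  have h4 := bp_four q
  set t := √(√(q : ℝ)) with ht
  generalize hC : (16 * 153600 ^ 2 : ℝ) = C at hM
  have hC0 : 0 ≤ C := by rw [← hC]; positivity
  have ht0 : 0 < t := by linarith
  have hq0 : (0 : ℝ) < q := by rw [← h4]; positivity
  have hlog : 1 ≤ Real.log t := by
    rw [Real.le_log_iff_exp_le ht0]
    linarith [Real.exp_one_lt_d9]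
  have step : pr (fun T : Ix F K → F => BadB1 T) ≤
      pr (fun T : Ix F K → F => ∃ s ∈ (range (q + 1)).filter (fun s : ℕ => t ^ 2 / 400 ≤ s),
        ∃ ω ∈ (univ : Finset (Fin s → Ln F)).filter (fun ω => ((Eb ω).card : ℝ) ≤ C * q),
          25 * (s : ℝ) ≤ ∑ i, ind (tl T i ∈ Eb ω)) := by
    refine pr_mono fun T ⟨s, hs1, hs2, ω, hω1, hω2⟩ => ⟨s, ?_, ω, ?_, hω2⟩
    · rw [mem_filter, mem_range, h2]
      rw [hq] at hs1 hs2
      exact ⟨by omega, hs2⟩
    · rw [mem_filter]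
      rw [hq, hC] at hω1
      exact ⟨mem_univ _, hω1⟩
  refine step.trans ((pr_exists_le_card _ _ (b := Real.exp (t * (K * C) - 13 / 400 * t ^ 2))
    fun s hs => ?_).trans ?_)
  · have hs2 : t ^ 2 / 400 ≤ s := (mem_filter.1 hs).2
    refine (pr_exists_le_card _ _ (b := Real.exp (t * (K * C) - 25 * s * Real.log t))
      fun ω hω => ?_).trans ?_
    · refine upper_tail (A := fun _ : Ix F K => F) univ (fun i a => (i.1, a) ∈ Eb ω)
        ((bp_sigma _ _).trans ?_) (by linarith)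
      rw [hq, div_le_iff₀ hq0, mul_assoc]
      exact mul_le_mul_of_nonneg_left (mem_filter.1 hω).2 (Nat.cast_nonneg _)
    · have hc : (((univ : Finset (Fin s → Ln F)).filter
          (fun ω => ((Eb ω).card : ℝ) ≤ C * q)).card : ℝ) ≤ Real.exp (12 * s * Real.log t) := by
        refine le_trans ?_ (bp_ln_pow (F := F) (by linarith) (by rw [h4, hq]) s)
        have := card_le_univ ((univ : Finset (Fin s → Ln F)).filter
          (fun ω => ((Eb ω).card : ℝ) ≤ C * q))
        rw [Fintype.card_fun, Fintype.card_fin] at this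
        exact_mod_cast this
      refine (mul_le_mul_of_nonneg_right hc (Real.exp_pos _).le).trans ?_
      rw [← Real.exp_add, Real.exp_le_exp]
      have hs0 : (0 : ℝ) ≤ s := Nat.cast_nonneg _
      nlinarith
  · have hc : (((range (q + 1)).filter (fun s : ℕ => t ^ 2 / 400 ≤ s)).card : ℝ) ≤ 2 * t ^ 4 := by
      have := card_filter_le (range (q + 1)) (fun s : ℕ => t ^ 2 / 400 ≤ s)
      rw [card_range] at this
      have h5 : (((range (q + 1)).filter (fun s : ℕ => t ^ 2 / 400 ≤ s)).card : ℝ) ≤ q + 1 := by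
        exact_mod_cast this
      have h6 : (1 : ℝ) ≤ t ^ 4 := one_le_pow₀ (by linarith)
      linarith
    have he : t ≤ Real.exp t := by linarith [Real.add_one_le_exp t]
    have he2 : 20 ≤ Real.exp t := by linarith [Real.add_one_le_exp t]
    have h5 : 20 * t ^ 4 ≤ Real.exp (5 * t) := by
      calc 20 * t ^ 4 ≤ Real.exp t * Real.exp t ^ 4 := by gcongr
        _ = Real.exp (5 * t) := by rw [← Real.exp_nat_mul, ← Real.exp_add]; congr 1; push_cast; ring
    have h6 : Real.exp (5 * t) * Real.exp (t * (K * C) - 13 / 400 * t ^ 2) ≤ 1 := by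
      rw [← Real.exp_add, Real.exp_le_one_iff]
      nlinarith
    have h7 := Real.exp_pos (t * (K * C) - 13 / 400 * t ^ 2)
    nlinarith

open Classical in
/-- The family of exceptional line sets attached to the point set `U`. -/
noncomputable def bpX {F : Type} [Field F] [Fintype F] [DecidableEq F] (a : ℕ) (C₁ B : ℝ)
    (U : Finset (Pt F)) : Finset (Finset (Ln F)) :=
  (univ.filter fun L => Cand U a C₁ L ∧ ((E2 (U ∩ unc L)).card : ℝ) ≤ B).image
    fun L => E2 (U ∩ unc L)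

lemma mem_bpX {F : Type} [Field F] [Fintype F] [DecidableEq F] {a : ℕ} {C₁ B : ℝ}
    {U : Finset (Pt F)} {E : Finset (Ln F)} : E ∈ bpX a C₁ B U ↔
      ∃ L, (Cand U a C₁ L ∧ ((E2 (U ∩ unc L)).card : ℝ) ≤ B) ∧ E2 (U ∩ unc L) = E := by
  simp only [bpX, mem_image, mem_filter, mem_univ, true_and]

lemma bpX_card {F : Type} [Field F] [Fintype F] [DecidableEq F] (a : ℕ) (C₁ B : ℝ)
    (U : Finset (Pt F)) :
    ((bpX a C₁ B U).card : ℝ) ≤ (Fintype.card (Ln F) : ℝ) ^ a * ((Fintype.card (Ln F) : ℝ) ^ a *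
      Real.exp (C₁ * Fintype.card F)) := by
  classical
  have hP : ((powersetCard a (univ : Finset (Ln F))).card : ℝ) ≤ (Fintype.card (Ln F) : ℝ) ^ a := by
    rw [card_powersetCard, card_univ]
    exact_mod_cast Nat.choose_le_pow _ _
  have hsub : (univ.filter fun L => Cand U a C₁ L ∧ ((E2 (U ∩ unc L)).card : ℝ) ≤ B) ⊆
      ((powersetCard a univ).filter fun L₀ => ((E1 U L₀).card : ℝ) ≤ C₁ * Fintype.card F).biUnion
        fun L₀ => (powersetCard a univ).biUnion fun L₁ =>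
          (E1 U L₀).powerset.image fun L₂ => L₀ ∪ L₁ ∪ L₂ := by
    intro L hL
    obtain ⟨L₀, L₁, L₂, h0, h1, h2, h3, h4⟩ := (mem_filter.1 hL).2.1
    simp only [mem_biUnion, mem_filter, mem_powersetCard, mem_image, mem_powerset]
    exact ⟨L₀, ⟨⟨subset_univ _, h0⟩, h2⟩, L₁, ⟨subset_univ _, h1⟩, L₂, h3, h4.symm⟩
  have h1 : (bpX a C₁ B U).card ≤ _ := card_image_le.trans ((card_le_card hsub).trans card_biUnion_le)
  refine le_trans (Nat.cast_le.2 h1) ?_
  push_cast
  refine (sum_le_card_nsmul _ _ ((Fintype.card (Ln F) : ℝ) ^ a *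
      Real.exp (C₁ * Fintype.card F)) fun L₀ hL₀ => ?_).trans ?_
  · refine le_trans (Nat.cast_le.2 card_biUnion_le) ?_
    push_cast
    refine (sum_le_card_nsmul _ _ (Real.exp (C₁ * Fintype.card F)) fun L₁ _ => ?_).trans ?_
    · refine le_trans (Nat.cast_le.2 card_image_le) ?_
      rw [card_powerset]
      push_cast
      exact (bp_two_pow _).trans (Real.exp_le_exp.2 (mem_filter.1 hL₀).2)
    · rw [nsmul_eq_mul]
      exact mul_le_mul_of_nonneg_right hP (Real.exp_pos _).le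
  · rw [nsmul_eq_mul]
    refine mul_le_mul_of_nonneg_right (le_trans ?_ hP) (by positivity)
    exact_mod_cast card_filter_le _ _

lemma bp_Uoff {F : Type} [Field F] [Fintype F] [DecidableEq F] {K : ℕ} (I : Finset (Ix F K))
    (T T' : Ix F K → F) : Uoff (I.piecewise T' T) I = Uoff T I := by
  ext p
  simp only [mem_Uoff]
  refine forall_congr' fun i => forall_congr' fun hi => ?_
  simp [tl, Finset.piecewise, hi]

theorem badSp_prob (K : ℕ) {C₁ C₂ c₀ : ℝ} (hC₁ : 0 ≤ C₁) (hC₂ : 0 ≤ C₂) (hc₀ : 0 < c₀) :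
    ∀ᶠ q : ℕ in atTop, ∀ (F : Type) [Field F] [Fintype F] [DecidableEq F], Fintype.card F = q →
      pr (fun T : Ix F K → F => BadSp ⌈c₀ / 48 * q⌉₊ C₁ C₂ c₀ T) ≤ 1 / 10 := by
  filter_upwards [bp_eventually 2,
    bp_eventually (Real.exp ((2 * K + C₁ + K * C₂ + 33) / (c₀ / 2)))] with q h19 hM F _ _ _ hq
  have h2 := bp_sq q
  have h4 := bp_four q
  set t := √(√(q : ℝ)) with ht
  set a := ⌈c₀ / 48 * (q : ℝ)⌉₊ with ha
  have ht0 : 0 < t := by linarith
  have hq0 : (0 : ℝ) < q := by rw [← h4]; positivity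
  have hlog : 2 * K + C₁ + K * C₂ + 33 ≤ Real.log t * (c₀ / 2) := by
    rw [← Real.le_log_iff_exp_le ht0, div_le_iff₀ (by linarith)] at hM
    exact hM
  have hlog0 : 0 ≤ Real.log t := Real.log_nonneg (by linarith)
  have hlogt : Real.log t ≤ t := (Real.log_le_sub_one_of_pos ht0).trans (by linarith)
  have ha1 : (a : ℝ) ≤ c₀ / 48 * q + 1 := (Nat.ceil_lt_add_one (by positivity)).le
  have step : pr (fun T : Ix F K → F => BadSp a C₁ C₂ c₀ T) ≤
      pr (fun T : Ix F K → F => ∃ I ∈ (univ : Finset (Finset (Ix F K))),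
        ∃ E ∈ bpX a C₁ (C₂ * q * t ^ 2) (Uoff T I), c₀ * q ≤ ∑ i ∈ I, ind ((i.1, T i) ∈ E)) := by
    refine pr_mono fun T ⟨I, L, h1, h3, h5⟩ => ⟨I, mem_univ _, E2 (Uoff T I ∩ unc L), ?_, ?_⟩
    · refine mem_bpX.2 ⟨L, ⟨h1, ?_⟩, rfl⟩
      rw [h2, ← hq]
      exact h3
    · rw [← hq]
      exact h5
  have hln := bp_ln_pow (F := F) h19 (by rw [h4, hq]) a
  refine step.trans ((pr_exists_le_card _ _
    (b := Real.exp (12 * a * Real.log t) * (Real.exp (12 * a * Real.log t) * Real.exp (C₁ * q)) *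
      Real.exp (t * (K * C₂ * t ^ 2) - c₀ * q * Real.log t)) fun I _ => ?_).trans ?_)
  · refine upper_tail_family (A := fun _ : Ix F K => F) I
      (fun T => bpX a C₁ (C₂ * q * t ^ 2) (Uoff T I)) (fun T T' => by rw [bp_Uoff])
      (fun E i x => (i.1, x) ∈ E) (fun T => (bpX_card _ _ _ _).trans ?_) (fun T E hE => ?_)
      (by linarith)
    · rw [hq]
      gcongr
    · refine (bp_sigma _ _).trans ?_
      obtain ⟨L, hL, rfl⟩ := mem_bpX.1 hE
      rw [hq, div_le_iff₀ hq0]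
      have := mul_le_mul_of_nonneg_left hL.2 (Nat.cast_nonneg (α := ℝ) K)
      linarith
  · have hc : ((univ : Finset (Finset (Ix F K))).card : ℝ) ≤ Real.exp ((q + 1) * K) := by
      rw [card_univ, Fintype.card_finset, Fintype.card_prod, card_dir, Fintype.card_fin, hq]
      have := bp_two_pow ((q + 1) * K)
      push_cast at this ⊢
      exact this
    refine (mul_le_mul_of_nonneg_right hc (by positivity)).trans ?_
    rw [← Real.exp_add, ← Real.exp_add, ← Real.exp_add, ← Real.exp_add]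
    have h9 : Real.exp (-9) ≤ 1 / 10 := by
      rw [Real.exp_neg, one_div]
      exact inv_anti₀ (by norm_num) (by linarith [Real.add_one_le_exp 9])
    refine le_trans (Real.exp_le_exp.2 ?_) h9
    have hq1 : (1 : ℝ) ≤ q := by rw [← h4]; exact one_le_pow₀ (by linarith)
    have h3 : t ^ 3 ≤ q := by rw [← h4]; exact pow_le_pow_right₀ (by linarith) (by norm_num)
    have h1 : t ≤ q := by
      rw [← h4]
      simpa using pow_le_pow_right₀ (by linarith : 1 ≤ t) (by norm_num : 1 ≤ 4)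
    have hK : (0 : ℝ) ≤ K := Nat.cast_nonneg _
    have e1 : t * (K * C₂ * t ^ 2) ≤ K * C₂ * q := by
      have := mul_le_mul_of_nonneg_left h3 (mul_nonneg hK hC₂)
      nlinarith
    have e2 : (a : ℝ) * Real.log t ≤ (c₀ / 48 * q + 1) * Real.log t :=
      mul_le_mul_of_nonneg_right ha1 hlog0
    have e3 := mul_le_mul_of_nonneg_right hlog hq0.le
    have e4 : (K : ℝ) ≤ K * q := le_mul_of_one_le_right hK hq1
    nlinarith

end Crest.Agent.R034
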