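import Crest.Agent.R034.Geom

/-!
Definitions for row 34: the random family of lines `T`, the events used in the stability theorem,
and the data of the design (special points, hub directions, rows, columns and kept points).
-/

set_option autoImplicit false

namespace Crest.Agent.R034

open Finset

/-- Indices of the random lines: `K` lines in every direction. -/
abbrev Ix (F : Type) (K : ℕ) := Dir F × Fin K

/-- Rows of a block: the designated line, and the `2 g` hub lines. -/
abbrev Row (g : ℕ) := Option (Bool × Fin g)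

/-- The line with index `i`. -/
def tl {F : Type} {K : ℕ} (T : Ix F K → F) (i : Ix F K) : Ln F := (i.1, T i)

@[simp] lemma tl_fst {F : Type} {K : ℕ} (T : Ix F K → F) (i : Ix F K) : (tl T i).1 = i.1 := rfl

section random
variable {F : Type} [Field F] [Fintype F] [DecidableEq F] {K : ℕ}

/-- Points of `l` on no line of `T` of another direction. -/
def free (T : Ix F K → F) (l : Ln F) : Finset (Pt F) :=
  (pts l).filter fun p => ∀ i : Ix F K, i.1 ≠ l.1 → ¬ On p (tl T i)

lemma mem_free {T : Ix F K → F} {l : Ln F} {p : Pt F} :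
    p ∈ free T l ↔ On p l ∧ ∀ i : Ix F K, i.1 ≠ l.1 → ¬ On p (tl T i) := by
  simp only [free, Finset.mem_filter, mem_pts]

/-- Points on no line of `T` with index outside `I`. -/
def Uoff (T : Ix F K → F) (I : Finset (Ix F K)) : Finset (Pt F) :=
  univ.filter fun p => ∀ i, i ∉ I → ¬ On p (tl T i)

lemma mem_Uoff {T : Ix F K → F} {I : Finset (Ix F K)} {p : Pt F} :
    p ∈ Uoff T I ↔ ∀ i, i ∉ I → ¬ On p (tl T i) := by
  simp only [Uoff, Finset.mem_filter, Finset.mem_univ, true_and]

/-- Every line has about the expected number of free points. -/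
def Q1 (γ : ℝ) (T : Ix F K → F) : Prop :=
  ∀ l : Ln F, |((free T l).card : ℝ) -
    (1 - 1 / (Fintype.card F : ℝ)) ^ (K * Fintype.card F) * Fintype.card F| ≤ γ * Fintype.card F

/-- Stability: `q` lines covering all points off `T` are nearly concurrent. -/
def Stab (m : ℝ) (T : Ix F K → F) : Prop :=
  ∀ L : Finset (Ln F), L.card = Fintype.card F → (∀ p ∈ Uoff T ∅, ∃ l ∈ L, On p l) →
    ∃ y : PPt F, (Fintype.card F : ℝ) - m ≤ deg L y

/-- Number of lines of a sample through a point. -/
def mult {s : ℕ} (ω : Fin s → Ln F) (p : Pt F) : ℕ := (univ.filter fun j => On p (ω j)).card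

open Classical in
/-- Lines carrying many multiple points of a sample. -/
noncomputable def Eb {s : ℕ} (ω : Fin s → Ln F) : Finset (Ln F) :=
  univ.filter fun l => (s : ℝ) / 76800 ≤ ∑ p ∈ pts l, ((mult ω p - 1 : ℕ) : ℝ)

/-- First bad event of the stability theorem. -/
def BadB1 (T : Ix F K → F) : Prop :=
  ∃ s : ℕ, s ≤ Fintype.card F ∧ √(Fintype.card F : ℝ) / 400 ≤ s ∧ ∃ ω : Fin s → Ln F,
    ((Eb ω).card : ℝ) ≤ 16 * 153600 ^ 2 * Fintype.card F ∧
    25 * (s : ℝ) ≤ ∑ i, ind (tl T i ∈ Eb ω)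

open Classical in
/-- Lines meeting the part of `X` covered by `L₀` in few points. -/
noncomputable def E1 (X : Finset (Pt F)) (L₀ : Finset (Ln F)) : Finset (Ln F) :=
  univ.filter fun l => (idx (X \ unc L₀) l : ℝ) ≤ ((X \ unc L₀).card : ℝ) / (2 * Fintype.card F)

open Classical in
/-- Lines meeting `Y` in at least twice the average number of points. -/
noncomputable def E2 (Y : Finset (Pt F)) : Finset (Ln F) :=
  univ.filter fun l => 2 * (Y.card : ℝ) / Fintype.card F ≤ idx Y l

/-- Sets of lines that can be described by little data, given the point set `X`. -/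
def Cand (X : Finset (Pt F)) (a : ℕ) (C₁ : ℝ) (L : Finset (Ln F)) : Prop :=
  ∃ L₀ L₁ L₂ : Finset (Ln F), L₀.card = a ∧ L₁.card = a ∧
    ((E1 X L₀).card : ℝ) ≤ C₁ * Fintype.card F ∧ L₂ ⊆ E1 X L₀ ∧ L = L₀ ∪ L₁ ∪ L₂

/-- Second bad event of the stability theorem. -/
def BadSp (a : ℕ) (C₁ C₂ c₀ : ℝ) (T : Ix F K → F) : Prop :=
  ∃ (I : Finset (Ix F K)) (L : Finset (Ln F)), Cand (Uoff T I) a C₁ L ∧
    ((E2 (Uoff T I ∩ unc L)).card : ℝ) ≤ C₂ * Fintype.card F * √(Fintype.card F : ℝ) ∧
    c₀ * Fintype.card F ≤ ∑ i ∈ I, ind (tl T i ∈ E2 (Uoff T I ∩ unc L))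

/-- `p` lies on the designated line of direction `e`. -/
def Des {k : ℕ} (T : Ix F (k + 1) → F) (e : Dir F) (p : Pt F) : Prop := On p (tl T (e, 0))

/-- `p` lies on a pool line of direction `e`. -/
def Pool {k : ℕ} (T : Ix F (k + 1) → F) (e : Dir F) (p : Pt F) : Prop :=
  ∃ j : Fin (k + 1), j ≠ 0 ∧ On p (tl T (e, j))

open Classical in
/-- Candidates for a special point on `l`. -/
noncomputable def N1 {k : ℕ} (g : ℕ) (T : Ix F (k + 1) → F) (l : Ln F) : Finset (Pt F) :=
  (pts l).filter fun p => (∀ e, e ≠ l.1 → ¬ Des T e p) ∧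
    (univ.filter fun e => e ≠ l.1 ∧ Pool T e p).card = g

open Classical in
/-- Points of `l` that look like candidates of another direction having `l` as a hub line. -/
noncomputable def N2 {k : ℕ} (g : ℕ) (T : Ix F (k + 1) → F) (l : Ln F) : Finset (Pt F) :=
  (pts l).filter fun p => ∃ e, e ≠ l.1 ∧ Des T e p ∧
    (∀ e', e' ≠ l.1 → e' ≠ e → ¬ Des T e' p) ∧
    (univ.filter fun e' => e' ≠ l.1 ∧ e' ≠ e ∧ Pool T e' p).card = g - 1

/-- Many candidates, few conflicts. -/
def Q23 {k : ℕ} (g : ℕ) (T : Ix F (k + 1) → F) : Prop :=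
  ∃ Δ : ℝ, (∀ l, 2 * g * ((N2 g T l).card : ℝ) + g * (k + 1) + 1 ≤ Δ) ∧
    ∀ l, 4 * Δ ≤ (N1 g T l).card

open Classical in
/-- For every configuration of rows and projection directions many points of `l` have all their
projections free. -/
def Q4 (g : ℕ) (δ : ℝ) (T : Ix F K → F) : Prop :=
  ∀ (l : Ln F) (ρ : Row g → Ln F) (η : Row g → Dir F), (∀ r, η r ≠ l.1 ∧ η r ≠ (ρ r).1) →
    δ * Fintype.card F ≤
      (((pts l).filter fun w => ∀ r, meet (ρ r) (η r, ev (η r) w) ∈ free T (ρ r)).card : ℝ)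

/-- No projective point lies on many lines of `T`. -/
def Q5 (T : Ix F K → F) : Prop :=
  ∀ y : PPt F, ((univ.filter fun i => POn y (tl T i)).card : ℝ) ≤ √(Fintype.card F : ℝ)

end random

section design
variable {F : Type} [Field F] {g : ℕ}

/-- The deleted lines of block `d`. -/
def row (c : Dir F → F) (z : Dir F → Bool → Pt F) (h : Dir F → Bool → Fin g → Dir F)
    (d : Dir F) (r : Row g) : Ln F :=
  r.elim (d, c d) fun x => (h d x.1 x.2, ev (h d x.1 x.2) (z d x.1))

@[simp] lemma row_none (c : Dir F → F) (z : Dir F → Bool → Pt F)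
    (h : Dir F → Bool → Fin g → Dir F) (d : Dir F) : row c z h d none = (d, c d) := rfl

@[simp] lemma row_some (c : Dir F → F) (z : Dir F → Bool → Pt F)
    (h : Dir F → Bool → Fin g → Dir F) (d : Dir F) (x : Bool × Fin g) :
    row c z h d (some x) = (h d x.1 x.2, ev (h d x.1 x.2) (z d x.1)) := rfl

/-- `p` is the kept point on row `r` of block `d` and column `i`, when the kept point of the
designated line is `w`. -/
def Kept (c : Dir F → F) (z : Dir F → Bool → Pt F) (h : Dir F → Bool → Fin g → Dir F)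
    (d : Dir F) (i : Fin g) (w : Pt F) (r : Row g) (p : Pt F) : Prop :=
  On p (row c z h d r) ∧
    r.elim (p = w) fun x => x.2 ≠ i ∧ On p (h d x.1 i, ev (h d x.1 i) w)

/-- Properties of the special points and hub directions. -/
structure Pre (c : Dir F → F) (z : Dir F → Bool → Pt F) (h : Dir F → Bool → Fin g → Dir F) :
    Prop where
  z_on : ∀ d s, On (z d s) (d, c d)
  h_ne : ∀ d s j, h d s j ≠ d
  h_inj : ∀ d s j s' j', h d s j = h d s' j' → s = s' ∧ j = j'
  z_row : ∀ d s e r, On (z d s) (row c z h e r) → e = d ∧ ∀ x, r = some x → x.1 = s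

/-- Properties of the kept points. -/
structure Post (R : ℕ) (c : Dir F → F) (z : Dir F → Bool → Pt F)
    (h : Dir F → Bool → Fin g → Dir F) (w : Dir F → Fin g → Pt F) : Prop where
  w_on : ∀ d i, On (w d i) (d, c d)
  kept_row : ∀ d i r p, Kept c z h d i (w d i) r p →
    ∀ e r', On p (row c z h e r') → row c z h e r' = row c z h d r
  rbound : ∀ (y : PPt F) (μ : Ln F), ¬ POn y μ → ∀ S : Finset (Dir F × Fin g),
    (∀ x ∈ S, ∃ r p, Kept c z h x.1 x.2 (w x.1 x.2) r p ∧ On p μ ∧ POn y (row c z h x.1 r)) →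
      S.card ≤ R

end design

/-- The hypergraph to be built, on the vertex set `Dir F × Option F`, edges being functions. -/
def Goal (F : Type) [Fintype F] : Prop :=
  ∃ E : Finset (Dir F → Option F), E.Nonempty ∧ (∀ e ∈ E, ∀ f ∈ E, ∃ d, e d = f d) ∧
    (∀ d x, ∃ e ∈ E, e d = x) ∧
    ∀ S : Finset (Dir F × Option F), (∀ e ∈ E, ∃ d, (d, e d) ∈ S) → Fintype.card F + 1 ≤ S.card

end Crest.Agent.R034
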