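import Crest.Agent.R034.Defs

set_option autoImplicit false
set_option linter.unusedSectionVars false

namespace Crest.Agent.R034

open Finset Filter

variable {F : Type} [Field F] [Fintype F] [DecidableEq F]

section aux
variable {g R : ℕ} {c : Dir F → F} {z : Dir F → Bool → Pt F}
  {h : Dir F → Bool → Fin g → Dir F} {w : Dir F → Fin g → Pt F}

/-- The column lines. -/
def finCol (h : Dir F → Bool → Fin g → Dir F) (w : Dir F → Fin g → Pt F)
    (d : Dir F) (s : Bool) (i : Fin g) : Ln F := (h d s i, ev (h d s i) (w d i))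

open Classical in
/-- The extra edges. -/
noncomputable def finPhi (z : Dir F → Bool → Pt F) (h : Dir F → Bool → Fin g → Dir F)
    (w : Dir F → Fin g → Pt F) (d : Dir F) (s : Bool) : Dir F → Option F := fun e =>
  if e = d then none else if hh : ∃ i, h d s i = e then some (ev e (w d hh.choose))
    else some (ev e (z d s))

/-- The base points. -/
def finB (z : Dir F → Bool → Pt F) (h : Dir F → Bool → Fin g → Dir F)
    (w : Dir F → Fin g → Pt F) (p : Pt F) : Prop :=
  ∀ d s, ∃ e, finPhi z h w d s e = some (ev e p)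

/-- Admissible columns of a row. -/
def finAdm (r : Row g) (i : Fin g) : Prop := ∀ x, r = some x → x.2 ≠ i

lemma finPhi_self (d : Dir F) (s : Bool) : finPhi z h w d s d = none := by
  simp [finPhi]

lemma finPhi_hub (hpre : Pre c z h) (d : Dir F) (s : Bool) (i : Fin g) :
    finPhi z h w d s (h d s i) = some (ev (h d s i) (w d i)) := by
  have hh : ∃ j, h d s j = h d s i := ⟨i, rfl⟩
  unfold finPhi
  rw [if_neg (hpre.h_ne d s i), dif_pos hh, (hpre.h_inj _ _ _ _ _ hh.choose_spec).2]

lemma finPhi_other {d : Dir F} {s : Bool} {e : Dir F} (h1 : e ≠ d) (h2 : ∀ i, h d s i ≠ e) :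
    finPhi z h w d s e = some (ev e (z d s)) := by
  unfold finPhi
  rw [if_neg h1, dif_neg (fun ⟨i, hi⟩ => h2 i hi)]

lemma fin_z_on_none (hpre : Pre c z h) (d : Dir F) (s : Bool) :
    On (z d s) (row c z h d none) := hpre.z_on d s

lemma fin_z_on_some (d : Dir F) (s : Bool) (j : Fin g) :
    On (z d s) (row c z h d (some (s, j))) := on_self _ _

lemma fin_row_inj (hpre : Pre c z h) {d e : Dir F} {r r' : Row g}
    (hr : row c z h d r = row c z h e r') : d = e ∧ r = r' := by
  rcases r with _ | ⟨s, j⟩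
  · have h1 := hpre.z_row d false e r' (hr ▸ fin_z_on_none hpre d false)
    have h2 := hpre.z_row d true e r' (hr ▸ fin_z_on_none hpre d true)
    refine ⟨h1.1.symm, ?_⟩
    rcases r' with _ | x
    · rfl
    · exact absurd ((h1.2 x rfl).symm.trans (h2.2 x rfl)) (by simp)
  · have h1 := hpre.z_row d s e r' (hr ▸ fin_z_on_some d s j)
    obtain rfl := h1.1
    refine ⟨rfl, ?_⟩
    have h2 := congrArg Prod.fst hr
    rcases r' with _ | ⟨s', j'⟩
    · exact absurd h2 (hpre.h_ne _ _ _)
    · obtain ⟨rfl, rfl⟩ := hpre.h_inj _ _ _ _ _ h2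
      rfl

/-- The line through `z d s` of direction `e` is a row or belongs to the extra edge. -/
lemma fin_dir_cases (hpre : Pre c z h) (d : Dir F) (s : Bool) (e : Dir F) :
    finPhi z h w d s e = some (ev e (z d s)) ∨ (e, ev e (z d s)) = row c z h d none ∨
      ∃ j, (e, ev e (z d s)) = row c z h d (some (s, j)) := by
  by_cases h1 : e = d
  · subst h1
    exact Or.inr (Or.inl (Prod.ext rfl (hpre.z_on e s)))
  by_cases h2 : ∃ j, h d s j = e
  · obtain ⟨j, rfl⟩ := h2
    exact Or.inr (Or.inr ⟨j, rfl⟩)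
  · exact Or.inl (finPhi_other h1 fun i hi => h2 ⟨i, hi⟩)

lemma finB_of_norow (hpre : Pre c z h) {p : Pt F} (hp : ∀ d r, ¬ On p (row c z h d r)) :
    finB z h w p := by
  intro d s
  obtain ⟨e, he⟩ := exists_dir p (z d s)
  have hon : On p (e, ev e (z d s)) := he
  rcases fin_dir_cases (w := w) hpre d s e with h1 | h1 | ⟨j, h1⟩
  · exact ⟨e, he ▸ h1⟩
  · exact absurd (h1 ▸ hon) (hp _ _)
  · exact absurd (h1 ▸ hon) (hp _ _)

lemma finB_of_kept (hpre : Pre c z h) (hpost : Post R c z h w) {d : Dir F} {i : Fin g}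
    {r : Row g} {p : Pt F} (hp : Kept c z h d i (w d i) r p) : finB z h w p := by
  intro d' s
  obtain ⟨e, he⟩ := exists_dir p (z d' s)
  have hon : On p (e, ev e (z d' s)) := he
  rcases fin_dir_cases (w := w) hpre d' s e with h1 | h1 | ⟨j, h1⟩
  · exact ⟨e, he ▸ h1⟩
  · obtain ⟨rfl, rfl⟩ := fin_row_inj hpre (hpost.kept_row d i r p hp _ _ (h1 ▸ hon))
    have : p = w d' i := hp.2
    exact ⟨h d' s i, this ▸ finPhi_hub hpre d' s i⟩
  · obtain ⟨rfl, rfl⟩ := fin_row_inj hpre (hpost.kept_row d i r p hp _ _ (h1 ▸ hon))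
    have : ev (h d' s i) p = ev (h d' s i) (w d' i) := hp.2.2
    exact ⟨h d' s i, this ▸ finPhi_hub hpre d' s i⟩

lemma fin_kept_w (hpost : Post R c z h w) (d : Dir F) (i : Fin g) :
    Kept c z h d i (w d i) none (w d i) := ⟨hpost.w_on d i, rfl⟩

lemma fin_kept_ne_z (hpre : Pre c z h) (hpost : Post R c z h w) {d : Dir F} {i : Fin g}
    {r : Row g} {p : Pt F} (hp : Kept c z h d i (w d i) r p) (e : Dir F) (s : Bool) :
    p ≠ z e s := by
  rintro rfl
  have h1 := hpost.kept_row d i r _ hp _ _ (fin_z_on_none hpre e s)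
  have h2 := hpost.kept_row d i r _ hp _ _ (fin_z_on_some e s i)
  exact absurd (fin_row_inj hpre (h1.trans h2.symm)).2 (by simp)

lemma fin_exists_kept (hpre : Pre c z h) (hpost : Post R c z h w) (d : Dir F) {r : Row g}
    {i : Fin g} (hi : finAdm r i) : ∃ p, Kept c z h d i (w d i) r p := by
  rcases r with _ | ⟨s, j⟩
  · exact ⟨_, fin_kept_w hpost d i⟩
  · have hji : j ≠ i := hi _ rfl
    obtain ⟨p, h1, h2⟩ := exists_meet (l := row c z h d (some (s, j))) (l' := finCol h w d s i)
      (fun hh => hji (hpre.h_inj _ _ _ _ _ hh).2)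
    exact ⟨p, h1, hji, h2⟩

lemma fin_exists_adm (r : Row g) : ∃ A : Finset (Fin g), g - 1 ≤ A.card ∧ ∀ i ∈ A, finAdm r i := by
  rcases r with _ | x
  · exact ⟨univ, by simp, fun i _ x hx => by simp at hx⟩
  · refine ⟨univ.erase x.2, by simp, fun i hi x' hx => ?_⟩
    obtain rfl := Option.some.inj hx
    exact (Finset.ne_of_mem_erase hi).symm

lemma fin_z_ne (hpre : Pre c z h) (j : Fin g) (d : Dir F) (s : Bool) : z d s ≠ z d (!s) := by
  intro hh
  have := (hpre.z_row d (!s) d (some (s, j)) (hh ▸ fin_z_on_some d s j)).2 _ rfl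
  simp at this

/-- A line of direction `≠ d` has at most one point on the designated line. -/
lemma fin_one_pt {d : Dir F} {l : Ln F} (hl : l.1 ≠ d) {p p' : Pt F} (h1 : On p l) (h2 : On p' l)
    (h3 : On p (d, c d)) (h4 : On p' (d, c d)) : p = p' :=
  pt_eq_of_on (l := l) (l' := (d, c d)) hl h1 h3 h2 h4

lemma fin_col_miss (hpre : Pre c z h) (hpost : Post R c z h w) (d : Dir F) (s s' : Bool)
    (i : Fin g) : ¬ On (z d s') (finCol h w d s i) := fun hh =>
  fin_kept_ne_z hpre hpost (fin_kept_w hpost d i) d s'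
    (fin_one_pt (l := finCol h w d s i) (hpre.h_ne d s i) (on_self _ _) hh (hpost.w_on d i)
      (hpre.z_on d s'))

lemma fin_rows_le_two (hpre : Pre c z h) {y : PPt F} {d : Dir F}
    (hy : ∀ s, y ≠ Sum.inl (z d s)) (A : Finset (Row g)) (hA : ∀ r ∈ A, POn y (row c z h d r)) :
    A.card ≤ 2 := by
  have key : ∀ r : Row g, On (z d (r.elim false Prod.fst)) (row c z h d r) := by
    rintro (_ | ⟨s, j⟩)
    · exact fin_z_on_none hpre d false
    · exact fin_z_on_some d s j
  have := Finset.card_le_card_of_injOn (s := A) (t := (univ : Finset Bool))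
    (fun r => r.elim false Prod.fst) (fun _ _ => Finset.mem_coe.2 (Finset.mem_univ _))
    (fun r hr r' hr' hh => by
      have h1 := key r
      have h2 := key r'
      simp only at hh
      rw [← hh] at h2
      exact (fin_row_inj hpre (ln_eq_of_pon (hy _) (hA r hr) h1 (hA r' hr') h2)).2)
  simpa using this

/-- The case when the centre is none of the special points. -/
lemma fin_case_generic (hg : 2 * R + 2 ≤ g) (hpre : Pre c z h) (hpost : Post R c z h w)
    (L J M : Finset (Ln F)) (y : PPt F)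
    (hcov : ∀ p, finB z h w p → ∃ l ∈ L, On p l)
    (hJ : ∀ l, l ∈ J ↔ POn y l ∧ l ∉ L) (hM : ∀ l, l ∈ M ↔ l ∈ L ∧ ¬ POn y l)
    (hJrow : ∀ l ∈ J, ∃ d r, l = row c z h d r) (hJne : J.Nonempty) (hMJ : M.card ≤ J.card)
    (hMJ' : ∀ p, y = Sum.inl p → M.card + 1 ≤ J.card)
    (hy : ∀ d s, y ≠ Sum.inl (z d s)) : False := by
  classical
  by_cases hk : ∃ d i r p, Kept c z h d i (w d i) r p ∧ y = Sum.inl p
  · obtain ⟨d, i, r, p, hp, rfl⟩ := hk
    have hJ1 : ∀ l ∈ J, l = row c z h d r := by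
      intro l hl
      obtain ⟨e, r', rfl⟩ := hJrow l hl
      exact hpost.kept_row d i r p hp e r' ((hJ _).1 hl).1
    have hc : J.card ≤ 1 := Finset.card_le_one.2 fun a ha b hb => (hJ1 a ha).trans (hJ1 b hb).symm
    have hM0 : M = ∅ := Finset.card_eq_zero.1 (by have := hMJ' p rfl; omega)
    obtain ⟨l0, hl0⟩ := hJne
    have hnL : row c z h d r ∉ L := hJ1 l0 hl0 ▸ ((hJ _).1 hl0).2
    obtain ⟨A, hA1, hA2⟩ := fin_exists_adm r
    obtain ⟨e, he⟩ := exists_ne (row c z h d r).1
    have := hpost.rbound (Sum.inr (row c z h d r).1) (e, ev e p) he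
      (A.image fun i => (d, i)) (by
        intro x hx
        obtain ⟨i', hi', rfl⟩ := Finset.mem_image.1 hx
        obtain ⟨p', hp'⟩ := fin_exists_kept hpre hpost d (hA2 i' hi')
        obtain ⟨μ, hμ, hon⟩ := hcov p' (finB_of_kept hpre hpost hp')
        have hyμ : On p μ := by
          by_contra hh
          have : μ ∈ M := (hM _).2 ⟨hμ, hh⟩
          simp [hM0] at this
        have : p' = p := pt_eq_of_on_of_ne (l := μ) (l' := row c z h d r)
          (fun hh => hnL (hh ▸ hμ)) hon hp'.1 hyμ hp.1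
        exact ⟨r, p', hp', this ▸ on_self _ _, rfl⟩)
    rw [Finset.card_image_of_injective _ (fun a b hab => (Prod.mk.inj hab).2)] at this
    omega
  push Not at hk
  let T : Finset ((Dir F × Row g) × Fin g) :=
    univ.filter fun t => row c z h t.1.1 t.1.2 ∈ J ∧ finAdm t.1.2 t.2
  have hT : ∀ t, t ∈ T ↔ row c z h t.1.1 t.1.2 ∈ J ∧ finAdm t.1.2 t.2 := fun t => by simp [T]
  have hlow : (g - 1) * J.card ≤ T.card := by
    refine Finset.mul_card_image_le_card_of_maps_to (f := fun t => row c z h t.1.1 t.1.2)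
      (fun t ht => ((hT t).1 ht).1) _ fun l hl => ?_
    obtain ⟨d, r, rfl⟩ := hJrow l hl
    obtain ⟨A, hA1, hA2⟩ := fin_exists_adm r
    refine hA1.trans (Finset.card_le_card_of_injOn (fun i => ((d, r), i)) (fun i hi => ?_)
      (fun a _ b _ hab => (Prod.mk.inj hab).2))
    exact Finset.mem_coe.2 (Finset.mem_filter.2 ⟨(hT _).2 ⟨hl, hA2 i hi⟩, rfl⟩)
  have hex : ∀ t : (Dir F × Row g) × Fin g, ∃ μ : Ln F, t ∈ T → μ ∈ M ∧
      ∃ p, Kept c z h t.1.1 t.2 (w t.1.1 t.2) t.1.2 p ∧ On p μ := by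
    intro t
    by_cases ht : t ∈ T
    · obtain ⟨h1, h2⟩ := (hT t).1 ht
      obtain ⟨p, hp⟩ := fin_exists_kept hpre hpost t.1.1 h2
      obtain ⟨μ, hμ, hon⟩ := hcov p (finB_of_kept hpre hpost hp)
      refine ⟨μ, fun _ => ⟨(hM _).2 ⟨hμ, fun hh => ((hJ _).1 h1).2 ?_⟩, p, hp, hon⟩⟩
      exact ln_eq_of_pon (hk _ _ _ _ hp) hh hon ((hJ _).1 h1).1 hp.1 ▸ hμ
    · exact ⟨(none, 0), fun hh => absurd hh ht⟩
  choose f hf using hex
  have hup : T.card ≤ (2 * R) * M.card := by
    refine Finset.card_le_mul_card_image_of_maps_to (f := f) (fun t ht => (hf t ht).1) _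
      fun μ hμ => ?_
    refine (Finset.card_le_mul_card_image (f := fun t => (t.1.1, t.2)) _ 2 ?_).trans
      (Nat.mul_le_mul_left _ (hpost.rbound y μ ((hM _).1 hμ).2 _ ?_))
    · rintro ⟨d, i⟩ -
      have h2 := fin_rows_le_two hpre (hy d)
        ((((T.filter fun t => f t = μ).filter fun t => (t.1.1, t.2) = (d, i))).image
          fun t => t.1.2) (by
          intro r hr
          obtain ⟨t, ht, rfl⟩ := Finset.mem_image.1 hr
          obtain ⟨ht1, ht2⟩ := Finset.mem_filter.1 ht
          obtain ⟨rfl, -⟩ := Prod.mk.inj ht2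
          exact ((hJ _).1 ((hT t).1 (Finset.mem_filter.1 ht1).1).1).1)
      rwa [Finset.card_image_of_injOn] at h2
      intro a ha b hb hab
      have h3 := (Finset.mem_filter.1 ha).2.trans (Finset.mem_filter.1 hb).2.symm
      exact Prod.ext (Prod.ext (Prod.mk.inj h3).1 hab) (Prod.mk.inj h3).2
    · intro x hx
      obtain ⟨t, ht, rfl⟩ := Finset.mem_image.1 hx
      obtain ⟨ht1, rfl⟩ := Finset.mem_filter.1 ht
      obtain ⟨p, hp, hon⟩ := (hf t ht1).2
      exact ⟨t.1.2, p, hp, hon, ((hJ _).1 ((hT t).1 ht1).1).1⟩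
  have h1 : 0 < J.card := hJne.card_pos
  have h2 : (2 * R + 1) * J.card ≤ (g - 1) * J.card := Nat.mul_le_mul_right _ (by omega)
  have h3 : (2 * R) * M.card ≤ (2 * R) * J.card := Nat.mul_le_mul_left _ hMJ
  nlinarith

/-- The case when the centre is a special point. -/
lemma fin_case_special (hg : 2 * R + 2 ≤ g) (hpre : Pre c z h) (hpost : Post R c z h w)
    (L J M : Finset (Ln F)) (b : ℕ) (d : Dir F) (s : Bool)
    (hcov : ∀ p, finB z h w p → ∃ l ∈ L, On p l)
    (hcov' : b = 0 → ∀ d s, ∃ e x, finPhi z h w d s e = some x ∧ (e, x) ∈ L)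
    (hJ : ∀ l, l ∈ J ↔ On (z d s) l ∧ l ∉ L) (hM : ∀ l, l ∈ M ↔ l ∈ L ∧ ¬ On (z d s) l)
    (hJrow : ∀ l ∈ J, ∃ d r, l = row c z h d r)
    (hMJ : M.card + b + 1 ≤ J.card) : False := by
  classical
  have hJrow' : ∀ l ∈ J, ∃ r, l = row c z h d r ∧ ∀ x, r = some x → x.1 = s := by
    intro l hl
    obtain ⟨e, r, rfl⟩ := hJrow l hl
    obtain ⟨rfl, h2⟩ := hpre.z_row d s e r ((hJ _).1 hl).1
    exact ⟨r, rfl, h2⟩
  have hcolinj : Function.Injective (finCol h w d s) := fun i j hij =>
    (hpre.h_inj _ _ _ _ _ (congrArg Prod.fst hij)).2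
  have j0 : Fin g := ⟨0, by omega⟩
  by_cases hall : ∀ i, finCol h w d s i ∈ L
  · have hsub : univ.image (finCol h w d s) ⊆ M := by
      intro l hl
      obtain ⟨i, -, rfl⟩ := Finset.mem_image.1 hl
      exact (hM _).2 ⟨hall i, fin_col_miss hpre hpost d s s i⟩
    have hc : (univ.image (finCol h w d s)).card = g := by
      rw [Finset.card_image_of_injective _ hcolinj]; simp
    have hJc : J.card ≤ g + 1 := by
      have : J ⊆ univ.image fun o : Option (Fin g) => row c z h d (o.map fun j => (s, j)) := by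
        intro l hl
        obtain ⟨r, rfl, hr⟩ := hJrow' l hl
        rcases r with _ | ⟨s', j⟩
        · exact Finset.mem_image.2 ⟨none, Finset.mem_univ _, rfl⟩
        · obtain rfl : s' = s := hr _ rfl
          exact Finset.mem_image.2 ⟨some j, Finset.mem_univ _, rfl⟩
      exact (Finset.card_le_card this).trans (Finset.card_image_le.trans (by simp))
    have h1 := Finset.card_le_card hsub
    have hMeq : univ.image (finCol h w d s) = M := Finset.eq_of_subset_of_card_le hsub (by omega)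
    obtain ⟨e, x, hx, hL⟩ := hcov' (by omega) d (!s)
    have hed : e ≠ d := by
      rintro rfl
      rw [finPhi_self] at hx
      exact absurd hx (by simp)
    by_cases h2 : ∃ i, h d (!s) i = e
    · obtain ⟨i, rfl⟩ := h2
      rw [finPhi_hub hpre] at hx
      obtain rfl := Option.some.inj hx
      have h3 : finCol h w d (!s) i ∈ M := (hM _).2 ⟨hL, fin_col_miss hpre hpost d (!s) s i⟩
      rw [← hMeq] at h3
      obtain ⟨i', -, hi'⟩ := Finset.mem_image.1 h3
      have := (hpre.h_inj _ _ _ _ _ (congrArg Prod.fst hi')).1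
      simp at this
    · rw [finPhi_other hed fun i hi => h2 ⟨i, hi⟩] at hx
      obtain rfl := Option.some.inj hx
      have h3 : (e, ev e (z d (!s))) ∈ M := (hM _).2 ⟨hL, fun hh => fin_z_ne hpre j0 d s
        (fin_one_pt (l := (e, ev e (z d (!s)))) hed hh (on_self _ _) (hpre.z_on d s)
          (hpre.z_on d (!s)))⟩
      rw [← hMeq] at h3
      obtain ⟨i', -, hi'⟩ := Finset.mem_image.1 h3
      exact fin_col_miss hpre hpost d s (!s) i' (hi' ▸ on_self _ _)
  push Not at hall
  obtain ⟨i0, hi0⟩ := hall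
  -- kept points on rows of `J` are covered by lines of `M`
  have hcovM : ∀ i r p, Kept c z h d i (w d i) r p → row c z h d r ∈ J → ∃ μ ∈ M, On p μ := by
    intro i r p hp hr
    obtain ⟨μ, hμ, hon⟩ := hcov p (finB_of_kept hpre hpost hp)
    refine ⟨μ, (hM _).2 ⟨hμ, fun hh => ((hJ _).1 hr).2 ?_⟩, hon⟩
    exact ln_eq_of_on_of_ne (fin_kept_ne_z hpre hpost hp d s) hon hh hp.1 ((hJ _).1 hr).1 ▸ hμ
  have hkcol : ∀ i r p, Kept c z h d i (w d i) r p → row c z h d r ∈ J →
      On p (finCol h w d s i) := by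
    intro i r p hp hr
    rcases r with _ | ⟨s', j⟩
    · obtain rfl : p = w d i := hp.2
      exact on_self _ _
    · obtain rfl : s' = s := (hpre.z_row d s d _ ((hJ _).1 hr).1).2 _ rfl
      exact hp.2.2
  have hbij : ∀ i, finCol h w d s i ∉ L → ∀ μ ∈ M, ∃ r p, Kept c z h d i (w d i) r p ∧ On p μ ∧
      row c z h d r ∈ J := by
    intro i hi
    have hex : ∀ l : Ln F, ∃ μ : Ln F, l ∈ J.erase (row c z h d (some (s, i))) → μ ∈ M ∧
        ∃ r p, Kept c z h d i (w d i) r p ∧ On p μ ∧ row c z h d r = l := by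
      intro l
      by_cases hl : l ∈ J.erase (row c z h d (some (s, i)))
      · obtain ⟨hl1, hl2⟩ := Finset.mem_erase.1 hl
        obtain ⟨r, rfl, hr⟩ := hJrow' l hl2
        have hadm : finAdm r i := by
          rintro ⟨s', j⟩ rfl hx
          obtain rfl : s' = s := hr _ rfl
          obtain rfl : j = i := hx
          exact hl1 rfl
        obtain ⟨p, hp⟩ := fin_exists_kept hpre hpost d hadm
        obtain ⟨μ, hμ, hon⟩ := hcovM i r p hp hl2
        exact ⟨μ, fun _ => ⟨hμ, r, p, hp, hon, rfl⟩⟩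
      · exact ⟨l, fun hh => absurd hh hl⟩
    choose f hf using hex
    have hsurj := Finset.surjOn_of_injOn_of_card_le (s := J.erase (row c z h d (some (s, i))))
      (t := M) f (fun l hl => (hf l hl).1) (by
        intro l hl l' hl' hll
        obtain ⟨h1, r, p, hp, hon, rfl⟩ := hf l hl
        obtain ⟨-, r', p', hp', hon', rfl⟩ := hf l' hl'
        rw [← hll] at hon'
        have : p = p' := pt_eq_of_on_of_ne (l := f (row c z h d r)) (l' := finCol h w d s i)
          (fun hh => hi (hh ▸ ((hM _).1 h1).1)) hon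
          (hkcol i r p hp (Finset.mem_of_mem_erase hl)) hon'
          (hkcol i r' p' hp' (Finset.mem_of_mem_erase hl'))
        subst this
        exact hpost.kept_row d i r' p hp' d r hp.1)
      (by have := Finset.pred_card_le_card_erase (s := J) (a := row c z h d (some (s, i))); omega)
    intro μ hμ
    obtain ⟨l, hl, rfl⟩ := hsurj hμ
    obtain ⟨-, r, p, hp, hon, rfl⟩ := hf l hl
    exact ⟨r, p, hp, hon, Finset.mem_of_mem_erase hl⟩
  have hMne : M.Nonempty := by
    obtain ⟨l, hl⟩ := Finset.card_pos.1 (show 0 < J.card by omega)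
    obtain ⟨r, rfl, -⟩ := hJrow' l hl
    obtain ⟨A, hA1, hA2⟩ := fin_exists_adm r
    obtain ⟨i, hi⟩ := Finset.card_pos.1 (show 0 < A.card by omega)
    obtain ⟨p, hp⟩ := fin_exists_kept hpre hpost d (hA2 i hi)
    obtain ⟨μ, hμ, -⟩ := hcovM i r p hp hl
    exact ⟨μ, hμ⟩
  obtain ⟨μ0, hμ0⟩ := hMne
  have hinj : Function.Injective fun i : Fin g => (d, i) := fun a b hab => (Prod.mk.inj hab).2
  have hmiss := hpost.rbound (Sum.inl (z d s)) μ0 ((hM _).1 hμ0).2
    ((univ.filter fun i => ¬ finCol h w d s i ∈ L).image fun i => (d, i)) (by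
      intro x hx
      obtain ⟨i, hi, rfl⟩ := Finset.mem_image.1 hx
      obtain ⟨r, p, hp, hon, hr⟩ := hbij i (Finset.mem_filter.1 hi).2 μ0 hμ0
      exact ⟨r, p, hp, hon, ((hJ _).1 hr).1⟩)
  have hpres := hpost.rbound (Sum.inl (z d s)) (finCol h w d s i0)
    (fin_col_miss hpre hpost d s s i0)
    ((univ.filter fun i => finCol h w d s i ∈ L).image fun i => (d, i)) (by
      intro x hx
      obtain ⟨i, hi, rfl⟩ := Finset.mem_image.1 hx
      obtain ⟨r, p, hp, hon, hr⟩ := hbij i0 hi0 (finCol h w d s i)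
        ((hM _).2 ⟨(Finset.mem_filter.1 hi).2, fin_col_miss hpre hpost d s s i⟩)
      refine ⟨r, p, ⟨hp.1, ?_⟩, hkcol i0 r p hp hr, ((hJ _).1 hr).1⟩
      rcases r with _ | ⟨s', j⟩
      · exact fin_one_pt (l := finCol h w d s i) (hpre.h_ne d s i) hon (on_self _ _) hp.1
          (hpost.w_on d i)
      · obtain rfl : s' = s := (hpre.z_row d s d _ ((hJ _).1 hr).1).2 _ rfl
        refine ⟨?_, hon⟩
        rintro (rfl : j = i)
        exact fin_col_miss hpre hpost d s' s' j
          (eq_of_on_of_dir hp.1 hon rfl ▸ ((hJ _).1 hr).1))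
  rw [Finset.card_image_of_injective _ hinj] at hmiss hpres
  have := Finset.card_filter_add_card_filter_not (s := (univ : Finset (Fin g)))
    (fun i => finCol h w d s i ∈ L)
  simp only [Finset.card_univ, Fintype.card_fin] at this
  omega

lemma fin_no_cover (hg : 2 * R + 2 ≤ g) (hpre : Pre c z h) (hpost : Post R c z h w) {m : ℝ}
    (hrich : ∀ l : Ln F, (∀ d r, l ≠ row c z h d r) → ∃ X : Finset (Pt F), m + 1 < X.card ∧
      ∀ p ∈ X, On p l ∧ ∀ d r, ¬ On p (row c z h d r))
    (hstab : ∀ L : Finset (Ln F), L.card = Fintype.card F →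
      (∀ p, (∀ d r, ¬ On p (row c z h d r)) → ∃ l ∈ L, On p l) →
        ∃ y : PPt F, (Fintype.card F : ℝ) - m ≤ deg L y)
    (L : Finset (Ln F)) (b : ℕ) (hcard : L.card + b ≤ Fintype.card F)
    (hcov : ∀ p, finB z h w p → ∃ l ∈ L, On p l)
    (hcov' : b = 0 → ∀ d s, ∃ e x, finPhi z h w d s e = some x ∧ (e, x) ∈ L) : False := by
  classical
  obtain ⟨L', hL1, -, hL2⟩ := Finset.exists_subsuperset_card_eq (n := Fintype.card F)
    (Finset.subset_univ L) (by omega) (by rw [Finset.card_univ, card_ln]; nlinarith)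
  obtain ⟨y, hy⟩ := hstab L' hL2 fun p hp => by
    obtain ⟨l, hl, hon⟩ := hcov p (finB_of_norow hpre hp)
    exact ⟨l, hL1 hl, hon⟩
  let M := L.filter fun l => ¬ POn y l
  let J := (univ.filter fun l => POn y l) \ L
  have hM : ∀ l, l ∈ M ↔ l ∈ L ∧ ¬ POn y l := fun l => Finset.mem_filter
  have hJ : ∀ l, l ∈ J ↔ POn y l ∧ l ∉ L := fun l => by simp [J]
  have hMm : (M.card : ℝ) ≤ m := by
    have h1 := Finset.card_filter_add_card_filter_not (s := L') (fun l => POn y l)
    have h2 : M.card ≤ (L'.filter fun l => ¬ POn y l).card :=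
      Finset.card_le_card (Finset.filter_subset_filter _ hL1)
    have h3 : deg L' y + M.card ≤ Fintype.card F := by unfold deg; omega
    have h4 : (deg L' y : ℝ) + M.card ≤ Fintype.card F := by exact_mod_cast h3
    linarith
  have hJrow : ∀ l ∈ J, ∃ d r, l = row c z h d r := by
    intro l hl
    by_contra hn
    push Not at hn
    obtain ⟨X, hX1, hX2⟩ := hrich l hn
    have hex : ∀ p : Pt F, ∃ μ : Ln F, p ∈ X.filter (fun p => ¬ y = Sum.inl p) →
        μ ∈ M ∧ On p μ := by
      intro p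
      by_cases hp : p ∈ X.filter (fun p => ¬ y = Sum.inl p)
      · obtain ⟨h1, h2⟩ := Finset.mem_filter.1 hp
        obtain ⟨μ, hμ, hon⟩ := hcov p (finB_of_norow hpre (hX2 p h1).2)
        refine ⟨μ, fun _ => ⟨(hM _).2 ⟨hμ, fun hh => ((hJ _).1 hl).2 ?_⟩, hon⟩⟩
        exact ln_eq_of_pon h2 hh hon ((hJ _).1 hl).1 (hX2 p h1).1 ▸ hμ
      · exact ⟨l, fun hh => absurd hh hp⟩
    choose f hf using hex
    have h1 : (X.filter (fun p => ¬ y = Sum.inl p)).card ≤ M.card :=
      Finset.card_le_card_of_injOn f (fun p hp => (hf p hp).1) (by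
        intro p hp p' hp' hpp
        refine pt_eq_of_on_of_ne (l := f p) (l' := l)
          (fun hh => ((hJ _).1 hl).2 (hh ▸ ((hM _).1 (hf p hp).1).1)) (hf p hp).2
          (hX2 p (Finset.mem_filter.1 hp).1).1 (hpp ▸ (hf p' hp').2)
          (hX2 p' (Finset.mem_filter.1 hp').1).1)
    have h2 : (X.filter (fun p => y = Sum.inl p)).card ≤ 1 := Finset.card_le_one.2 fun a ha b hb =>
      Sum.inl.inj ((Finset.mem_filter.1 ha).2.symm.trans (Finset.mem_filter.1 hb).2)
    have h3 := Finset.card_filter_add_card_filter_not (s := X) (fun p => y = Sum.inl p)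
    have h4 : X.card ≤ M.card + 1 := by omega
    have h5 : (X.card : ℝ) ≤ M.card + 1 := by exact_mod_cast h4
    linarith
  have hcount : (univ.filter fun l => POn y l).card + M.card = J.card + L.card := by
    have h1 := Finset.card_filter_add_card_filter_not (s := L) (fun l => POn y l)
    have h2 := Finset.card_sdiff_add_card_inter (univ.filter fun l => POn y l) L
    have h3 : (univ.filter fun l => POn y l) ∩ L = L.filter fun l => POn y l := by
      ext l; simp [and_comm]
    rw [h3] at h2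
    simp only [M, J]
    omega
  have haff : ∀ p, y = Sum.inl p → M.card + b + 1 ≤ J.card := by
    rintro p rfl
    have := card_lines_pt p
    simp only [pon_inl] at hcount
    omega
  have hgen : M.card + b ≤ J.card := by
    rcases hyy : y with p | d
    · have := haff p hyy; omega
    · subst hyy
      have := card_lines_dir d
      simp only [pon_inr] at hcount
      omega
  by_cases hz : ∃ d s, y = Sum.inl (z d s)
  · obtain ⟨d, s, rfl⟩ := hz
    exact fin_case_special hg hpre hpost L J M b d s hcov hcov' hJ hM hJrow (haff _ rfl)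
  push Not at hz
  rcases J.eq_empty_or_nonempty with hJ0 | hJne
  · rw [hJ0, Finset.card_empty] at haff hgen
    rcases y with p | d
    · have := haff p rfl; omega
    · obtain ⟨e, x, hx, hL⟩ := hcov' (by omega) d false
      have hM0 : M = ∅ := Finset.card_eq_zero.1 (by omega)
      have : (e, x) ∈ M := (hM _).2 ⟨hL, by
        rintro (rfl : e = d)
        rw [finPhi_self] at hx
        exact absurd hx (by simp)⟩
      simp [hM0] at this
  · exact fin_case_generic hg hpre hpost L J M y hcov hJ hM hJrow hJne (by omega)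
      (fun p hp => by have := haff p hp; omega) hz

end aux

/-- From the design to the hypergraph. -/
theorem goal_of_design {g R : ℕ} (hg : 2 * R + 2 ≤ g) (c : Dir F → F) (z : Dir F → Bool → Pt F)
    (h : Dir F → Bool → Fin g → Dir F) (w : Dir F → Fin g → Pt F)
    (hpre : Pre c z h) (hpost : Post R c z h w) {m : ℝ} (hm : 0 ≤ m)
    (hrich : ∀ l : Ln F, (∀ d r, l ≠ row c z h d r) → ∃ X : Finset (Pt F), m + 1 < X.card ∧
      ∀ p ∈ X, On p l ∧ ∀ d r, ¬ On p (row c z h d r))
    (hstab : ∀ L : Finset (Ln F), L.card = Fintype.card F →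
      (∀ p, (∀ d r, ¬ On p (row c z h d r)) → ∃ l ∈ L, On p l) →
        ∃ y : PPt F, (Fintype.card F : ℝ) - m ≤ deg L y) :
    Goal F := by
  classical
  let base : Pt F → Dir F → Option F := fun p d => some (ev d p)
  let E : Finset (Dir F → Option F) := (univ.filter (finB z h w)).image base ∪
    univ.image fun x : Dir F × Bool => finPhi z h w x.1 x.2
  have hE : ∀ e, e ∈ E ↔ (∃ p, finB z h w p ∧ base p = e) ∨ ∃ d s, finPhi z h w d s = e := by
    intro e; simp [E]
  refine ⟨E, ⟨_, (hE _).2 (Or.inr ⟨none, false, rfl⟩)⟩, ?_, ?_, ?_⟩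
  · intro e he f hf
    rcases (hE _).1 he with ⟨p, hp, rfl⟩ | ⟨d, s, rfl⟩ <;>
      rcases (hE _).1 hf with ⟨p', hp', rfl⟩ | ⟨d', s', rfl⟩
    · obtain ⟨d, hd⟩ := exists_dir p p'
      exact ⟨d, congrArg some hd⟩
    · obtain ⟨e, he⟩ := hp d' s'
      exact ⟨e, he.symm⟩
    · exact hp' d s
    · by_cases hd : d = d'
      · subst hd
        exact ⟨d, by rw [finPhi_self, finPhi_self]⟩
      obtain ⟨e, he⟩ := exists_dir (z d s) (z d' s')
      have h1 : On (z d' s') (e, ev e (z d s)) := he.symm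
      have h2 : On (z d s) (e, ev e (z d' s')) := he
      refine ⟨e, ?_⟩
      rcases fin_dir_cases (w := w) hpre d s e with a1 | a1 | ⟨j, a1⟩
      · rcases fin_dir_cases (w := w) hpre d' s' e with a2 | a2 | ⟨j, a2⟩
        · rw [a1, a2, he]
        · exact absurd (hpre.z_row _ _ _ _ (a2 ▸ h2)).1.symm hd
        · exact absurd (hpre.z_row _ _ _ _ (a2 ▸ h2)).1.symm hd
      · exact absurd (hpre.z_row _ _ _ _ (a1 ▸ h1)).1 hd
      · exact absurd (hpre.z_row _ _ _ _ (a1 ▸ h1)).1 hd
  · rintro d (_ | x)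
    · exact ⟨_, (hE _).2 (Or.inr ⟨d, false, rfl⟩), finPhi_self _ _⟩
    · have : ∃ p, finB z h w p ∧ On p (d, x) := by
        by_cases hr : ∃ e r, (d, x) = row c z h e r
        · obtain ⟨e, r, hr⟩ := hr
          obtain ⟨A, hA1, hA2⟩ := fin_exists_adm r
          obtain ⟨i, hi⟩ := Finset.card_pos.1 (show 0 < A.card by omega)
          obtain ⟨p, hp⟩ := fin_exists_kept hpre hpost e (hA2 i hi)
          exact ⟨p, finB_of_kept hpre hpost hp, hr ▸ hp.1⟩
        · push Not at hr
          obtain ⟨X, hX1, hX2⟩ := hrich _ hr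
          have : (0 : ℝ) < X.card := by linarith
          obtain ⟨p, hp⟩ := Finset.card_pos.1 (Nat.cast_pos.1 this)
          exact ⟨p, finB_of_norow hpre (hX2 p hp).2, (hX2 p hp).1⟩
      obtain ⟨p, hp, hon⟩ := this
      exact ⟨_, (hE _).2 (Or.inl ⟨p, hp, rfl⟩), congrArg some hon⟩
  · intro S hS
    by_contra hlt
    let L : Finset (Ln F) := univ.filter fun l => (l.1, some l.2) ∈ S
    have hL : ∀ l, l ∈ L ↔ (l.1, some l.2) ∈ S := fun l => by simp [L]
    have h1 : L.card ≤ (S.filter fun x => ¬ x.2 = none).card :=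
      Finset.card_le_card_of_injOn (fun l => (l.1, some l.2))
        (fun l hl => Finset.mem_coe.2 (Finset.mem_filter.2 ⟨(hL l).1 hl, by simp⟩))
        (fun a _ b _ hab => Prod.ext (Prod.mk.inj hab).1 (Option.some.inj (Prod.mk.inj hab).2))
    have h2 := Finset.card_filter_add_card_filter_not (s := S) (fun x => x.2 = none)
    refine fin_no_cover hg hpre hpost hrich hstab L (S.filter fun x => x.2 = none).card
      (by omega) (fun p hp => ?_) (fun hb d s => ?_)
    · obtain ⟨d, hd⟩ := hS _ ((hE _).2 (Or.inl ⟨p, hp, rfl⟩))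
      exact ⟨(d, ev d p), (hL _).2 hd, on_self _ _⟩
    · obtain ⟨e, he⟩ := hS _ ((hE _).2 (Or.inr ⟨d, s, rfl⟩))
      rcases hx : finPhi z h w d s e with _ | x
      · rw [hx] at he
        have : (e, none) ∈ S.filter fun x => x.2 = none := Finset.mem_filter.2 ⟨he, rfl⟩
        rw [Finset.card_eq_zero.1 hb] at this
        simp at this
      · rw [hx] at he
        exact ⟨e, x, hx, (hL _).2 he⟩

end Crest.Agent.R034
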