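import Crest.Agent.R034.Prob

/-!
The affine plane over a finite field (row 34): points, directions, lines, projective points,
incidence counts and the variance (expander mixing) inequality.
-/

set_option autoImplicit false

namespace Crest.Agent.R034

open Finset

/-- Points of the affine plane. -/
abbrev Pt (F : Type) := F × F
/-- Directions (parallel classes). -/
abbrev Dir (F : Type) := Option F
/-- Lines: a direction and the value of the linear functional of that direction. -/
abbrev Ln (F : Type) := Dir F × F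
/-- Projective points: affine points and directions. -/
abbrev PPt (F : Type) := Pt F ⊕ Dir F

variable {F : Type} [Field F]

/-- The linear functional whose level sets are the lines of direction `d`. -/
def ev (d : Dir F) (p : Pt F) : F := d.elim p.1 (fun m => p.2 - m * p.1)

/-- Incidence of an affine point and a line. -/
def On (p : Pt F) (l : Ln F) : Prop := ev l.1 p = l.2

/-- Incidence of a projective point and a line. -/
def POn (y : PPt F) (l : Ln F) : Prop := y.elim (fun p => On p l) (fun d => l.1 = d)

instance [DecidableEq F] (p : Pt F) (l : Ln F) : Decidable (On p l) :=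
  inferInstanceAs (Decidable (ev l.1 p = l.2))

instance [DecidableEq F] (y : PPt F) (l : Ln F) : Decidable (POn y l) :=
  match y with
  | Sum.inl p => inferInstanceAs (Decidable (On p l))
  | Sum.inr d => inferInstanceAs (Decidable (l.1 = d))

@[simp] lemma ev_none (p : Pt F) : ev none p = p.1 := rfl
@[simp] lemma ev_some (m : F) (p : Pt F) : ev (some m) p = p.2 - m * p.1 := rfl
@[simp] lemma pon_inl (p : Pt F) (l : Ln F) : POn (Sum.inl p) l ↔ On p l := Iff.rfl
@[simp] lemma pon_inr (d : Dir F) (l : Ln F) : POn (Sum.inr d) l ↔ l.1 = d := Iff.rfl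
lemma on_mk (p : Pt F) (d : Dir F) (c : F) : On p (d, c) ↔ ev d p = c := Iff.rfl
lemma on_self (p : Pt F) (d : Dir F) : On p (d, ev d p) := rfl

lemma ev_add (d : Dir F) (p p' : Pt F) : ev d (p + p') = ev d p + ev d p' := by
  cases d <;> simp; ring

lemma ev_smul (d : Dir F) (a : F) (p : Pt F) : ev d (a • p) = a * ev d p := by
  cases d <;> simp; ring

lemma ev_sub (d : Dir F) (p p' : Pt F) : ev d (p - p') = ev d p - ev d p' := by
  cases d <;> simp; ring

/-- Lines of the same direction through a common point coincide. -/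
lemma eq_of_on_of_dir {p : Pt F} {l l' : Ln F} (h : On p l) (h' : On p l') (hd : l.1 = l'.1) :
    l = l' := by
  unfold On at h h'
  exact Prod.ext hd (by rw [← h, ← h', hd])

lemma eq_line_of_on {p : Pt F} {l : Ln F} (h : On p l) : l = (l.1, ev l.1 p) :=
  Prod.ext rfl h.symm

/-- Two points agreeing in two different directions coincide. -/
lemma pt_eq_of_ev {p p' : Pt F} {d e : Dir F} (hde : d ≠ e) (h1 : ev d p = ev d p')
    (h2 : ev e p = ev e p') : p = p' := by
  obtain ⟨x, y⟩ := p
  obtain ⟨x', y'⟩ := p'
  cases d with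
  | none =>
    cases e with
    | none => exact absurd rfl hde
    | some m =>
      simp only [ev_none, ev_some] at h1 h2
      subst h1
      simp only [Prod.mk.injEq, true_and]
      linear_combination h2
  | some m =>
    cases e with
    | none =>
      simp only [ev_none, ev_some] at h1 h2
      subst h2
      simp only [Prod.mk.injEq, true_and]
      linear_combination h1
    | some m' =>
      simp only [ev_some] at h1 h2
      have hm : m - m' ≠ 0 := sub_ne_zero.mpr fun h => hde (by rw [h])
      have hx : x = x' := by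
        have : (m - m') * (x - x') = 0 := by linear_combination h2 - h1
        rcases mul_eq_zero.mp this with h | h
        · exact absurd h hm
        · exact sub_eq_zero.mp h
      subst hx
      simp only [Prod.mk.injEq, true_and]
      linear_combination h1

lemma pt_eq_of_on {p p' : Pt F} {l l' : Ln F} (hd : l.1 ≠ l'.1) (h1 : On p l) (h2 : On p l')
    (h3 : On p' l) (h4 : On p' l') : p = p' :=
  pt_eq_of_ev hd (h1.trans h3.symm) (h2.trans h4.symm)

/-- Two different lines have at most one common point. -/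
lemma pt_eq_of_on_of_ne {p p' : Pt F} {l l' : Ln F} (hd : l ≠ l') (h1 : On p l) (h2 : On p l')
    (h3 : On p' l) (h4 : On p' l') : p = p' :=
  pt_eq_of_on (fun h => hd (eq_of_on_of_dir h1 h2 h)) h1 h2 h3 h4

/-- Two different points have at most one common line. -/
lemma ln_eq_of_on_of_ne {p p' : Pt F} {l l' : Ln F} (hp : p ≠ p') (h1 : On p l) (h2 : On p' l)
    (h3 : On p l') (h4 : On p' l') : l = l' := by
  by_contra h
  exact hp (pt_eq_of_on_of_ne h h1 h3 h2 h4)

lemma exists_meet {l l' : Ln F} (hd : l.1 ≠ l'.1) : ∃ p, On p l ∧ On p l' := by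
  obtain ⟨d, c⟩ := l
  obtain ⟨e, c'⟩ := l'
  cases d with
  | none =>
    cases e with
    | none => exact absurd rfl hd
    | some m => exact ⟨(c, c' + m * c), rfl, by simp [On]⟩
  | some m =>
    cases e with
    | none => exact ⟨(c', c + m * c'), by simp [On], rfl⟩
    | some m' =>
      have hm : m - m' ≠ 0 := sub_ne_zero.mpr fun h => hd (by rw [h])
      refine ⟨((c' - c) / (m - m'), c + m * ((c' - c) / (m - m'))), by simp [On], ?_⟩
      simp only [On, ev_some]
      field_simp
      ring

/-- Any two points lie on a common line. -/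
lemma exists_dir (p p' : Pt F) : ∃ d : Dir F, ev d p = ev d p' := by
  by_cases h : p.1 = p'.1
  · exact ⟨none, h⟩
  · refine ⟨some ((p.2 - p'.2) / (p.1 - p'.1)), ?_⟩
    have : p.1 - p'.1 ≠ 0 := sub_ne_zero.mpr h
    simp only [ev_some]
    field_simp
    ring

/-- The intersection point of two lines of different directions (junk otherwise). -/
noncomputable def meet (l l' : Ln F) : Pt F := by
  classical exact if h : l.1 ≠ l'.1 then (exists_meet h).choose else 0

lemma meet_on_left {l l' : Ln F} (h : l.1 ≠ l'.1) : On (meet l l') l := by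
  unfold meet; rw [dif_pos h]; exact (exists_meet h).choose_spec.1

lemma meet_on_right {l l' : Ln F} (h : l.1 ≠ l'.1) : On (meet l l') l' := by
  unfold meet; rw [dif_pos h]; exact (exists_meet h).choose_spec.2

lemma eq_meet {l l' : Ln F} (h : l.1 ≠ l'.1) {p : Pt F} (h1 : On p l) (h2 : On p l') :
    p = meet l l' :=
  pt_eq_of_on h h1 h2 (meet_on_left h) (meet_on_right h)

/-- Two different lines have at most one common projective point. -/
lemma ppt_eq_of_pon {y y' : PPt F} {l l' : Ln F} (hl : l ≠ l') (h1 : POn y l) (h2 : POn y l')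
    (h3 : POn y' l) (h4 : POn y' l') : y = y' := by
  rcases y with p | d <;> rcases y' with p' | d'
  · rw [pt_eq_of_on_of_ne hl h1 h2 h3 h4]
  · exact absurd (eq_of_on_of_dir h1 h2 (h3.trans h4.symm)) hl
  · exact absurd (eq_of_on_of_dir h3 h4 (h1.trans h2.symm)) hl
  · have : d = d' := h1.symm.trans h3
    rw [this]

/-- A line through a projective point `y` and an affine point `p ≠ y` is unique. -/
lemma ln_eq_of_pon {y : PPt F} {p : Pt F} {l l' : Ln F} (hp : y ≠ Sum.inl p) (h1 : POn y l)
    (h2 : On p l) (h3 : POn y l') (h4 : On p l') : l = l' := by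
  by_contra h
  exact hp (ppt_eq_of_pon h h1 h3 h2 h4)

lemma exists_ppt (l l' : Ln F) : ∃ y : PPt F, POn y l ∧ POn y l' := by
  by_cases h : l.1 = l'.1
  · exact ⟨Sum.inr l.1, rfl, h.symm⟩
  · obtain ⟨p, h1, h2⟩ := exists_meet h
    exact ⟨Sum.inl p, h1, h2⟩

section count
variable [Fintype F] [DecidableEq F]

omit [Field F] [DecidableEq F] in
lemma card_dir : Fintype.card (Dir F) = Fintype.card F + 1 := Fintype.card_option

omit [Field F] [DecidableEq F] in
lemma card_pt : Fintype.card (Pt F) = Fintype.card F ^ 2 := by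
  rw [Fintype.card_prod, sq]

omit [Field F] [DecidableEq F] in
lemma card_ln : Fintype.card (Ln F) = (Fintype.card F + 1) * Fintype.card F := by
  rw [Fintype.card_prod, card_dir]

omit [Field F] [DecidableEq F] in
lemma card_ppt : Fintype.card (PPt F) = Fintype.card F ^ 2 + (Fintype.card F + 1) := by
  rw [Fintype.card_sum, card_pt, card_dir]

/-- The points of a line. -/
def pts (l : Ln F) : Finset (Pt F) := univ.filter fun p => On p l

@[simp] lemma mem_pts {l : Ln F} {p : Pt F} : p ∈ pts l ↔ On p l := by simp [pts]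

lemma card_pts (l : Ln F) : (pts l).card = Fintype.card F := by
  obtain ⟨d, c⟩ := l
  rw [← Finset.card_univ]
  symm
  cases d with
  | none =>
    refine Finset.card_bij (fun y _ => (c, y)) (fun y _ => by simp [On]) (fun y _ y' _ h => ?_)
      (fun p hp => ⟨p.2, Finset.mem_univ _, ?_⟩)
    · exact (Prod.mk.inj h).2
    · rw [mem_pts] at hp
      exact Prod.ext hp.symm rfl
  | some m =>
    refine Finset.card_bij (fun x _ => (x, c + m * x)) (fun y _ => by simp [On])
      (fun y _ y' _ h => ?_) (fun p hp => ⟨p.1, Finset.mem_univ _, ?_⟩)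
    · exact (Prod.mk.inj h).1
    · rw [mem_pts] at hp
      simp only [On, ev_some] at hp
      exact Prod.ext rfl (by simp [← hp])

lemma card_inter_le_one {l l' : Ln F} (h : l ≠ l') :
    ((pts l).filter fun p => On p l').card ≤ 1 := by
  rw [Finset.card_le_one]
  intro p hp p' hp'
  simp only [Finset.mem_filter, mem_pts] at hp hp'
  exact pt_eq_of_on_of_ne h hp.1 hp.2 hp'.1 hp'.2

lemma card_lines_pt (p : Pt F) :
    (univ.filter fun l : Ln F => On p l).card = Fintype.card F + 1 := by
  rw [← card_dir, ← Finset.card_univ]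
  symm
  refine Finset.card_bij (fun d _ => (d, ev d p)) (fun d _ => by simp [on_self])
    (fun d _ d' _ h => (Prod.mk.inj h).1) (fun l hl => ⟨l.1, Finset.mem_univ _, ?_⟩)
  exact (eq_line_of_on (Finset.mem_filter.mp hl).2).symm

omit [Field F] in
lemma card_lines_dir (d : Dir F) :
    (univ.filter fun l : Ln F => l.1 = d).card = Fintype.card F := by
  rw [← Finset.card_univ]
  symm
  refine Finset.card_bij (fun c _ => (d, c)) (fun d _ => by simp)
    (fun d _ d' _ h => (Prod.mk.inj h).2) (fun l hl => ⟨l.2, Finset.mem_univ _, ?_⟩)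
  exact Prod.ext (Finset.mem_filter.mp hl).2.symm rfl

/-- Summing over the lines of one direction is summing over the plane. -/
lemma sum_dir (d : Dir F) (f : Pt F → ℝ) : ∑ c : F, ∑ p ∈ pts (d, c), f p = ∑ p, f p := by
  unfold pts
  simp only [on_mk]
  exact Finset.sum_fiberwise_of_maps_to (s := univ) (t := univ) (g := ev d)
    (fun _ _ => Finset.mem_univ _) f

lemma sum_sq_lines (f : Pt F → ℝ) :
    ∑ l : Ln F, (∑ p ∈ pts l, f p) ^ 2 =
      Fintype.card F * ∑ p, f p ^ 2 + (∑ p, f p) ^ 2 := by
  have h1 : ∀ l : Ln F, (∑ p ∈ pts l, f p) ^ 2 =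
      ∑ p, ∑ p', if On p l ∧ On p' l then f p * f p' else 0 := by
    intro l
    rw [sq, Finset.sum_mul_sum]
    unfold pts
    rw [Finset.sum_filter]
    refine Finset.sum_congr rfl fun p _ => ?_
    by_cases hp : On p l
    · simp [hp, Finset.sum_filter]
    · simp [hp]
  have h2 : ∀ p p' : Pt F, (∑ l : Ln F, if On p l ∧ On p' l then f p * f p' else 0) =
      f p * f p' + if p' = p then Fintype.card F * f p ^ 2 else 0 := by
    intro p p'
    rw [← Finset.sum_filter, Finset.sum_const, nsmul_eq_mul]
    by_cases h : p' = p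
    · subst h
      simp only [and_self, if_true]
      rw [card_lines_pt]; push_cast; ring
    · rw [if_neg h]
      obtain ⟨d, hd⟩ := exists_dir p p'
      have : (univ.filter fun l : Ln F => On p l ∧ On p' l) = {(d, ev d p)} := by
        ext l
        simp only [Finset.mem_filter, Finset.mem_univ, true_and, Finset.mem_singleton]
        constructor
        · rintro ⟨h1, h2⟩
          exact ln_eq_of_on_of_ne (Ne.symm h) h1 h2 (on_self p d) hd.symm
        · rintro rfl
          exact ⟨on_self p d, hd.symm⟩
      rw [this]; simp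
  simp_rw [h1]
  rw [Finset.sum_comm]
  have h3 : ∀ p : Pt F, (∑ l : Ln F, ∑ p', if On p l ∧ On p' l then f p * f p' else 0) =
      f p * ∑ p', f p' + Fintype.card F * f p ^ 2 := by
    intro p
    rw [Finset.sum_comm]
    simp_rw [h2]
    rw [Finset.sum_add_distrib, Finset.mul_sum]
    simp
  simp_rw [h3]
  rw [Finset.sum_add_distrib, ← Finset.sum_mul, ← Finset.mul_sum]
  ring

/-- Variance of the line sums of a function on the plane. -/
lemma variance_lines (f : Pt F → ℝ) :
    ∑ l : Ln F, (∑ p ∈ pts l, f p - (∑ p, f p) / Fintype.card F) ^ 2 ≤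
      Fintype.card F * ∑ p, f p ^ 2 := by
  set q : ℝ := (Fintype.card F : ℝ) with hq
  have hq0 : 0 < q := by rw [hq]; exact_mod_cast Fintype.card_pos
  set S := ∑ p, f p with hS
  have h1 : ∑ l : Ln F, ∑ p ∈ pts l, f p = (q + 1) * S := by
    rw [Fintype.sum_prod_type]
    simp_rw [sum_dir]
    rw [Finset.sum_const, Finset.card_univ, card_dir, nsmul_eq_mul]; push_cast; rfl
  have h2 : ∀ l : Ln F, (∑ p ∈ pts l, f p - S / q) ^ 2 =
      (∑ p ∈ pts l, f p) ^ 2 - 2 * (S / q) * ∑ p ∈ pts l, f p + (S / q) ^ 2 := fun l => by ring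
  simp_rw [h2]
  rw [Finset.sum_add_distrib, Finset.sum_sub_distrib, ← Finset.mul_sum, h1, sum_sq_lines,
    Finset.sum_const, Finset.card_univ, card_ln, nsmul_eq_mul]
  push_cast
  rw [← hq, ← hS]
  have : S ^ 2 - 2 * (S / q) * ((q + 1) * S) + (q + 1) * q * (S / q) ^ 2 = - S ^ 2 / q := by
    field_simp; ring
  have h4 : 0 ≤ S ^ 2 / q := by positivity
  have h5 : - S ^ 2 / q = - (S ^ 2 / q) := by ring
  linarith

/-- Few lines have a sum far from the average. -/
lemma card_dev_le (f : Pt F → ℝ) {a : ℝ} (ha : 0 < a) (E : Finset (Ln F))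
    (hE : ∀ l ∈ E, a ≤ |∑ p ∈ pts l, f p - (∑ p, f p) / Fintype.card F|) :
    (E.card : ℝ) ≤ Fintype.card F * (∑ p, f p ^ 2) / a ^ 2 := by
  rw [le_div_iff₀ (by positivity)]
  refine le_trans ?_ (variance_lines f)
  calc (E.card : ℝ) * a ^ 2 = ∑ l ∈ E, a ^ 2 := by rw [Finset.sum_const, nsmul_eq_mul]
    _ ≤ ∑ l ∈ E, (∑ p ∈ pts l, f p - (∑ p, f p) / Fintype.card F) ^ 2 :=
        Finset.sum_le_sum fun l hl => by
          rw [← sq_abs (_ - _)]
          exact pow_le_pow_left₀ ha.le (hE l hl) 2
    _ ≤ _ := Finset.sum_le_sum_of_subset_of_nonneg (Finset.subset_univ _) fun l _ _ => sq_nonneg _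

/-- Number of points of a set on a line. -/
def idx (X : Finset (Pt F)) (l : Ln F) : ℕ := (X.filter fun p => On p l).card

lemma idx_eq_sum (X : Finset (Pt F)) (l : Ln F) :
    (idx X l : ℝ) = ∑ p ∈ pts l, ind (p ∈ X) := by
  rw [← card_filter_eq_sum_ind]
  unfold idx
  congr 2
  ext p
  simp [and_comm]

/-- Few lines meet a point set in a number of points far from the average. -/
lemma card_dev_idx_le (X : Finset (Pt F)) {a : ℝ} (ha : 0 < a) (E : Finset (Ln F))
    (hE : ∀ l ∈ E, a ≤ |(idx X l : ℝ) - (X.card : ℝ) / Fintype.card F|) :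
    (E.card : ℝ) ≤ Fintype.card F * X.card / a ^ 2 := by
  have h1 : ∑ p, ind (p ∈ X) = X.card := by
    rw [← card_filter_eq_sum_ind]; simp
  have h2 : ∑ p, ind (p ∈ X) ^ 2 = X.card := by
    rw [← h1]
    refine Finset.sum_congr rfl fun p _ => ?_
    by_cases h : p ∈ X
    · rw [ind_pos h]; norm_num
    · rw [ind_neg h]; norm_num
  have := card_dev_le (fun p => ind (p ∈ X)) ha E (fun l hl => by
    rw [← idx_eq_sum, h1]; exact hE l hl)
  rwa [h2] at this

/-- The points on no line of `L`. -/
def unc (L : Finset (Ln F)) : Finset (Pt F) := univ.filter fun p => ∀ l ∈ L, ¬ On p l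

@[simp] lemma mem_unc {L : Finset (Ln F)} {p : Pt F} : p ∈ unc L ↔ ∀ l ∈ L, ¬ On p l := by
  simp [unc]

/-- Number of lines of `L` through a projective point. -/
def deg (L : Finset (Ln F)) (y : PPt F) : ℕ := (L.filter fun l => POn y l).card

end count

end Crest.Agent.R034
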