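import Crest.Agent.R034.Prob

set_option autoImplicit false

namespace Crest.Agent.R034

open Finset Filter

open Classical in
/-- Independent partial transversals supported on `S`. -/
noncomputable def itSet {C V : Type*} [Fintype C] [DecidableEq C] [DecidableEq V]
    (P : C → Finset V) (adj : C → V → C → V → Prop) (S : Finset C) : Finset (C → Option V) :=
  (Fintype.piFinset fun c => if c ∈ S then (P c).image some else {none}).filter
    fun f => ∀ c c' v v', c ≠ c' → f c = some v → f c' = some v' → ¬ adj c v c' v'

lemma it_mem {C V : Type*} [Fintype C] [DecidableEq C] [DecidableEq V]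
    {P : C → Finset V} {adj : C → V → C → V → Prop} {S : Finset C} {f : C → Option V} :
    f ∈ itSet P adj S ↔ (∀ c ∈ S, ∃ v ∈ P c, f c = some v) ∧ (∀ c, c ∉ S → f c = none) ∧
      ∀ c c' v v', c ≠ c' → f c = some v → f c' = some v' → ¬ adj c v c' v' := by
  simp only [itSet, mem_filter, Fintype.mem_piFinset]
  constructor
  · rintro ⟨h1, h2⟩
    refine ⟨fun c hc => ?_, fun c hc => ?_, h2⟩
    · have := h1 c
      rw [if_pos hc, mem_image] at this
      obtain ⟨v, hv, e⟩ := this
      exact ⟨v, hv, e.symm⟩
    · have := h1 c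
      rwa [if_neg hc, mem_singleton] at this
  · rintro ⟨h1, h2, h3⟩
    refine ⟨fun c => ?_, h3⟩
    by_cases hc : c ∈ S
    · obtain ⟨v, hv, e⟩ := h1 c hc
      rw [if_pos hc, mem_image]
      exact ⟨v, hv, e.symm⟩
    · rw [if_neg hc, mem_singleton]
      exact h2 c hc

lemma it_fiber {C V : Type*} [Fintype C] [DecidableEq C] [DecidableEq V]
    (P : C → Finset V) (adj : C → V → C → V → Prop) (S : Finset C) (c : C) (v : V) :
    ((itSet P adj S).filter fun f => f c = some v).card ≤ (itSet P adj (S.erase c)).card := by
  refine card_le_card_of_injOn (fun f => Function.update f c none) (fun f hf => ?_) ?_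
  · simp only [coe_filter, Set.mem_setOf_eq, it_mem] at hf
    obtain ⟨⟨h1, h2, h3⟩, -⟩ := hf
    simp only [mem_coe, it_mem]
    refine ⟨fun d hd => ?_, fun d hd => ?_, fun d d' w w' hne e1 e2 => ?_⟩
    · rw [Function.update_of_ne (ne_of_mem_erase hd)]
      exact h1 d (mem_of_mem_erase hd)
    · by_cases hdc : d = c
      · subst hdc; simp
      · rw [Function.update_of_ne hdc]
        exact h2 d fun h => hd (mem_erase.2 ⟨hdc, h⟩)
    · have hd : d ≠ c := by rintro rfl; simp at e1
      have hd' : d' ≠ c := by rintro rfl; simp at e2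
      rw [Function.update_of_ne hd] at e1
      rw [Function.update_of_ne hd'] at e2
      exact h3 d d' w w' hne e1 e2
  · intro f hf g hg hfg
    simp only [coe_filter, Set.mem_setOf_eq] at hf hg
    funext d
    by_cases hd : d = c
    · subst hd; rw [hf.2, hg.2]
    · have := congrFun hfg d
      simpa [Function.update_of_ne hd] using this

lemma it_step {C V : Type*} [Fintype C] [DecidableEq C] [DecidableEq V]
    (P : C → Finset V) (adj : C → V → C → V → Prop)
    (hsymm : ∀ c v c' v', adj c v c' v' → adj c' v' c v) {Δ : ℝ} (hΔ : 0 < Δ)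
    (hdeg : ∀ c, ∀ v ∈ P c, ∀ S : Finset (C × V),
      (∀ x ∈ S, x.1 ≠ c ∧ x.2 ∈ P x.1 ∧ adj c v x.1 x.2) → (S.card : ℝ) ≤ Δ)
    (hP : ∀ c, 4 * Δ ≤ (P c).card) :
    ∀ (n : ℕ) (S : Finset C), S.card = n → ∀ c, c ∉ S →
      2 * Δ * (itSet P adj S).card ≤ (itSet P adj (insert c S)).card := by
  classical
  intro n
  induction n using Nat.strong_induction_on with
  | _ n ih =>
  intro S hS c hc
  -- the fibres over `v`
  have hgood : ∀ v ∈ P c, ((itSet P adj S).card : ℝ) / 2 ≤
      ((itSet P adj (insert c S)).filter fun f => f c = some v).card := by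
    intro v hv
    set Nb : Finset (C × V) := (S.biUnion fun d => (P d).image fun w => (d, w)).filter
      fun x => adj c v x.1 x.2 with hNb
    have hNbmem : ∀ x, x ∈ Nb ↔ x.1 ∈ S ∧ x.2 ∈ P x.1 ∧ adj c v x.1 x.2 := by
      rintro ⟨d, w⟩
      simp only [hNb, mem_filter, mem_biUnion, mem_image, Prod.mk.injEq]
      constructor
      · rintro ⟨⟨d', hd', w', hw', rfl, rfl⟩, h⟩
        exact ⟨hd', hw', h⟩
      · rintro ⟨h1, h2, h3⟩
        exact ⟨⟨d, h1, w, h2, rfl, rfl⟩, h3⟩
    have hNbcard : (Nb.card : ℝ) ≤ Δ := hdeg c v hv Nb fun x hx =>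
      ⟨fun e => hc (e ▸ ((hNbmem x).1 hx).1), ((hNbmem x).1 hx).2⟩
    set bad := Nb.biUnion fun x => (itSet P adj S).filter fun f => f x.1 = some x.2 with hbad
    have hbadcard : (bad.card : ℝ) ≤ (itSet P adj S).card / 2 := by
      have h1 : (bad.card : ℝ) ≤
          ∑ x ∈ Nb, (((itSet P adj S).filter fun f => f x.1 = some x.2).card : ℝ) := by
        exact_mod_cast card_biUnion_le
      have h2 : ∀ x ∈ Nb, (((itSet P adj S).filter fun f => f x.1 = some x.2).card : ℝ) ≤
          (itSet P adj S).card / (2 * Δ) := by
        intro x hx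
        have hxS := ((hNbmem x).1 hx).1
        have h3 := ih (S.erase x.1).card (hS ▸ card_erase_lt_of_mem hxS) _ rfl x.1
          (notMem_erase _ _)
        rw [insert_erase hxS] at h3
        have h4 : (((itSet P adj S).filter fun f => f x.1 = some x.2).card : ℝ) ≤
            (itSet P adj (S.erase x.1)).card := by exact_mod_cast it_fiber P adj S x.1 x.2
        rw [le_div_iff₀ (by positivity)]
        nlinarith
      have h5 := sum_le_card_nsmul _ _ _ h2
      rw [nsmul_eq_mul] at h5
      have h6 : (Nb.card : ℝ) * ((itSet P adj S).card / (2 * Δ)) ≤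
          Δ * ((itSet P adj S).card / (2 * Δ)) :=
        mul_le_mul_of_nonneg_right hNbcard (by positivity)
      have h7 : Δ * (((itSet P adj S).card : ℝ) / (2 * Δ)) = (itSet P adj S).card / 2 := by
        field_simp
      linarith
    have hinj : (itSet P adj S \ bad).card ≤
        ((itSet P adj (insert c S)).filter fun f => f c = some v).card := by
      refine card_le_card_of_injOn (fun f => Function.update f c (some v)) (fun f hf => ?_) ?_
      · simp only [coe_sdiff, Set.mem_diff, mem_coe] at hf
        obtain ⟨hf, hfb⟩ := hf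
        obtain ⟨h1, h2, h3⟩ := it_mem.1 hf
        have key : ∀ d w, d ≠ c → f d = some w → ¬ adj c v d w := by
          intro d w _ e ha
          have hdS : d ∈ S := by
            by_contra hd
            rw [h2 d hd] at e
            exact absurd e (by simp)
          obtain ⟨w', hw', e'⟩ := h1 d hdS
          have : w' = w := by rw [e] at e'; exact (Option.some.inj e').symm
          subst this
          exact hfb (mem_biUnion.2 ⟨(d, w'), (hNbmem _).2 ⟨hdS, hw', ha⟩, mem_filter.2 ⟨hf, e⟩⟩)
        simp only [coe_filter, Set.mem_setOf_eq, it_mem, Function.update_self, and_true]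
        refine ⟨fun d hd => ?_, fun d hd => ?_, fun d d' w w' hne e1 e2 => ?_⟩
        · by_cases hdc : d = c
          · subst hdc; exact ⟨v, hv, by simp⟩
          · rw [Function.update_of_ne hdc]
            exact h1 d ((mem_insert.1 hd).resolve_left hdc)
        · have hdc : d ≠ c := by rintro rfl; exact hd (mem_insert_self _ _)
          rw [Function.update_of_ne hdc]
          exact h2 d fun h => hd (mem_insert_of_mem h)
        · by_cases hd : d = c
          · subst hd
            rw [Function.update_self] at e1
            rw [Function.update_of_ne hne.symm] at e2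
            rw [← Option.some.inj e1]
            exact key d' w' hne.symm e2
          · by_cases hd' : d' = c
            · subst hd'
              rw [Function.update_self] at e2
              rw [Function.update_of_ne hd] at e1
              rw [← Option.some.inj e2]
              exact fun ha => key d w hd e1 (hsymm _ _ _ _ ha)
            · rw [Function.update_of_ne hd] at e1
              rw [Function.update_of_ne hd'] at e2
              exact h3 d d' w w' hne e1 e2
      · intro f hf g hg hfg
        simp only [coe_sdiff, Set.mem_diff, mem_coe] at hf hg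
        funext d
        by_cases hd : d = c
        · subst hd
          rw [(it_mem.1 hf.1).2.1 d hc, (it_mem.1 hg.1).2.1 d hc]
        · have := congrFun hfg d
          simpa [Function.update_of_ne hd] using this
    have h8 : ((itSet P adj S).card : ℝ) ≤ (itSet P adj S \ bad).card + bad.card := by
      exact_mod_cast card_le_card_sdiff_add_card
    have h9 : ((itSet P adj S \ bad).card : ℝ) ≤
        ((itSet P adj (insert c S)).filter fun f => f c = some v).card := by exact_mod_cast hinj
    linarith
  have hsum : ((itSet P adj (insert c S)).card : ℝ) =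
      ∑ v ∈ P c, (((itSet P adj (insert c S)).filter fun f => f c = some v).card : ℝ) := by
    have := card_eq_sum_card_fiberwise (s := itSet P adj (insert c S)) (t := (P c).image some)
      (f := fun f => f c) (fun f hf => by
        obtain ⟨v, hv, e⟩ := (it_mem.1 hf).1 c (mem_insert_self _ _)
        simp only [coe_image, Set.mem_image, mem_coe]
        exact ⟨v, hv, e.symm⟩)
    rw [this, sum_image (fun a _ b _ h => Option.some.inj h)]
    push_cast
    rfl
  have h10 := card_nsmul_le_sum _ _ _ hgood
  rw [nsmul_eq_mul, ← hsum] at h10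
  have h11 : (0 : ℝ) ≤ (itSet P adj S).card := Nat.cast_nonneg _
  nlinarith [hP c]

/-- Independent transversals by Rosenfeld counting. -/
theorem exists_indep_transversal {C V : Type*} [Fintype C] [DecidableEq C] [DecidableEq V]
    (P : C → Finset V) (adj : C → V → C → V → Prop)
    (hsymm : ∀ c v c' v', adj c v c' v' → adj c' v' c v) {Δ : ℝ} (hΔ : 0 < Δ)
    (hdeg : ∀ c, ∀ v ∈ P c, ∀ S : Finset (C × V),
      (∀ x ∈ S, x.1 ≠ c ∧ x.2 ∈ P x.1 ∧ adj c v x.1 x.2) → (S.card : ℝ) ≤ Δ)
    (hP : ∀ c, 4 * Δ ≤ (P c).card) :
    ∃ z : C → V, (∀ c, z c ∈ P c) ∧ ∀ c c', c ≠ c' → ¬ adj c (z c) c' (z c') := by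
  have hpos : ∀ S : Finset C, 0 < (itSet P adj S).card := by
    intro S
    induction S using Finset.induction_on with
    | empty =>
      refine card_pos.2 ⟨fun _ => none, it_mem.2 ⟨fun c hc => absurd hc (notMem_empty _),
        fun _ _ => rfl, fun c c' v v' _ e => absurd e (by simp)⟩⟩
    | insert c S hc ih =>
      have h1 := it_step P adj hsymm hΔ hdeg hP _ S rfl c hc
      have h2 : (0 : ℝ) < (itSet P adj S).card := by exact_mod_cast ih
      have h3 : (0 : ℝ) < (itSet P adj (insert c S)).card := lt_of_lt_of_le (by positivity) h1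
      exact_mod_cast h3
  obtain ⟨f, hf⟩ := card_pos.1 (hpos univ)
  obtain ⟨h1, -, h3⟩ := it_mem.1 hf
  choose z hz hz' using fun c => h1 c (mem_univ c)
  exact ⟨z, hz, fun c c' hne => h3 c c' _ _ hne (hz' c) (hz' c')⟩

end Crest.Agent.R034
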