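import Crest.Agent.R034.Defs

set_option autoImplicit false

namespace Crest.Agent.R034

open Finset Filter

section aux
variable {F : Type} [Field F] [Fintype F] [DecidableEq F] {k : ℕ}

omit [Field F] in
lemma q23_pr_eq (c : F) : pr (fun a : F => c = a) = 1 / Fintype.card F := by
  rw [pr_eq_card, Finset.filter_eq]; simp

lemma q23_pr_dirs (S : Finset (Dir F)) (E : Dir F → (Fin (k + 1) → F) → Prop) :
    pr (fun T : Ix F (k + 1) → F => ∀ e ∈ S, E e fun j => T (e, j)) = ∏ e ∈ S, pr (E e) := by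
  rw [← pr_forall_coord (A := fun _ : Dir F => Fin (k + 1) → F) S E]
  exact ex_equiv (Equiv.curry (Dir F) (Fin (k + 1)) F) fun ω => ind (∀ e ∈ S, E e (ω e))

lemma q23_pr_D (c : F) : pr (fun τ : Fin (k + 1) → F => c = τ 0) = 1 / Fintype.card F := by
  rw [← q23_pr_eq c]
  exact ex_coord (A := fun _ : Fin (k + 1) => F) 0 fun _ a => ind (c = a)

lemma q23_pr_zero (c : F) :
    pr (fun τ : Fin (k + 1) → F => ¬ c = τ 0 ∧ ¬ ∃ j, j ≠ 0 ∧ c = τ j)
      = (1 - 1 / (Fintype.card F : ℝ)) ^ (k + 1) := by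
  have h := pr_forall_coord (A := fun _ : Fin (k + 1) => F) univ fun _ a => ¬ c = a
  simp only [pr_not, q23_pr_eq, Finset.prod_const, Finset.card_univ, Fintype.card_fin] at h
  rw [← h]
  congr 1
  funext τ
  refine propext ⟨fun h j _ => ?_, fun h => ⟨h 0 (mem_univ _), fun ⟨j, _, hj⟩ =>
    h j (mem_univ _) hj⟩⟩
  by_cases hj : j = 0
  · exact hj ▸ h.1
  · exact fun h' => h.2 ⟨j, hj, h'⟩

lemma q23_pr_one (c : F) :
    pr (fun τ : Fin (k + 1) → F => ¬ c = τ 0 ∧ ∃ j, j ≠ 0 ∧ c = τ j)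
      = (1 - 1 / (Fintype.card F : ℝ)) - (1 - 1 / (Fintype.card F : ℝ)) ^ (k + 1) := by
  rw [← q23_pr_zero c, ← q23_pr_D (k := k) c, ← pr_not]
  unfold pr
  rw [← ex_sub]
  congr 1
  funext τ
  rw [ind_and, ind_and, ind_not (∃ j, j ≠ 0 ∧ c = τ j)]
  ring

lemma q23_prod (S H : Finset (Dir F)) (hH : H ⊆ S) (p : Pt F) :
    ∏ e ∈ S, pr (fun τ : Fin (k + 1) → F =>
        ¬ ev e p = τ 0 ∧ ((∃ j, j ≠ 0 ∧ ev e p = τ j) ↔ e ∈ H))
      = ((1 - 1 / (Fintype.card F : ℝ)) - (1 - 1 / (Fintype.card F : ℝ)) ^ (k + 1)) ^ H.card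
        * ((1 - 1 / (Fintype.card F : ℝ)) ^ (k + 1)) ^ (S.card - H.card) := by
  rw [← Finset.prod_sdiff hH, mul_comm, ← Finset.card_sdiff_of_subset hH, ← Finset.prod_const,
    ← Finset.prod_const]
  congr 1
  · refine Finset.prod_congr rfl fun e he => ?_
    simp only [he, iff_true]
    exact q23_pr_one _
  · refine Finset.prod_congr rfl fun e he => ?_
    simp only [(Finset.mem_sdiff.1 he).2, iff_false]
    exact q23_pr_zero _

lemma q23_ex_N1 (g : ℕ) (l : Ln F) :
    Fintype.card F * ((Fintype.card F).choose g *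
      (((1 - 1 / (Fintype.card F : ℝ)) - (1 - 1 / (Fintype.card F : ℝ)) ^ (k + 1)) ^ g
        * ((1 - 1 / (Fintype.card F : ℝ)) ^ (k + 1)) ^ (Fintype.card F - g)))
      ≤ ex fun T : Ix F (k + 1) → F => ((N1 g T l).card : ℝ) := by
  classical
  have hS : (univ.erase l.1).card = Fintype.card F := by
    rw [Finset.card_erase_of_mem (mem_univ _), Finset.card_univ, card_dir]; rfl
  simp only [N1, card_filter_eq_sum_ind]
  rw [ex_sum, ← card_pts l, ← nsmul_eq_mul, ← Finset.sum_const]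
  refine Finset.sum_le_sum fun p _ => ?_
  rw [card_pts, ← hS, ← Finset.card_powersetCard, ← nsmul_eq_mul, ← Finset.sum_const, hS]
  have h1 : ∀ H ∈ powersetCard g (univ.erase l.1),
      ((1 - 1 / (Fintype.card F : ℝ)) - (1 - 1 / (Fintype.card F : ℝ)) ^ (k + 1)) ^ g
        * ((1 - 1 / (Fintype.card F : ℝ)) ^ (k + 1)) ^ (Fintype.card F - g)
      = ex fun T : Ix F (k + 1) → F =>
        ind (∀ e ∈ univ.erase l.1, ¬ Des T e p ∧ (Pool T e p ↔ e ∈ H)) := fun H hH => by
    obtain ⟨h1, h2⟩ := Finset.mem_powersetCard.1 hH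
    have := q23_prod (k := k) _ H h1 p
    rw [h2, hS, ← q23_pr_dirs] at this
    exact this.symm
  rw [Finset.sum_congr rfl h1, ← ex_sum]
  refine ex_mono fun T => ?_
  have h2 : ∀ H ∈ powersetCard g (univ.erase l.1),
      (∀ e ∈ univ.erase l.1, ¬ Des T e p ∧ (Pool T e p ↔ e ∈ H)) →
        H = univ.filter fun e => e ≠ l.1 ∧ Pool T e p := fun H hH h => by
    ext e
    simp only [Finset.mem_filter, mem_univ, true_and]
    refine ⟨fun he => ?_, fun he => (h e (by simp [he.1])).2.1 he.2⟩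
    have := (Finset.mem_powersetCard.1 hH).1 he
    exact ⟨(Finset.mem_erase.1 this).1, (h e this).2.2 he⟩
  by_cases h : ∃ H ∈ powersetCard g (univ.erase l.1),
      ∀ e ∈ univ.erase l.1, ¬ Des T e p ∧ (Pool T e p ↔ e ∈ H)
  · obtain ⟨H, hH, h⟩ := h
    rw [Finset.sum_eq_single_of_mem H hH fun H' hH' hne => ind_neg fun h' =>
      hne ((h2 H' hH' h').trans (h2 H hH h).symm)]
    refine ind_mono fun _ => ⟨fun e he => (h e (by simp [he])).1, ?_⟩
    rw [← (Finset.mem_powersetCard.1 hH).2, h2 H hH h]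
  · rw [Finset.sum_eq_zero fun H hH => ind_neg fun h' => h ⟨H, hH, h'⟩]
    exact ind_nonneg _

lemma q23_ex_N2 (g : ℕ) (hg : 1 ≤ g) (l : Ln F) :
    (ex fun T : Ix F (k + 1) → F => ((N2 g T l).card : ℝ)) ≤
    Fintype.card F * ((Fintype.card F - 1).choose (g - 1) *
      (((1 - 1 / (Fintype.card F : ℝ)) - (1 - 1 / (Fintype.card F : ℝ)) ^ (k + 1)) ^ (g - 1)
        * ((1 - 1 / (Fintype.card F : ℝ)) ^ (k + 1)) ^ (Fintype.card F - g))) := by
  classical
  have hq : (Fintype.card F : ℝ) ≠ 0 := by exact_mod_cast Fintype.card_ne_zero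
  have hS : (univ.erase l.1).card = Fintype.card F := by
    rw [Finset.card_erase_of_mem (mem_univ _), Finset.card_univ, card_dir]; rfl
  simp only [N2, card_filter_eq_sum_ind]
  rw [ex_sum]
  refine (Finset.sum_le_card_nsmul _ _ _ fun p _ => ?_).trans
    (le_of_eq (by rw [card_pts, nsmul_eq_mul]))
  set b := ((1 - 1 / (Fintype.card F : ℝ)) - (1 - 1 / (Fintype.card F : ℝ)) ^ (k + 1)) ^ (g - 1)
        * ((1 - 1 / (Fintype.card F : ℝ)) ^ (k + 1)) ^ (Fintype.card F - g) with hb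
  have h1 : ∀ e ∈ univ.erase l.1, ∀ H ∈ powersetCard (g - 1) ((univ.erase l.1).erase e),
      pr (fun T : Ix F (k + 1) → F => Des T e p ∧
        ∀ e' ∈ (univ.erase l.1).erase e, ¬ Des T e' p ∧ (Pool T e' p ↔ e' ∈ H))
        ≤ 1 / Fintype.card F * b := fun e he H hH => by
    obtain ⟨h1, h2⟩ := Finset.mem_powersetCard.1 hH
    have h3 := q23_prod (k := k) _ H h1 p
    rw [h2, Finset.card_erase_of_mem he, hS,
      show Fintype.card F - 1 - (g - 1) = Fintype.card F - g by omega, ← hb] at h3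
    have h4 := q23_pr_dirs (k := k) (insert e ((univ.erase l.1).erase e)) fun e' τ =>
      if e' = e then ev e p = τ 0 else
        ¬ ev e' p = τ 0 ∧ ((∃ j, j ≠ 0 ∧ ev e' p = τ j) ↔ e' ∈ H)
    rw [Finset.prod_insert (Finset.notMem_erase _ _), Finset.prod_congr rfl
      (g := fun e' => pr fun τ : Fin (k + 1) → F =>
        ¬ ev e' p = τ 0 ∧ ((∃ j, j ≠ 0 ∧ ev e' p = τ j) ↔ e' ∈ H))
      (fun e' he' => by simp only [if_neg (Finset.mem_erase.1 he').1]), h3] at h4
    simp only [if_true, q23_pr_D] at h4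
    rw [← h4]
    refine pr_mono fun T hT e' he' => ?_
    split_ifs with h
    · rw [h]; exact hT.1
    · exact hT.2 e' ((Finset.mem_insert.1 he').resolve_left h)
  refine le_trans (pr_mono (F := fun T : Ix F (k + 1) → F => ∃ e ∈ univ.erase l.1,
    ∃ H ∈ powersetCard (g - 1) ((univ.erase l.1).erase e), Des T e p ∧
        ∀ e' ∈ (univ.erase l.1).erase e, ¬ Des T e' p ∧ (Pool T e' p ↔ e' ∈ H)) ?_) ?_
  · rintro T ⟨e, he, h1, h2, h3⟩
    refine ⟨e, by simp [he], _, Finset.mem_powersetCard.2 ⟨fun e' he' => ?_, h3⟩, h1,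
      fun e' he' => ?_⟩
    · simp only [Finset.mem_filter] at he'
      simp [he'.2.1, he'.2.2.1]
    · simp only [Finset.mem_erase] at he'
      exact ⟨h2 e' he'.2.1 he'.1, by simp [he'.1, he'.2.1]⟩
  · refine (pr_exists_le_card _ _ (b := ((Fintype.card F - 1).choose (g - 1) : ℝ) *
      (1 / Fintype.card F * b)) fun e he => ?_).trans (le_of_eq ?_)
    · refine (pr_exists_le_card _ _ (h1 e he)).trans (le_of_eq ?_)
      rw [Finset.card_powersetCard, Finset.card_erase_of_mem he, hS]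
    · rw [hS]; field_simp

lemma q23_diff {K : ℕ} (l : Ln F) (Φ : (Ix F K → F) → Finset (Pt F)) (hΦ : ∀ T, Φ T ⊆ pts l)
    (hloc : ∀ T T' p, (∀ i : Ix F K, i.1 ≠ l.1 → (On p (tl T i) ↔ On p (tl T' i))) →
      p ∈ Φ T → p ∈ Φ T') (T : Ix F K → F) (i : Ix F K) (a : F) :
    |((Φ T).card : ℝ) - (Φ (Function.update T i a)).card| ≤ 2 := by
  classical
  have key : ∀ T T' : Ix F K → F, (∀ j, j ≠ i → T j = T' j) →
      ((Φ T).card : ℝ) ≤ (Φ T').card + 2 := by
    intro T T' h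
    by_cases hi : i.1 = l.1
    · have : (Φ T).card ≤ (Φ T').card := Finset.card_le_card fun p hp =>
        hloc T T' p (fun j hj => by rw [tl, tl, h j fun h' => hj (h' ▸ hi)]) hp
      have : ((Φ T).card : ℝ) ≤ (Φ T').card := by exact_mod_cast this
      linarith
    · have h1 : Φ T ⊆ Φ T' ∪ (((pts l).filter fun p => On p (tl T i)) ∪
          ((pts l).filter fun p => On p (tl T' i))) := fun p hp => by
        by_contra hc
        simp only [Finset.mem_union, Finset.mem_filter, hΦ T hp, true_and, not_or] at hc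
        refine hc.1 (hloc T T' p (fun j _ => ?_) hp)
        by_cases hj : j = i
        · subst hj; exact iff_of_false hc.2.1 hc.2.2
        · rw [tl, tl, h j hj]
      have h2 := card_inter_le_one (l := l) (l' := tl T i) fun h' => hi (by rw [h']; rfl)
      have h3 := card_inter_le_one (l := l) (l' := tl T' i) fun h' => hi (by rw [h']; rfl)
      have h4 := (Finset.card_le_card h1).trans ((Finset.card_union_le _ _).trans
        (Nat.add_le_add_left ((Finset.card_union_le _ _).trans (add_le_add h2 h3)) _))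
      exact_mod_cast h4
  have h1 := key T (Function.update T i a) fun j hj => (Function.update_of_ne hj _ _).symm
  have h2 := key (Function.update T i a) T fun j hj => Function.update_of_ne hj _ _
  rw [abs_le]
  constructor <;> linarith

omit [Fintype F] [DecidableEq F] in
lemma q23_loc {T T' : Ix F (k + 1) → F} {p : Pt F} {d : Dir F}
    (h : ∀ i : Ix F (k + 1), i.1 ≠ d → (On p (tl T i) ↔ On p (tl T' i))) (e : Dir F)
    (he : e ≠ d) : (Des T e p ↔ Des T' e p) ∧ (Pool T e p ↔ Pool T' e p) :=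
  ⟨h (e, 0) he, exists_congr fun j => and_congr_right fun _ => h (e, j) he⟩

lemma q23_diff_N1 (g : ℕ) (l : Ln F) (T : Ix F (k + 1) → F) (i : Ix F (k + 1)) (a : F) :
    |((N1 g T l).card : ℝ) - (N1 g (Function.update T i a) l).card| ≤ 2 := by
  classical
  refine q23_diff l (fun T => N1 g T l) (fun T => Finset.filter_subset _ _) ?_ T i a
  intro T T' p h hp
  simp only [N1, Finset.mem_filter] at hp ⊢
  refine ⟨hp.1, fun e he => (q23_loc h e he).1.not.1 (hp.2.1 e he), ?_⟩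
  rw [← hp.2.2]
  exact congrArg _ (Finset.filter_congr fun e _ =>
    and_congr_right fun he => (q23_loc h e he).2.symm)

lemma q23_diff_N2 (g : ℕ) (l : Ln F) (T : Ix F (k + 1) → F) (i : Ix F (k + 1)) (a : F) :
    |((N2 g T l).card : ℝ) - (N2 g (Function.update T i a) l).card| ≤ 2 := by
  classical
  refine q23_diff l (fun T => N2 g T l) (fun T => Finset.filter_subset _ _) ?_ T i a
  intro T T' p h hp
  simp only [N2, Finset.mem_filter] at hp ⊢
  obtain ⟨h0, e, he, h1, h2, h3⟩ := hp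
  refine ⟨h0, e, he, (q23_loc h e he).1.1 h1,
    fun e' he' he'' => (q23_loc h e' he').1.not.1 (h2 e' he' he''), ?_⟩
  rw [← h3]
  exact congrArg _ (Finset.filter_congr fun e _ =>
    and_congr_right fun he => and_congr_right fun _ => (q23_loc h e he).2.symm)

end aux

lemma q23_bern {x : ℝ} (h1 : x ≤ 1) (k : ℕ) : (1 - x) ^ k * (1 + k * x) ≤ 1 := by
  induction k with
  | zero => simp
  | succ k ih =>
    have h2 : 0 ≤ (1 - x) ^ k := pow_nonneg (by linarith) k
    have h3 : (1 - x) * (1 + (k + 1) * x) ≤ 1 + k * x := by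
      nlinarith [mul_nonneg (Nat.cast_nonneg k : (0 : ℝ) ≤ k) (sq_nonneg x), sq_nonneg x]
    push_cast
    calc _ = (1 - x) ^ k * ((1 - x) * (1 + (k + 1) * x)) := by ring
      _ ≤ (1 - x) ^ k * (1 + k * x) := mul_le_mul_of_nonneg_left h3 h2
      _ ≤ 1 := ih

lemma q23_pi1 {q k : ℕ} (hq : k + 2 ≤ q) :
    (k : ℝ) / (2 * q) ≤ (1 - 1 / (q : ℝ)) - (1 - 1 / (q : ℝ)) ^ (k + 1) := by
  have hq' : (k : ℝ) + 2 ≤ q := by exact_mod_cast hq
  have hk : (0 : ℝ) ≤ k := Nat.cast_nonneg k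
  have hq0 : (0 : ℝ) < q := by linarith
  set x : ℝ := 1 / q with hx
  have hx0 : 0 < x := by positivity
  have hx1 : (k + 2) * x ≤ 1 := by rw [hx, mul_one_div, div_le_one hq0]; exact hq'
  have h1 := q23_bern (x := x) (by nlinarith) k
  have h2 : (k : ℝ) / (2 * q) = k * x / 2 := by rw [hx]; field_simp
  have h3 : 0 < 1 + k * x := by positivity
  rw [h2, pow_succ]
  refine le_of_mul_le_mul_right ?_ h3
  have h4 : 0 ≤ 1 - x := by nlinarith
  nlinarith [mul_le_mul_of_nonneg_left h1 h4, mul_nonneg (mul_nonneg hk hx0.le) (sub_nonneg.2 hx1)]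

lemma q23_pi0 {q : ℕ} (hq : 2 ≤ q) (K m : ℕ) (hm : m ≤ q) :
    Real.exp (-(2 * K)) ≤ ((1 - 1 / (q : ℝ)) ^ K) ^ m := by
  have hq' : (2 : ℝ) ≤ q := by exact_mod_cast hq
  have hm' : (m : ℝ) ≤ q := by exact_mod_cast hm
  have hq0 : (0 : ℝ) < q := by linarith
  set x : ℝ := 1 / q with hx
  have hx0 : 0 < x := by positivity
  have hx1 : 2 * x ≤ 1 := by rw [hx, mul_one_div, div_le_one hq0]; exact hq'
  have h1 : Real.exp (-(2 * x)) ≤ 1 - x := by
    rw [Real.exp_neg, inv_le_iff_one_le_mul₀ (Real.exp_pos _)]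
    nlinarith [Real.add_one_le_exp (2 * x)]
  refine le_trans ?_ (pow_le_pow_left₀ (by positivity) (pow_le_pow_left₀ (by positivity) h1 K) m)
  rw [← Real.exp_nat_mul, ← Real.exp_nat_mul, Real.exp_le_exp]
  have h2 : m * x ≤ 1 := by rw [hx, mul_one_div, div_le_one hq0]; exact hm'
  nlinarith [(Nat.cast_nonneg K : (0 : ℝ) ≤ K)]

theorem q23_prob (g k : ℕ) (hg : 1 ≤ g) (hk : 64 * g ^ 2 ≤ k) :
    ∀ᶠ q : ℕ in atTop, ∀ (F : Type) [Field F] [Fintype F] [DecidableEq F], Fintype.card F = q →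
      pr (fun T : Ix F (k + 1) → F => ¬ Q23 g T) ≤ 1 / 10 := by
  set c : ℝ := Real.exp (-(2 * (k + 1 : ℕ))) / g.factorial with hc
  have hc0 : 0 < c := by positivity
  set γ : ℝ := c / (4 * (8 * g + 1)) with hγ
  have hγ0 : 0 < γ := by positivity
  set β : ℝ := γ ^ 2 / (16 * (k + 1)) with hβ
  have hβ0 : 0 < β := by positivity
  have ev1 := tendsto_natCast_atTop_atTop (R := ℝ) |>.eventually_ge_atTop (240 / β ^ 3)
  have ev2 := tendsto_natCast_atTop_atTop (R := ℝ) |>.eventually_ge_atTop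
    ((8 * g * (k + 1) + 8) / c)
  filter_upwards [ev1, ev2, eventually_ge_atTop (k + 2), eventually_ge_atTop (2 * g)]
    with q hq1 hq2 hq3 hq4 F _ _ _ hF
  have hq0 : (0 : ℝ) < q := by exact_mod_cast (by omega : 0 < q)
  have hq1' : (1 : ℝ) ≤ q := by exact_mod_cast (by omega : 1 ≤ q)
  have hg' : (1 : ℝ) ≤ g := by exact_mod_cast hg
  have hk' : 64 * (g : ℝ) ^ 2 ≤ k := by exact_mod_cast hk
  set π₁ : ℝ := (1 - 1 / (q : ℝ)) - (1 - 1 / (q : ℝ)) ^ (k + 1) with hπ₁
  set π₀ : ℝ := ((1 - 1 / (q : ℝ)) ^ (k + 1)) ^ (q - g) with hπ₀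
  have h1 : (k : ℝ) / (2 * q) ≤ π₁ := q23_pi1 hq3
  have hπ1 : 0 ≤ π₁ := le_trans (by positivity) h1
  have h0 : Real.exp (-(2 * (k + 1 : ℕ))) ≤ π₀ := q23_pi0 (by omega) _ _ (Nat.sub_le _ _)
  have hπ0 : 0 ≤ π₀ := (Real.exp_pos _).le.trans h0
  set P2 : ℝ := q.choose g * (π₁ ^ g * π₀) with hP2
  set P3 : ℝ := (q - 1).choose (g - 1) * (π₁ ^ (g - 1) * π₀) with hP3
  have hP2c : c ≤ P2 := by
    have h2 : ((q + 1 - g : ℕ) : ℝ) ^ g / g.factorial ≤ q.choose g := by
      exact_mod_cast Nat.pow_le_choose (α := ℝ) g q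
    have h3 : 1 ≤ ((q + 1 - g : ℕ) : ℝ) * π₁ := by
      have h4 : (q : ℝ) ≤ 2 * ((q + 1 - g : ℕ) : ℝ) := by exact_mod_cast (by omega)
      have h5 : (4 : ℝ) / (2 * q) ≤ π₁ := le_trans (by gcongr; nlinarith) h1
      rw [div_le_iff₀ (by positivity)] at h5
      nlinarith
    calc c = 1 / g.factorial * Real.exp (-(2 * (k + 1 : ℕ))) := by rw [hc]; ring
      _ ≤ (((q + 1 - g : ℕ) : ℝ) * π₁) ^ g / g.factorial * π₀ := by
          gcongr; exact one_le_pow₀ h3
      _ = ((q + 1 - g : ℕ) : ℝ) ^ g / g.factorial * (π₁ ^ g * π₀) := by rw [mul_pow]; ring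
      _ ≤ P2 := mul_le_mul_of_nonneg_right h2 (by positivity)
  have hP3' : 32 * g * P3 ≤ P2 := by
    have h2 : (q : ℝ) * (q - 1).choose (g - 1) = q.choose g * g := by
      have := Nat.add_one_mul_choose_eq (q - 1) (g - 1)
      rw [Nat.sub_add_cancel (by omega), Nat.sub_add_cancel hg] at this
      exact_mod_cast this
    have h3 : π₁ ^ g = π₁ ^ (g - 1) * π₁ := by rw [← pow_succ, Nat.sub_add_cancel hg]
    have h4 : 32 * (g : ℝ) ^ 2 ≤ q * π₁ := by
      rw [div_le_iff₀ (by positivity)] at h1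
      nlinarith
    refine le_of_mul_le_mul_left ?_ hq0
    calc q * (32 * g * P3) = (32 * g ^ 2) * (q.choose g * (π₁ ^ (g - 1) * π₀)) := by
          rw [hP3]; linear_combination (32 * g * (π₁ ^ (g - 1) * π₀)) * h2
      _ ≤ (q * π₁) * (q.choose g * (π₁ ^ (g - 1) * π₀)) := by gcongr
      _ = q * P2 := by rw [hP2, h3]; ring
  have hN : (Fintype.card (Ix F (k + 1)) : ℝ) ≤ 2 * q * (k + 1) := by
    rw [Fintype.card_prod, card_dir, hF, Fintype.card_fin]
    push_cast
    gcongr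
    linarith
  have hexp : (γ * q) ^ 2 / (2 * (2 * q * (k + 1)) * 2 ^ 2) = β * q := by
    rw [hβ]; field_simp; ring
  have hb1 : ∀ l : Ln F, pr (fun T : Ix F (k + 1) → F =>
      ((N1 g T l).card : ℝ) ≤ q * P2 - γ * q) ≤ Real.exp (-(β * q)) := fun l => by
    have h2 := mcdiarmid_lower (c := 2) (t := γ * q) two_pos (by positivity) hN (by positivity)
      (fun T : Ix F (k + 1) → F => ((N1 g T l).card : ℝ)) (q23_diff_N1 g l)
    have h3 := q23_ex_N1 (k := k) g l
    rw [hF] at h3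
    rw [hexp] at h2
    exact (pr_mono fun T hT => hT.trans (sub_le_sub_right h3 _)).trans h2
  have hb2 : ∀ l : Ln F, pr (fun T : Ix F (k + 1) → F =>
      q * P3 + γ * q ≤ ((N2 g T l).card : ℝ)) ≤ Real.exp (-(β * q)) := fun l => by
    have h2 := mcdiarmid_upper (c := 2) (t := γ * q) two_pos (by positivity) hN (by positivity)
      (fun T : Ix F (k + 1) → F => ((N2 g T l).card : ℝ)) (q23_diff_N2 g l)
    have h3 := q23_ex_N2 (k := k) g hg l
    rw [hF] at h3
    rw [hexp] at h2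
    exact (pr_mono fun T hT => (add_le_add_left h3 _).trans hT).trans h2
  refine le_trans (pr_mono (F := fun T : Ix F (k + 1) → F => ∃ l ∈ (univ : Finset (Ln F)),
    ((N1 g T l).card : ℝ) ≤ q * P2 - γ * q ∨ q * P3 + γ * q ≤ ((N2 g T l).card : ℝ)) ?_) ?_
  · intro T hT
    by_contra hcon
    push Not at hcon
    refine hT ⟨2 * g * (q * P3 + γ * q) + g * (k + 1) + 1, fun l => ?_, fun l => ?_⟩
    · have := (hcon l (mem_univ _)).2.le
      gcongr
    · refine le_trans ?_ (hcon l (mem_univ _)).1.le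
      have h2 : (8 * g + 1) * γ = c / 4 := by rw [hγ]; field_simp
      rw [div_le_iff₀ hc0] at hq2
      have h3 := mul_le_mul_of_nonneg_left hP3' hq0.le
      have h4 := mul_le_mul_of_nonneg_left hP2c hq0.le
      have h5 : q * ((8 * g + 1) * γ) = q * (c / 4) := by rw [h2]
      nlinarith
  · refine (pr_exists_le_card _ _ (b := 2 * Real.exp (-(β * q))) fun l _ =>
      (pr_or_le _ _).trans (by linarith [hb1 l, hb2 l])).trans ?_
    rw [Finset.card_univ, card_ln, hF, Real.exp_neg]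
    have h2 := Real.pow_div_factorial_le_exp (β * q) (by positivity) 3
    rw [div_le_iff₀ (by positivity)] at hq1
    rw [← mul_assoc, ← div_eq_mul_inv, div_le_iff₀ (Real.exp_pos _)]
    push_cast
    simp only [Nat.factorial, Nat.succ_eq_add_one] at h2
    norm_num at h2
    have h3 : 240 * (q : ℝ) ^ 2 ≤ (β * q) ^ 3 := by
      have := mul_le_mul_of_nonneg_right hq1 (sq_nonneg (q : ℝ))
      nlinarith
    nlinarith

end Crest.Agent.R034
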