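import Crest.Agent.R034.Defs

set_option autoImplicit false

namespace Crest.Agent.R034

open Finset Filter

lemma qp_small (C : ℝ) (n : ℕ) {c : ℝ} (hc : 0 < c) :
    ∀ᶠ x : ℝ in atTop, C * x ^ n * Real.exp (-(c * x)) ≤ 1 / 10 := by
  have h1 := (Real.tendsto_pow_mul_exp_neg_atTop_nhds_zero n).comp
    (tendsto_id.const_mul_atTop hc)
  have h2 := h1.const_mul (C / c ^ n)
  rw [mul_zero] at h2
  filter_upwards [h2.eventually (ge_mem_nhds (by norm_num : (0 : ℝ) < 1 / 10))] with x hx
  refine le_trans (le_of_eq ?_) hx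
  simp only [Function.comp, id, mul_pow]
  field_simp

section avoid
variable {F W ι : Type} [Fintype F] [DecidableEq F] [Nonempty F] [Fintype ι] [DecidableEq ι]

/-- number of `w` whose forbidden values are all avoided -/
noncomputable def qpCount (X : Finset W) (B : W → ι → Finset F) (T : ι → F) : ℝ :=
  ∑ w ∈ X, ind (∀ i, T i ∉ B w i)

lemma qp_ex (X : Finset W) (B : W → ι → Finset F) :
    ex (qpCount X B) = ∑ w ∈ X, ∏ i, (1 - ((B w i).card : ℝ) / Fintype.card F) := by
  unfold qpCount
  rw [ex_sum]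
  refine sum_congr rfl fun w _ => ?_
  have h := pr_forall_coord (A := fun _ : ι => F) univ (fun i a => a ∉ B w i)
  simp only [mem_univ, forall_const] at h
  refine h.trans (prod_congr rfl fun i _ => ?_)
  rw [pr_not (fun a => a ∈ B w i), pr_mem_finset]

omit [Fintype F] [Nonempty F] [Fintype ι] in
lemma qp_diff (X : Finset W) (B : W → ι → Finset F) {c : ℝ}
    (hc : ∀ i a, ((X.filter fun w => a ∈ B w i).card : ℝ) ≤ c) (T : ι → F) (i : ι) (a : F) :
    |qpCount X B T - qpCount X B (Function.update T i a)| ≤ c := by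
  have key : ∀ T T' : ι → F, (∀ j, j ≠ i → T j = T' j) →
      qpCount X B T - qpCount X B T' ≤ c := by
    intro T T' hT
    refine le_trans ?_ (hc i (T' i))
    rw [card_filter_eq_sum_ind]
    unfold qpCount
    rw [← sum_sub_distrib]
    refine sum_le_sum fun w _ => ?_
    by_cases h1 : T' i ∈ B w i
    · rw [ind_pos h1]
      have := ind_le_one (∀ i, T i ∉ B w i)
      have := ind_nonneg (∀ i, T' i ∉ B w i)
      linarith
    · rw [ind_neg h1]
      have : ind (∀ i, T i ∉ B w i) ≤ ind (∀ i, T' i ∉ B w i) := by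
        refine ind_mono fun h j => ?_
        by_cases hj : j = i
        · rw [hj]; exact h1
        · rw [← hT j hj]; exact h j
      linarith
  have h1 := key T (Function.update T i a) fun j hj => (Function.update_of_ne hj _ _).symm
  have h2 := key (Function.update T i a) T fun j hj => Function.update_of_ne hj _ _
  rw [abs_le]
  constructor <;> linarith

end avoid

lemma qp_card_ix (F : Type) [Fintype F] [Nonempty F] (K : ℕ) :
    (Fintype.card (Ix F K) : ℝ) ≤ 2 * K * Fintype.card F := by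
  rw [Fintype.card_prod, card_dir, Fintype.card_fin]
  have h1 : (1 : ℝ) ≤ Fintype.card F := by exact_mod_cast Fintype.card_pos
  have h2 : (0 : ℝ) ≤ K := Nat.cast_nonneg _
  push_cast
  nlinarith

lemma qp_card_ln (F : Type) [Fintype F] [Nonempty F] :
    (Fintype.card (Ln F) : ℝ) ≤ 2 * (Fintype.card F : ℝ) ^ 2 := by
  rw [card_ln]
  have h1 : (1 : ℝ) ≤ Fintype.card F := by exact_mod_cast Fintype.card_pos
  push_cast
  nlinarith

theorem q1_prob (K : ℕ) (hK : 1 ≤ K) {γ : ℝ} (hγ : 0 < γ) :
    ∀ᶠ q : ℕ in atTop, ∀ (F : Type) [Field F] [Fintype F] [DecidableEq F], Fintype.card F = q →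
      pr (fun T : Ix F K → F => ¬ Q1 γ T) ≤ 1 / 10 := by
  have hK' : (0 : ℝ) < K := by exact_mod_cast hK
  filter_upwards [tendsto_natCast_atTop_atTop.eventually
    (qp_small 4 2 (c := γ ^ 2 / (4 * K)) (by positivity))] with q hq F _ _ _ hF
  subst hF
  set q : ℝ := (Fintype.card F : ℝ) with hqdef
  have hq0 : 0 < q := by rw [hqdef]; exact_mod_cast Fintype.card_pos
  let B : Ln F → Pt F → Ix F K → Finset F := fun l w i => if i.1 ≠ l.1 then {ev i.1 w} else ∅
  have hf : ∀ l T, ((free T l).card : ℝ) = qpCount (pts l) (B l) T := by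
    intro l T
    unfold free qpCount
    rw [card_filter_eq_sum_ind]
    refine sum_congr rfl fun w _ => ind_congr (forall_congr' fun i => ?_)
    by_cases hi : i.1 = l.1
    · simp [B, hi]
    · simp only [B, ne_eq, hi, not_false_eq_true, if_true, mem_singleton, forall_const]
      exact not_congr eq_comm
  have hex : ∀ l, ex (qpCount (pts l) (B l)) = (1 - 1 / q) ^ (K * Fintype.card F) * q := by
    intro l
    rw [qp_ex]
    have : ∀ w, ∏ i : Ix F K, (1 - ((B l w i).card : ℝ) / Fintype.card F) =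
        (1 - 1 / q) ^ (K * Fintype.card F) := by
      intro w
      have h1 : ∀ i : Ix F K, (1 - ((B l w i).card : ℝ) / Fintype.card F) =
          if i.1 ≠ l.1 then (1 - 1 / q) else 1 := by
        intro i
        by_cases hi : i.1 = l.1 <;> simp [B, hi, hqdef]
      rw [prod_congr rfl fun i _ => h1 i, prod_ite, prod_const, prod_const_one, mul_one]
      congr 1
      have : (univ.filter fun i : Ix F K => i.1 ≠ l.1) = (univ.erase l.1) ×ˢ univ := by
        ext i; simp
      rw [this, card_product, card_erase_of_mem (mem_univ _), card_univ, card_univ, card_dir,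
        Fintype.card_fin, Nat.add_sub_cancel, mul_comm]
    rw [sum_congr rfl fun w _ => this w, sum_const, card_pts, nsmul_eq_mul, mul_comm]
  have hdiff : ∀ l T i a, |qpCount (pts l) (B l) T - qpCount (pts l) (B l)
      (Function.update T i a)| ≤ 1 := by
    intro l
    refine qp_diff _ _ fun i a => ?_
    have : ((pts l).filter fun w => a ∈ B l w i).card ≤ 1 := by
      rw [card_le_one]
      intro w hw w' hw'
      simp only [mem_filter, mem_pts] at hw hw'
      by_cases hi : i.1 = l.1
      · simp [B, hi] at hw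
      · simp only [B, ne_eq, hi, not_false_eq_true, if_true, mem_singleton] at hw hw'
        exact pt_eq_of_ev hi (hw.2.symm.trans hw'.2) (hw.1.trans hw'.1.symm)
    exact_mod_cast this
  have htail : ∀ l ∈ (univ : Finset (Ln F)), pr (fun T : Ix F K → F =>
      ex (qpCount (pts l) (B l)) + γ * q ≤ qpCount (pts l) (B l) T ∨
      qpCount (pts l) (B l) T ≤ ex (qpCount (pts l) (B l)) - γ * q) ≤
      2 * Real.exp (-(γ ^ 2 / (4 * K) * q)) := by
    intro l _
    have h1 := mcdiarmid_upper (A := fun _ : Ix F K => F) one_pos (by positivity : 0 < γ * q)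
      (qp_card_ix F K) (by positivity) _ (hdiff l)
    have h2 := mcdiarmid_lower (A := fun _ : Ix F K => F) one_pos (by positivity : 0 < γ * q)
      (qp_card_ix F K) (by positivity) _ (hdiff l)
    have e : (γ * q) ^ 2 / (2 * (2 * K * q) * 1 ^ 2) = γ ^ 2 / (4 * K) * q := by
      field_simp; ring
    rw [← hqdef, e] at h1 h2
    exact (pr_or_le _ _).trans (by linarith)
  refine le_trans (pr_mono ?_) ((pr_exists_le_card _ _ htail).trans ?_)
  · intro T hT
    simp only [Q1, not_forall, not_le] at hT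
    obtain ⟨l, hl⟩ := hT
    refine ⟨l, mem_univ _, ?_⟩
    rw [hf, ← hqdef, ← hex l] at hl
    rcases lt_abs.1 hl with h | h
    · left; linarith
    · right; linarith
  · rw [card_univ]
    have := qp_card_ln F
    calc _ ≤ 2 * q ^ 2 * (2 * Real.exp (-(γ ^ 2 / (4 * K) * q))) := by gcongr
      _ = 4 * q ^ 2 * Real.exp (-(γ ^ 2 / (4 * K) * q)) := by ring
      _ ≤ _ := hq

lemma qp_exp_le {x : ℝ} (h0 : 0 ≤ x) (h1 : x ≤ 1 / 2) : Real.exp (-(2 * x)) ≤ 1 - x := by
  have h2 : 2 * x + 1 ≤ Real.exp (2 * x) := Real.add_one_le_exp _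
  rw [Real.exp_neg, inv_le_iff_one_le_mul₀ (Real.exp_pos _)]
  nlinarith

theorem q4_prob (K g : ℕ) (hK : 1 ≤ K) :
    ∀ᶠ q : ℕ in atTop, ∀ (F : Type) [Field F] [Fintype F] [DecidableEq F], Fintype.card F = q →
      pr (fun T : Ix F K → F => ¬ Q4 g (Real.exp (-(4 * (2 * g + 1) * K)) / 2) T) ≤ 1 / 10 := by
  have hK' : (0 : ℝ) < K := by exact_mod_cast hK
  set δ : ℝ := Real.exp (-(4 * (2 * g + 1) * K)) / 2 with hδ
  have hδ0 : 0 < δ := by positivity
  set a : ℝ := 2 * g + 1 with ha
  have ha0 : 0 < a := by positivity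
  have hrow : Fintype.card (Row g) = 2 * g + 1 := by simp
  filter_upwards [tendsto_natCast_atTop_atTop.eventually
    (qp_small (2 * 2 ^ (2 * g + 1) * 2 ^ (2 * g + 1)) (2 + 2 * (2 * g + 1) + (2 * g + 1))
      (c := δ ^ 2 / (4 * K * a ^ 2)) (by positivity)),
    tendsto_natCast_atTop_atTop.eventually (eventually_ge_atTop (2 * a))] with q hq hqa F _ _ _ hF
  classical
  subst hF
  set q : ℝ := (Fintype.card F : ℝ) with hqdef
  have hq0 : 0 < q := by rw [hqdef]; exact_mod_cast Fintype.card_pos
  let B : Ln F × (Row g → Ln F) × (Row g → Dir F) → Pt F → Ix F K → Finset F := fun t w i =>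
    (univ.filter fun r => i.1 ≠ (t.2.1 r).1).image fun r =>
      ev i.1 (meet (t.2.1 r) (t.2.2 r, ev (t.2.2 r) w))
  let G : Finset (Ln F × (Row g → Ln F) × (Row g → Dir F)) :=
    univ.filter fun t => ∀ r, t.2.2 r ≠ t.1.1 ∧ t.2.2 r ≠ (t.2.1 r).1
  have hBcard : ∀ t w i, ((B t w i).card : ℝ) ≤ a := by
    intro t w i
    have : (B t w i).card ≤ 2 * g + 1 := card_image_le.trans ((card_le_univ _).trans hrow.le)
    rw [ha]; exact_mod_cast this
  have hex : ∀ t, 2 * δ * q ≤ ex (qpCount (pts t.1) (B t)) := by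
    intro t
    rw [qp_ex]
    have : ∀ w ∈ pts t.1, 2 * δ ≤ ∏ i : Ix F K, (1 - ((B t w i).card : ℝ) / Fintype.card F) := by
      intro w _
      have h1 : ∀ i : Ix F K, Real.exp (-(2 * (a / q))) ≤
          1 - ((B t w i).card : ℝ) / Fintype.card F := by
        intro i
        refine (qp_exp_le (by positivity) (by rw [div_le_iff₀ hq0]; linarith)).trans ?_
        have := div_le_div_of_nonneg_right (hBcard t w i) hq0.le
        linarith
      refine le_trans ?_ (prod_le_prod (fun _ _ => (Real.exp_pos _).le) fun i _ => h1 i)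
      rw [prod_const, card_univ, ← Real.exp_nat_mul, hδ, mul_div_cancel₀ _ two_ne_zero]
      refine Real.exp_le_exp.2 ?_
      have h2 := qp_card_ix F K
      have h3 : (Fintype.card (Ix F K) : ℝ) * (2 * (a / q)) ≤ 2 * K * q * (2 * (a / q)) :=
        mul_le_mul_of_nonneg_right h2 (by positivity)
      have h4 : 2 * K * q * (2 * (a / q)) = 4 * a * K := by field_simp; ring
      linarith
    have h5 := card_nsmul_le_sum _ _ _ this
    rw [card_pts, nsmul_eq_mul] at h5
    linarith
  have hdiff : ∀ t ∈ G, ∀ T i x, |qpCount (pts t.1) (B t) T - qpCount (pts t.1) (B t)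
      (Function.update T i x)| ≤ a := by
    intro t ht
    have ht' := (mem_filter.1 ht).2
    refine qp_diff _ _ fun i x => ?_
    have h1 : ((pts t.1).filter fun w => x ∈ B t w i) ⊆ univ.biUnion fun r : Row g =>
        (pts t.1).filter fun w => i.1 ≠ (t.2.1 r).1 ∧
          ev i.1 (meet (t.2.1 r) (t.2.2 r, ev (t.2.2 r) w)) = x := by
      intro w hw
      obtain ⟨hw1, hw2⟩ := mem_filter.1 hw
      obtain ⟨r, hr, e⟩ := mem_image.1 hw2
      exact mem_biUnion.2 ⟨r, mem_univ _, mem_filter.2 ⟨hw1, (mem_filter.1 hr).2, e⟩⟩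
    have h2 : ∀ r ∈ (univ : Finset (Row g)), ((pts t.1).filter fun w => i.1 ≠ (t.2.1 r).1 ∧
          ev i.1 (meet (t.2.1 r) (t.2.2 r, ev (t.2.2 r) w)) = x).card ≤ 1 := by
      intro r _
      rw [card_le_one]
      intro w hw w' hw'
      simp only [mem_filter, mem_pts] at hw hw'
      have b1 := meet_on_left (l := t.2.1 r) (l' := (t.2.2 r, ev (t.2.2 r) w)) (ht' r).2.symm
      have b2 := meet_on_left (l := t.2.1 r) (l' := (t.2.2 r, ev (t.2.2 r) w')) (ht' r).2.symm
      have b3 := meet_on_right (l := t.2.1 r) (l' := (t.2.2 r, ev (t.2.2 r) w)) (ht' r).2.symm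
      have b4 := meet_on_right (l := t.2.1 r) (l' := (t.2.2 r, ev (t.2.2 r) w')) (ht' r).2.symm
      have b5 := pt_eq_of_ev hw.2.1 (hw.2.2.trans hw'.2.2.symm) (b1.trans b2.symm)
      rw [b5] at b3
      exact pt_eq_of_ev (ht' r).1 ((b3.symm.trans b4 :)) (hw.1.trans hw'.1.symm)
    have h3 := (card_le_card h1).trans (card_biUnion_le_card_mul _ _ _ h2)
    rw [card_univ, hrow, mul_one] at h3
    rw [ha]; exact_mod_cast h3
  have htail : ∀ t ∈ G, pr (fun T : Ix F K → F =>
      qpCount (pts t.1) (B t) T ≤ ex (qpCount (pts t.1) (B t)) - δ * q) ≤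
      Real.exp (-(δ ^ 2 / (4 * K * a ^ 2) * q)) := by
    intro t ht
    have h2 := mcdiarmid_lower (A := fun _ : Ix F K => F) ha0 (by positivity : 0 < δ * q)
      (qp_card_ix F K) (by positivity) _ (hdiff t ht)
    have e : (δ * q) ^ 2 / (2 * (2 * K * q) * a ^ 2) = δ ^ 2 / (4 * K * a ^ 2) * q := by
      field_simp; ring
    rwa [← hqdef, e] at h2
  refine le_trans (pr_mono ?_) ((pr_exists_le_card _ _ htail).trans ?_)
  · intro T hT
    simp only [Q4, not_forall, not_le] at hT
    obtain ⟨l, ρ, η, h1, h2⟩ := hT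
    refine ⟨(l, ρ, η), mem_filter.2 ⟨mem_univ _, h1⟩, ?_⟩
    have h3 : qpCount (pts l) (B (l, ρ, η)) T ≤ (((pts l).filter fun w =>
        ∀ r, meet (ρ r) (η r, ev (η r) w) ∈ free T (ρ r)).card : ℝ) := by
      rw [card_filter_eq_sum_ind]
      refine sum_le_sum fun w _ => ind_mono fun hw r => mem_free.2
        ⟨meet_on_left (l := ρ r) (l' := (η r, ev (η r) w)) (h1 r).2.symm, fun i hi hon => ?_⟩
      exact hw i (mem_image.2 ⟨r, mem_filter.2 ⟨mem_univ _, hi⟩, hon⟩)
    have h4 := hex (l, ρ, η)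
    simp only at h4 ⊢
    linarith
  · have b1 : (G.card : ℝ) ≤ Fintype.card (Ln F × (Row g → Ln F) × (Row g → Dir F)) := by
      exact_mod_cast card_le_univ _
    rw [Fintype.card_prod, Fintype.card_prod (Row g → Ln F), Fintype.card_fun, Fintype.card_fun,
      hrow] at b1
    push_cast at b1
    have b2 := qp_card_ln F
    have b3 : (Fintype.card (Dir F) : ℝ) ≤ 2 * q := by
      rw [card_dir]
      have : (1 : ℝ) ≤ q := by rw [hqdef]; exact_mod_cast Fintype.card_pos
      push_cast; linarith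
    have b4 : (G.card : ℝ) ≤ 2 * q ^ 2 * ((2 * q ^ 2) ^ (2 * g + 1) * (2 * q) ^ (2 * g + 1)) := by
      refine b1.trans ?_
      gcongr
    refine le_trans ?_ hq
    refine mul_le_mul_of_nonneg_right (b4.trans (le_of_eq ?_)) (Real.exp_pos _).le
    rw [mul_pow, mul_pow, ← pow_mul]
    ring

theorem q5_prob (K : ℕ) :
    ∀ᶠ q : ℕ in atTop, ∀ (F : Type) [Field F] [Fintype F] [DecidableEq F], Fintype.card F = q →
      pr (fun T : Ix F K → F => ¬ Q5 T) ≤ 1 / 10 := by
  have hs : Tendsto (fun q : ℕ => √(q : ℝ)) atTop atTop :=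
    Real.tendsto_sqrt_atTop.comp tendsto_natCast_atTop_atTop
  filter_upwards [hs.eventually (qp_small (Real.exp (Real.exp 1 * (2 * K))) 4 one_pos),
    hs.eventually (eventually_ge_atTop (K : ℝ))] with q hq hqK F _ _ _ hF
  subst hF
  set q : ℝ := (Fintype.card F : ℝ) with hqdef
  have hq0 : 0 < q := by rw [hqdef]; exact_mod_cast Fintype.card_pos
  have htail : ∀ p ∈ (univ : Finset (Pt F)), pr (fun T : Ix F K → F =>
      √q ≤ ∑ i, ind (ev i.1 p = T i)) ≤ Real.exp (Real.exp 1 * (2 * K) - √q) := by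
    intro p _
    have h1 : ∑ i : Ix F K, pr (fun a : F => ev i.1 p = a) ≤ 2 * K := by
      have : ∀ i : Ix F K, pr (fun a : F => ev i.1 p = a) = 1 / q := by
        intro i
        rw [pr_eq_card, filter_eq univ (ev i.1 p), if_pos (mem_univ _), card_singleton,
          Nat.cast_one]
      rw [sum_congr rfl fun i _ => this i, sum_const, card_univ, nsmul_eq_mul, mul_one_div,
        div_le_iff₀ hq0]
      exact qp_card_ix F K
    have h2 := upper_tail (A := fun _ : Ix F K => F) univ (fun i a => ev i.1 p = a) (n := √q) h1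
      (Real.one_le_exp zero_le_one)
    rwa [Real.log_exp, mul_one] at h2
  refine le_trans (pr_mono ?_) ((pr_exists_le_card _ _ htail).trans ?_)
  · intro T hT
    simp only [Q5, not_forall, not_le] at hT
    obtain ⟨y, hy⟩ := hT
    rcases y with p | d
    · refine ⟨p, mem_univ _, hy.le.trans (le_of_eq ?_)⟩
      rw [card_filter_eq_sum_ind]
      rfl
    · exfalso
      have : (univ.filter fun i : Ix F K => POn (Sum.inr d) (tl T i)) = {d} ×ˢ univ := by
        ext i; simp only [mem_filter, mem_univ, true_and, pon_inr, tl_fst, mem_product,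
          mem_singleton, and_true]
      rw [this, card_product, card_singleton, card_univ, Fintype.card_fin, one_mul] at hy
      linarith
  · rw [card_univ, card_pt]
    refine le_trans (le_of_eq ?_) hq
    have : √q ^ 4 = q ^ 2 := by
      rw [show (4 : ℕ) = 2 * 2 from rfl, pow_mul, Real.sq_sqrt hq0.le]
    rw [this, Real.exp_sub, one_mul, Real.exp_neg]
    push_cast
    rw [← hqdef]
    ring

end Crest.Agent.R034
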