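import Crest.Agent.R034.Defs
import Crest.Agent.R034.IT

set_option autoImplicit false

namespace Crest.Agent.R034

open Finset Filter

variable {F : Type} [Field F] [Fintype F] [DecidableEq F]

open Classical in
/-- Hub directions at a point. -/
noncomputable def s2H {k : ℕ} (T : Ix F (k + 1) → F) (d : Dir F) (p : Pt F) : Finset (Dir F) :=
  univ.filter fun e => e ≠ d ∧ Pool T e p

lemma s2_mem_H {k : ℕ} {T : Ix F (k + 1) → F} {d e : Dir F} {p : Pt F} :
    e ∈ s2H T d p ↔ e ≠ d ∧ Pool T e p := by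
  simp only [s2H, mem_filter, mem_univ, true_and]

lemma s2_mem_N1 {k g : ℕ} {T : Ix F (k + 1) → F} {d : Dir F} {p : Pt F} :
    p ∈ N1 g T (tl T (d, 0)) ↔ Des T d p ∧ (∀ e, e ≠ d → ¬ Des T e p) ∧ (s2H T d p).card = g := by
  simp only [N1, mem_filter, mem_pts]
  exact Iff.rfl

/-- The conflict relation. -/
def s2adj {k : ℕ} (T : Ix F (k + 1) → F) (x : Dir F × Bool) (p : Pt F) (y : Dir F × Bool)
    (p' : Pt F) : Prop :=
  (x.1 = y.1 ∧ (p = p' ∨ ∃ ε, ε ≠ x.1 ∧ Pool T ε p ∧ Pool T ε p')) ∨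
  (x.1 ≠ y.1 ∧ ∃ ε j, ε ≠ x.1 ∧ ε ≠ y.1 ∧ j ≠ 0 ∧ On p (tl T (ε, j)) ∧ On p' (tl T (ε, j)))

omit [Fintype F] [DecidableEq F] in
lemma s2adj_symm {k : ℕ} (T : Ix F (k + 1) → F) (x : Dir F × Bool) (p : Pt F) (y : Dir F × Bool)
    (p' : Pt F) (h : s2adj T x p y p') : s2adj T y p' x p := by
  rcases h with ⟨h1, h2 | ⟨ε, h2, h3, h4⟩⟩ | ⟨h1, ε, j, h2, h3, h4, h5, h6⟩
  · exact Or.inl ⟨h1.symm, Or.inl h2.symm⟩
  · exact Or.inl ⟨h1.symm, Or.inr ⟨ε, h1 ▸ h2, h4, h3⟩⟩
  · exact Or.inr ⟨h1.symm, ε, j, h3, h2, h4, h6, h5⟩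

lemma s2_deg {k g : ℕ} (hg : 1 ≤ g) (T : Ix F (k + 1) → F) {Δ : ℝ}
    (hΔ : ∀ l, 2 * g * ((N2 g T l).card : ℝ) + g * (k + 1) + 1 ≤ Δ) (c : Dir F × Bool) (p : Pt F)
    (hp : p ∈ N1 g T (tl T (c.1, 0))) (S : Finset ((Dir F × Bool) × Pt F))
    (hS : ∀ x ∈ S, x.1 ≠ c ∧ x.2 ∈ N1 g T (tl T (x.1.1, 0)) ∧ s2adj T c p x.1 x.2) :
    (S.card : ℝ) ≤ Δ := by
  classical
  obtain ⟨d, s⟩ := c
  obtain ⟨-, -, hp3⟩ := s2_mem_N1.1 hp
  simp only at hp3
  set A : Finset (Pt F) := insert p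
    (((s2H T d p) ×ˢ (univ : Finset (Fin (k + 1)))).image fun i => meet (tl T (d, 0)) (tl T i))
    with hA
  set B : Finset (Pt F) := (s2H T d p).biUnion fun ε => N2 g T (ε, ev ε p) with hB
  have h1 : (S.filter fun x => x.1.1 = d).card ≤ A.card := by
    refine card_le_card_of_injOn (fun x => x.2) (fun x hx => ?_) ?_
    · simp only [coe_filter, Set.mem_ofPred_eq] at hx
      obtain ⟨hx, hxd⟩ := hx
      obtain ⟨-, h2, h3⟩ := hS x hx
      rcases h3 with ⟨-, h3 | ⟨ε, h3, h4, j, -, h5⟩⟩ | ⟨h3, -⟩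
      · simp only [hA, coe_insert, Set.mem_insert_iff]
        exact Or.inl h3.symm
      · simp only [hA, mem_coe]
        refine mem_insert_of_mem (mem_image.2 ⟨(ε, j), mem_product.2
          ⟨s2_mem_H.2 ⟨h3, h4⟩, mem_univ _⟩, ?_⟩)
        have h6 := (s2_mem_N1.1 h2).1
        rw [hxd] at h6
        exact (eq_meet (l := tl T (d, 0)) (l' := tl T (ε, j)) (Ne.symm h3) h6 h5).symm
      · exact absurd hxd.symm h3
    · rintro ⟨⟨e, t⟩, q⟩ hx ⟨⟨e', t'⟩, q'⟩ hy hxy
      simp only [coe_filter, Set.mem_ofPred_eq] at hx hy hxy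
      obtain ⟨hx, rfl⟩ := hx
      obtain ⟨hy, rfl⟩ := hy
      have a1 := (hS _ hx).1
      have a2 := (hS _ hy).1
      simp only [ne_eq, Prod.mk.injEq, true_and] at a1 a2
      have : t = t' := by cases s <;> cases t <;> cases t' <;> simp_all
      rw [this, hxy]
  have h2 : (S.filter fun x => ¬ x.1.1 = d).card ≤ ((univ : Finset Bool) ×ˢ B).card := by
    refine card_le_card_of_injOn (fun x => (x.1.2, x.2)) (fun x hx => ?_) ?_
    · simp only [coe_filter, Set.mem_ofPred_eq] at hx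
      obtain ⟨hx, hxd⟩ := hx
      obtain ⟨-, h2, h3⟩ := hS x hx
      obtain ⟨h4, h5, h6⟩ := s2_mem_N1.1 h2
      rcases h3 with ⟨h3, -⟩ | ⟨-, ε, j, h7, h8, h9, h10, h11⟩
      · exact absurd h3.symm hxd
      · simp only [mem_coe, mem_product, mem_univ, true_and, hB, mem_biUnion]
        refine ⟨ε, s2_mem_H.2 ⟨h7, j, h9, h10⟩, ?_⟩
        simp only [N2, mem_filter, mem_pts]
        refine ⟨?_, x.1.1, h8.symm, h4, fun e' _ he' => h5 e' he', ?_⟩
        · have := eq_line_of_on h10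
          simp only [tl_fst] at this
          rw [← this]; exact h11
        · have hε : ε ∈ s2H T x.1.1 x.2 := s2_mem_H.2 ⟨h8, j, h9, h11⟩
          rw [← h6, ← card_erase_of_mem hε]
          congr 1
          ext e'
          simp only [mem_filter, mem_univ, true_and, mem_erase, s2_mem_H]
    · rintro ⟨⟨e, t⟩, q⟩ hx ⟨⟨e', t'⟩, q'⟩ hy hxy
      simp only [coe_filter, Set.mem_ofPred_eq, Prod.mk.injEq] at hx hy hxy
      obtain ⟨rfl, rfl⟩ := hxy
      have a1 := s2_mem_N1.1 (hS _ hx.1).2.1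
      have a2 := s2_mem_N1.1 (hS _ hy.1).2.1
      have : e = e' := by
        by_contra hne
        exact a2.2.1 e hne a1.1
      rw [this]
  have h3 : (A.card : ℝ) ≤ g * (k + 1) + 1 := by
    have a1 : A.card ≤ ((s2H T d p) ×ˢ (univ : Finset (Fin (k + 1)))).card + 1 :=
      (card_insert_le _ _).trans (Nat.add_le_add_right card_image_le 1)
    rw [card_product, hp3, card_univ, Fintype.card_fin] at a1
    exact_mod_cast a1
  have hg' : (1 : ℝ) ≤ g := by exact_mod_cast hg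
  have h4 : (B.card : ℝ) ≤ (Δ - (g * (k + 1) + 1)) / 2 := by
    have a1 : (B.card : ℝ) ≤ ∑ ε ∈ s2H T d p, ((N2 g T (ε, ev ε p)).card : ℝ) := by
      exact_mod_cast card_biUnion_le
    have a2 : ∀ ε ∈ s2H T d p, ((N2 g T (ε, ev ε p)).card : ℝ) ≤
        (Δ - (g * (k + 1) + 1)) / (2 * g) := by
      intro ε _
      rw [le_div_iff₀ (by positivity)]
      have := hΔ (ε, ev ε p)
      linarith
    have a3 := sum_le_card_nsmul _ _ _ a2
    rw [hp3, nsmul_eq_mul] at a3
    have a4 : (g : ℝ) * ((Δ - (g * (k + 1) + 1)) / (2 * g)) = (Δ - (g * (k + 1) + 1)) / 2 := by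
      field_simp
    linarith
  rw [card_product, card_univ, Fintype.card_bool] at h2
  have h5 := card_filter_add_card_filter_not (s := S) (fun x => x.1.1 = d)
  have h6 : (S.card : ℝ) ≤ A.card + 2 * B.card := by
    have : S.card ≤ A.card + 2 * B.card := by omega
    exact_mod_cast this
  linarith

/-- Choice of the special points and hub directions. -/
theorem stage2 {k g : ℕ} (hg : 1 ≤ g) (T : Ix F (k + 1) → F) (hT : Q23 g T) :
    ∃ (z : Dir F → Bool → Pt F) (h : Dir F → Bool → Fin g → Dir F),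
      Pre (fun d => T (d, 0)) z h ∧ ∀ d r, ∃ i, row (fun d => T (d, 0)) z h d r = tl T i := by
  obtain ⟨Δ, hΔ, hP⟩ := hT
  have hΔ0 : 0 < Δ := lt_of_lt_of_le (by positivity) (hΔ (none, 0))
  obtain ⟨z, hz, hadj⟩ := exists_indep_transversal (C := Dir F × Bool) (V := Pt F)
    (fun c => N1 g T (tl T (c.1, 0))) (s2adj T) (s2adj_symm T) hΔ0
    (fun c v hv S hS => s2_deg hg T hΔ c v hv S hS) (fun c => hP _)
  have hz' := fun d s => s2_mem_N1.1 (hz (d, s))
  let h : Dir F → Bool → Fin g → Dir F := fun d s j =>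
    ((equivFinOfCardEq (hz' d s).2.2).symm j).val
  have hh : ∀ d s j, h d s j ≠ d ∧ Pool T (h d s j) (z (d, s)) := fun d s j =>
    s2_mem_H.1 ((equivFinOfCardEq (hz' d s).2.2).symm j).property
  refine ⟨fun d s => z (d, s), h, ⟨fun d s => (hz' d s).1, fun d s j => (hh d s j).1,
    fun d s j s' j' e => ?_, fun d s e r hr => ?_⟩, fun d r => ?_⟩
  · by_cases hs : s = s'
    · subst hs
      exact ⟨rfl, (equivFinOfCardEq (hz' d s).2.2).symm.injective (Subtype.ext e)⟩
    · refine absurd (Or.inl ⟨rfl, Or.inr ⟨h d s j, (hh d s j).1, (hh d s j).2, ?_⟩⟩)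
        (hadj (d, s) (d, s') (fun e => hs (Prod.mk.inj e).2))
      rw [e]; exact (hh d s' j').2
  · cases r with
    | none =>
      refine ⟨?_, fun x hx => absurd hx (by simp)⟩
      by_contra hne
      exact (hz' d s).2.1 e hne hr
    | some x =>
      obtain ⟨s', j⟩ := x
      simp only [row_some] at hr
      obtain ⟨hε, j0, hj0, hon⟩ := hh e s' j
      have hl := eq_line_of_on hon
      simp only [tl_fst] at hl
      by_cases hed : e = d
      · subst hed
        refine ⟨rfl, fun x hx => ?_⟩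
        rw [← Option.some.inj hx]
        by_contra hs
        refine hadj (e, s) (e, s') (fun e => hs (Prod.mk.inj e).2.symm) (Or.inl ⟨rfl, Or.inl ?_⟩)
        exact pt_eq_of_on (l := tl T (e, 0)) (l' := (h e s' j, ev (h e s' j) (z (e, s'))))
          (Ne.symm hε) (hz' e s).1 hr (hz' e s').1 (on_self _ _)
      · exfalso
        by_cases hεd : h e s' j = d
        · refine (hz' e s').2.1 d (Ne.symm hed) ?_
          have a1 : ev d (z (d, s)) = T (d, 0) := (hz' d s).1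
          have a2 : ev (h e s' j) (z (d, s)) = ev (h e s' j) (z (e, s')) := hr
          rw [hεd] at a2
          exact a2.symm.trans a1
        · refine hadj (d, s) (e, s') (fun e' => hed (Prod.mk.inj e').1.symm)
            (Or.inr ⟨Ne.symm hed, h e s' j, j0, hεd, hε, hj0, ?_, hon⟩)
          rw [hl]; exact hr
  · cases r with
    | none => exact ⟨(d, 0), rfl⟩
    | some x =>
      obtain ⟨-, j0, -, hon⟩ := hh d x.1 x.2
      exact ⟨(h d x.1 x.2, j0), (eq_line_of_on hon).symm⟩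

end Crest.Agent.R034
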