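import Crest.Agent.R034.Defs

set_option autoImplicit false

namespace Crest.Agent.R034

open Finset Filter

variable {F : Type} [Field F] [Fintype F] [DecidableEq F]

omit [Fintype F] [DecidableEq F] in
lemma s3_row_inj {g : ℕ} {c : Dir F → F} {z : Dir F → Bool → Pt F}
    {h : Dir F → Bool → Fin g → Dir F} (hpre : Pre c z h) {d e : Dir F} {r r' : Row g}
    (hr : row c z h d r = row c z h e r') : d = e ∧ r = r' := by
  cases r with
  | none =>
    have h0 := hpre.z_row d false e r' (hr ▸ hpre.z_on d false)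
    have h1 := hpre.z_row d true e r' (hr ▸ hpre.z_on d true)
    refine ⟨h0.1.symm, ?_⟩
    cases r' with
    | none => rfl
    | some x => exact absurd ((h0.2 x rfl).symm.trans (h1.2 x rfl)) (by simp)
  | some x =>
    have h0 := hpre.z_row d x.1 e r' (hr ▸ on_self _ _)
    obtain ⟨rfl, -⟩ := h0
    refine ⟨rfl, ?_⟩
    cases r' with
    | none => exact absurd (congrArg Prod.fst hr) (hpre.h_ne _ _ _)
    | some x' =>
      obtain ⟨h1, h2⟩ := hpre.h_inj _ _ _ _ _ (congrArg Prod.fst hr)
      rw [Prod.ext h1 h2]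

/-- the rows used for column `i` of block `d` -/
def s3rho {g : ℕ} (c : Dir F → F) (z : Dir F → Bool → Pt F) (h : Dir F → Bool → Fin g → Dir F)
    (d : Dir F) (i : Fin g) (r : Row g) : Ln F :=
  r.elim (d, c d) fun x => if x.2 = i then (d, c d) else row c z h d (some x)

/-- the projection directions for column `i` of block `d` -/
def s3eta {g : ℕ} (h : Dir F → Bool → Fin g → Dir F) (d : Dir F) (i : Fin g) (r : Row g) :
    Dir F :=
  r.elim (h d false i) fun x => h d x.1 i

omit [Fintype F] [DecidableEq F] in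
lemma s3_eta_ne {g : ℕ} {c : Dir F → F} {z : Dir F → Bool → Pt F}
    {h : Dir F → Bool → Fin g → Dir F} (hpre : Pre c z h) (d : Dir F) (i : Fin g) (r : Row g) :
    s3eta h d i r ≠ d ∧ s3eta h d i r ≠ (s3rho c z h d i r).1 := by
  cases r with
  | none => exact ⟨hpre.h_ne _ _ _, hpre.h_ne _ _ _⟩
  | some x =>
    refine ⟨hpre.h_ne _ _ _, ?_⟩
    simp only [s3eta, s3rho, Option.elim]
    split_ifs with hx
    · exact hpre.h_ne _ _ _
    · exact fun e => hx (hpre.h_inj _ _ _ _ _ e).2.symm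

open Classical in
/-- admissible kept points -/
noncomputable def s3Om {K g : ℕ} (T : Ix F K → F) (c : Dir F → F) (z : Dir F → Bool → Pt F)
    (h : Dir F → Bool → Fin g → Dir F) (x : Dir F × Fin g) : Finset (Pt F) :=
  (pts (x.1, c x.1)).filter fun w => ∀ r, meet (s3rho c z h x.1 x.2 r)
    (s3eta h x.1 x.2 r, ev (s3eta h x.1 x.2 r) w) ∈ free T (s3rho c z h x.1 x.2 r)

lemma s3_kept_free {K g : ℕ} {T : Ix F K → F} {c : Dir F → F} {z : Dir F → Bool → Pt F}
    {h : Dir F → Bool → Fin g → Dir F} (hpre : Pre c z h) {d : Dir F} {i : Fin g} {w : Pt F}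
    (hw : w ∈ s3Om T c z h (d, i)) {r : Row g} {p : Pt F} (hp : Kept c z h d i w r p) :
    p ∈ free T (row c z h d r) := by
  simp only [s3Om, mem_filter, mem_pts] at hw
  obtain ⟨hw1, hw2⟩ := hw
  have h1 := hw2 r
  have h2 := (s3_eta_ne hpre d i r).2
  cases r with
  | none =>
    obtain ⟨-, rfl⟩ := hp
    rw [← eq_meet (l := s3rho c z h d i none)
      (l' := (s3eta h d i none, ev (s3eta h d i none) p)) h2.symm hw1 (on_self _ _)] at h1
    exact h1
  | some x =>
    obtain ⟨h3, h4, h5⟩ := hp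
    have e : s3rho c z h d i (some x) = row c z h d (some x) := by
      simp only [s3rho, Option.elim, if_neg h4]
    rw [e] at h1 h2
    rw [← eq_meet (l := row c z h d (some x))
      (l' := (s3eta h d i (some x), ev (s3eta h d i (some x)) w)) h2.symm h3 h5] at h1
    exact h1

omit [Fintype F] [DecidableEq F] in
lemma s3_unique {g : ℕ} {c : Dir F → F} {z : Dir F → Bool → Pt F}
    {h : Dir F → Bool → Fin g → Dir F} (hpre : Pre c z h) {d : Dir F} {i : Fin g} {r : Row g}
    {μ : Ln F} (hμ : row c z h d r ≠ μ) {w w' p p' : Pt F} (hw : On w (d, c d))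
    (hw' : On w' (d, c d)) (hp : Kept c z h d i w r p) (hp' : Kept c z h d i w' r p')
    (h1 : On p μ) (h2 : On p' μ) : w = w' := by
  have e : p = p' := pt_eq_of_on_of_ne hμ hp.1 h1 hp'.1 h2
  subst e
  cases r with
  | none => exact hp.2.symm.trans hp'.2
  | some x =>
    have a1 : ev (h d x.1 i) p = ev (h d x.1 i) w := hp.2.2
    have a2 : ev (h d x.1 i) p = ev (h d x.1 i) w' := hp'.2.2
    exact pt_eq_of_ev (hpre.h_ne d x.1 i).symm (hw.trans hw'.symm) (a1.symm.trans a2)

/-- Choice of the kept points. -/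
theorem stage3 {K g : ℕ} (T : Ix F K → F) (c : Dir F → F) (z : Dir F → Bool → Pt F)
    (h : Dir F → Bool → Fin g → Dir F) (hpre : Pre c z h)
    (hrow : ∀ d r, ∃ i, row c z h d r = tl T i) {δ : ℝ} (hδ : 0 < δ) (h4 : Q4 g δ T) (h5 : Q5 T)
    (hq : 4 * Real.exp (g / δ) < Fintype.card F) :
    ∃ w : Dir F → Fin g → Pt F, Post 9 c z h w := by
  classical
  set q : ℝ := (Fintype.card F : ℝ) with hqdef
  have hq2 : (2 : ℝ) ≤ q := by
    rw [hqdef]; exact_mod_cast Fintype.one_lt_card
  have hq0 : 0 < q := by linarith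
  have hOm : ∀ x, δ * q ≤ (s3Om T c z h x).card := fun x =>
    h4 (x.1, c x.1) (s3rho c z h x.1 x.2) (s3eta h x.1 x.2) (s3_eta_ne hpre x.1 x.2)
  have hne : ∀ x, Nonempty {w // w ∈ s3Om T c z h x} := by
    intro x
    have : (0 : ℝ) < (s3Om T c z h x).card := lt_of_lt_of_le (by positivity) (hOm x)
    obtain ⟨w, hw⟩ := card_pos.1 (by exact_mod_cast this : 0 < (s3Om T c z h x).card)
    exact ⟨⟨w, hw⟩⟩
  have hon : ∀ x, ∀ w ∈ s3Om T c z h x, On w (x.1, c x.1) := by
    intro x w hw
    simp only [s3Om, mem_filter, mem_pts] at hw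
    exact hw.1
  let E : PPt F × Ln F → ∀ x : Dir F × Fin g, {w // w ∈ s3Om T c z h x} → Prop :=
    fun t x w => ∃ r p, Kept c z h x.1 x.2 w.1 r p ∧ On p t.2 ∧ POn t.1 (row c z h x.1 r)
  have hsq : 0 < √q := Real.sqrt_pos.2 hq0
  have hσ : ∀ t : PPt F × Ln F, ¬ POn t.1 t.2 → ∑ x, pr (E t x) ≤ g / (δ * √q) := by
    intro t ht
    have a1 : ∀ x : Dir F × Fin g, pr (E t x) ≤
        ((univ.filter fun r : Row g => POn t.1 (row c z h x.1 r)).card : ℝ) * (1 / (δ * q)) := by
      intro x
      refine le_trans (pr_mono ?_) (pr_exists_le_card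
        (univ.filter fun r : Row g => POn t.1 (row c z h x.1 r))
        (fun r (w : {w // w ∈ s3Om T c z h x}) => ∃ p, Kept c z h x.1 x.2 w.1 r p ∧ On p t.2) ?_)
      · rintro w ⟨r, p, b1, b2, b3⟩
        exact ⟨r, mem_filter.2 ⟨mem_univ _, b3⟩, p, b1, b2⟩
      · intro r hr
        have hμ : row c z h x.1 r ≠ t.2 := fun e => ht (e ▸ (mem_filter.1 hr).2)
        rw [pr_eq_card, Fintype.card_coe]
        have b1 : (univ.filter fun w : {w // w ∈ s3Om T c z h x} =>
            ∃ p, Kept c z h x.1 x.2 w.1 r p ∧ On p t.2).card ≤ 1 := by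
          rw [card_le_one]
          intro w hw w' hw'
          obtain ⟨p, c1, c2⟩ := (mem_filter.1 hw).2
          obtain ⟨p', c3, c4⟩ := (mem_filter.1 hw').2
          exact Subtype.ext (s3_unique hpre hμ (hon x _ w.2) (hon x _ w'.2) c1 c3 c2 c4)
        refine div_le_div₀ zero_le_one (by exact_mod_cast b1) (by positivity) (hOm x)
    have a2 : ∑ d : Dir F, ((univ.filter fun r : Row g => POn t.1 (row c z h d r)).card : ℝ) ≤
        √q := by
      refine le_trans ?_ (h5 t.1)
      choose ι hι using hrow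
      have b1 : (univ.filter fun x : Dir F × Row g => POn t.1 (row c z h x.1 x.2)).card ≤
          (univ.filter fun i => POn t.1 (tl T i)).card := by
        refine card_le_card_of_injOn (fun x => ι x.1 x.2) (fun x hx => ?_) (fun x _ y _ hxy => ?_)
        · simp only [coe_filter, mem_univ, true_and, Set.mem_ofPred_eq] at hx ⊢
          rw [← hι]; exact hx
        · have : row c z h x.1 x.2 = row c z h y.1 y.2 := by
            rw [hι, hι]; exact congrArg _ hxy
          obtain ⟨c1, c2⟩ := s3_row_inj hpre this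
          exact Prod.ext c1 c2
      have b2 : (univ.filter fun x : Dir F × Row g => POn t.1 (row c z h x.1 x.2)).card =
          ∑ d : Dir F, (univ.filter fun r : Row g => POn t.1 (row c z h d r)).card := by
        simp only [card_filter]
        rw [Fintype.sum_prod_type]
      rw [b2] at b1
      exact_mod_cast b1
    calc ∑ x, pr (E t x) ≤ ∑ x : Dir F × Fin g,
          ((univ.filter fun r : Row g => POn t.1 (row c z h x.1 r)).card : ℝ) * (1 / (δ * q)) :=
          sum_le_sum fun x _ => a1 x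
      _ = g * (∑ d : Dir F, ((univ.filter fun r : Row g => POn t.1 (row c z h d r)).card : ℝ)) *
          (1 / (δ * q)) := by
          rw [← sum_mul, Fintype.sum_prod_type]
          simp only [sum_const, card_univ, Fintype.card_fin, nsmul_eq_mul, mul_sum]
      _ ≤ g * √q * (1 / (δ * q)) := by gcongr
      _ = g / (δ * √q) := by
          have : q = √q * √q := (Real.mul_self_sqrt hq0.le).symm
          rw [this, Real.sqrt_mul_self hsq.le]
          field_simp
  have hθ : 1 ≤ √q := Real.one_le_sqrt.2 (by linarith)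
  have htail : ∀ t ∈ (univ.filter fun t : PPt F × Ln F => ¬ POn t.1 t.2),
      pr (fun ω : ∀ x, {w // w ∈ s3Om T c z h x} => (10 : ℝ) ≤ ∑ x, ind (E t x (ω x))) ≤
        Real.exp (g / δ) / q ^ 5 := by
    intro t ht
    refine (upper_tail univ (E t) (hσ t (mem_filter.1 ht).2) hθ).trans (le_of_eq ?_)
    have b1 : √q * (g / (δ * √q)) = g / δ := by field_simp
    have b2 : 10 * Real.log √q = Real.log (q ^ 5) := by
      rw [Real.log_sqrt hq0.le, Real.log_pow]; push_cast; ring
    rw [b1, b2, Real.exp_sub, Real.exp_log (by positivity)]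
  have hunion := pr_exists_le_card _ _ htail
  have hcard : ((univ.filter fun t : PPt F × Ln F => ¬ POn t.1 t.2).card : ℝ) ≤ 4 * q ^ 4 := by
    have b1 : (univ.filter fun t : PPt F × Ln F => ¬ POn t.1 t.2).card ≤
        Fintype.card (PPt F × Ln F) := card_le_univ _
    rw [Fintype.card_prod, card_ppt, card_ln] at b1
    have b2 : ((univ.filter fun t : PPt F × Ln F => ¬ POn t.1 t.2).card : ℝ) ≤
        (q ^ 2 + (q + 1)) * ((q + 1) * q) := by rw [hqdef]; exact_mod_cast b1
    have b3 : q ^ 2 + (q + 1) ≤ 2 * q ^ 2 := by nlinarith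
    have b4 : (q + 1) * q ≤ 2 * q ^ 2 := by nlinarith
    calc _ ≤ _ := b2
      _ ≤ (2 * q ^ 2) * (2 * q ^ 2) := by gcongr
      _ = 4 * q ^ 4 := by ring
  have hlt : ((univ.filter fun t : PPt F × Ln F => ¬ POn t.1 t.2).card : ℝ) *
      (Real.exp (g / δ) / q ^ 5) < 1 := by
    calc _ ≤ 4 * q ^ 4 * (Real.exp (g / δ) / q ^ 5) := by gcongr
      _ = 4 * Real.exp (g / δ) / q := by field_simp
      _ < 1 := (div_lt_one hq0).2 hq
  obtain ⟨ω, hω⟩ := exists_not_of_pr_lt_one (hunion.trans_lt hlt)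
  refine ⟨fun d i => (ω (d, i)).1, fun d i => hon (d, i) _ (ω (d, i)).2,
    fun d i r p hp e r' hon' => ?_, fun y μ hy S hS => ?_⟩
  · have b1 := mem_free.1 (s3_kept_free hpre (ω (d, i)).2 hp)
    obtain ⟨j, hj⟩ := hrow e r'
    refine eq_of_on_of_dir hon' b1.1 ?_
    by_contra hne'
    rw [hj] at hne' hon'
    exact b1.2 j hne' hon'
  · by_contra hS'
    refine hω ⟨(y, μ), mem_filter.2 ⟨mem_univ _, hy⟩, ?_⟩
    have b1 : (10 : ℝ) ≤ S.card := by exact_mod_cast (by omega : 10 ≤ S.card)
    calc (10 : ℝ) ≤ S.card := b1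
      _ = ∑ x ∈ S, ind (E (y, μ) x (ω x)) := by
          rw [sum_congr rfl fun x hx => ind_pos (hS x hx)]; simp
      _ ≤ _ := sum_le_sum_of_subset_of_nonneg (subset_univ _) fun _ _ _ => ind_nonneg _

end Crest.Agent.R034
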