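import Crest.Agent.R034.Stab
import Crest.Agent.R034.BadProb
import Crest.Agent.R034.QProb
import Crest.Agent.R034.Q23
import Crest.Agent.R034.Stage2
import Crest.Agent.R034.Stage3
import Crest.Agent.R034.Final

set_option autoImplicit false

namespace Crest.Agent.R034

open Finset Filter

theorem goal_eventually : ∀ᶠ q : ℕ in atTop, ∀ (F : Type) [Field F] [Fintype F],
    Fintype.card F = q → Goal F := by
  set δ : ℝ := Real.exp (-(2 * ((25600 + 1 : ℕ) : ℝ))) with hδ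
  have hδ0 : 0 < δ := Real.exp_pos _
  obtain ⟨γ, C₁, C₂, c₀, hγ, hC₁, hC₂, hc₀, hstab⟩ :=
    stab_det (25600 + 1) (by norm_num) (γ' := δ / 2) (by positivity)
  set δ₄ : ℝ := Real.exp (-(4 * (2 * ((20 : ℕ) : ℝ) + 1) * ((25600 + 1 : ℕ) : ℝ))) / 2 with hδ₄
  have hδ₄0 : 0 < δ₄ := by positivity
  have e1 := q1_prob (25600 + 1) (by norm_num) hγ
  have e2 := q1_prob (25600 + 1) (by norm_num) (γ := δ / 4) (by positivity)
  have e3 := badB1_prob (25600 + 1)
  have e4 := badSp_prob (25600 + 1) hC₁ hC₂ hc₀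
  have e5 := q4_prob (25600 + 1) 20 (by norm_num)
  have e6 := q5_prob (25600 + 1)
  have e7 := q23_prob 20 25600 (by norm_num) (by norm_num)
  have e8 : ∀ᶠ q : ℕ in atTop, 4 * Real.exp (((20 : ℕ) : ℝ) / δ₄) < q :=
    tendsto_natCast_atTop_atTop.eventually_gt_atTop _
  have e9 : ∀ᶠ q : ℕ in atTop, 4 / δ < (q : ℝ) :=
    tendsto_natCast_atTop_atTop.eventually_gt_atTop _
  filter_upwards [hstab, e1, e2, e3, e4, e5, e6, e7, e8, e9, eventually_ge_atTop 2] with
    q hstab e1 e2 e3 e4 e5 e6 e7 e8 e9 hq2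
  intro F _ _ hF
  classical
  replace hstab := hstab F hF
  replace e1 := e1 F hF
  replace e2 := e2 F hF
  replace e3 := e3 F hF
  replace e4 := e4 F hF
  replace e5 := e5 F hF
  replace e6 := e6 F hF
  replace e7 := e7 F hF
  have hpr : pr (fun T : Ix F (25600 + 1) → F => ¬ Q1 γ T ∨ ¬ Q1 (δ / 4) T ∨ BadB1 T ∨
      BadSp ⌈c₀ / 48 * q⌉₊ C₁ C₂ c₀ T ∨ ¬ Q4 20 δ₄ T ∨ ¬ Q5 T ∨ ¬ Q23 20 T) < 1 := by
    refine lt_of_le_of_lt (pr_or_le _ _) ?_
    refine lt_of_le_of_lt (add_le_add e1 (pr_or_le _ _)) ?_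
    refine lt_of_le_of_lt (add_le_add le_rfl (add_le_add e2 (pr_or_le _ _))) ?_
    refine lt_of_le_of_lt (add_le_add le_rfl (add_le_add le_rfl (add_le_add e3 (pr_or_le _ _)))) ?_
    refine lt_of_le_of_lt (add_le_add le_rfl (add_le_add le_rfl (add_le_add le_rfl
      (add_le_add e4 (pr_or_le _ _))))) ?_
    refine lt_of_le_of_lt (add_le_add le_rfl (add_le_add le_rfl (add_le_add le_rfl
      (add_le_add le_rfl (add_le_add e5 (pr_or_le _ _)))))) ?_
    linarith
  obtain ⟨T, hT⟩ := exists_not_of_pr_lt_one hpr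
  simp only [not_or, not_not] at hT
  obtain ⟨h1, h2, h3, h4, h5, h6, h7⟩ := hT
  obtain ⟨z, h, hpre, hrow⟩ := stage2 (by norm_num) T h7
  obtain ⟨w, hpost⟩ := stage3 T _ z h hpre hrow hδ₄0 h5 h6 (by rw [hF]; exact e8)
  have hst := hstab T h1 h3 h4
  have hq0 : (2 : ℝ) ≤ q := by exact_mod_cast hq2
  refine goal_of_design (by norm_num) _ z h w hpre hpost (m := δ / 2 * q) (by positivity) ?_ ?_
  · intro l hl
    refine ⟨free T l, ?_, fun p hp => ?_⟩
    · have h8 := (abs_le.mp (h2 l)).1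
      rw [hF] at h8
      have h9 := delta_le (25600 + 1) q hq2
      rw [← hδ] at h9
      have h10 : δ * q ≤ (1 - 1 / (q : ℝ)) ^ ((25600 + 1) * q) * q :=
        mul_le_mul_of_nonneg_right h9 (by positivity)
      have h11 : 4 < δ * q := by rwa [div_lt_iff₀ hδ0, mul_comm] at e9
      linarith
    · rw [mem_free] at hp
      refine ⟨hp.1, fun d r hr => ?_⟩
      obtain ⟨i, hi⟩ := hrow d r
      by_cases hd : i.1 = l.1
      · exact hl d r (eq_of_on_of_dir hp.1 hr (by rw [hi, tl_fst, hd]))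
      · exact hp.2 i hd (hi ▸ hr)
  · intro L hL hcov
    have := hst L hL fun p hp => hcov p fun d r hr => by
      obtain ⟨i, hi⟩ := hrow d r
      exact mem_Uoff.mp hp i (Finset.notMem_empty i) (hi ▸ hr)
    exact this

end Crest.Agent.R034
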