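import Mathlib

/-!
Uniform probability on finite product spaces (row 34): averages, union bound, independence,
resampling, an upper-tail bound and the bounded-difference inequality.
-/

set_option autoImplicit false

namespace Crest.Agent.R034

open Finset

/-- Indicator of a proposition as a real number. -/
noncomputable def ind (p : Prop) : ℝ := by classical exact if p then 1 else 0

lemma ind_pos {p : Prop} (h : p) : ind p = 1 := by simp [ind, h]
lemma ind_neg {p : Prop} (h : ¬ p) : ind p = 0 := by simp [ind, h]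
lemma ind_nonneg (p : Prop) : 0 ≤ ind p := by
  by_cases h : p
  · simp [ind_pos h]
  · simp [ind_neg h]
lemma ind_le_one (p : Prop) : ind p ≤ 1 := by
  by_cases h : p
  · simp [ind_pos h]
  · simp [ind_neg h]
lemma ind_mono {p q : Prop} (h : p → q) : ind p ≤ ind q := by
  by_cases hp : p
  · rw [ind_pos hp, ind_pos (h hp)]
  · rw [ind_neg hp]; exact ind_nonneg q
lemma ind_congr {p q : Prop} (h : p ↔ q) : ind p = ind q := by rw [propext h]
lemma ind_not (p : Prop) : ind (¬ p) = 1 - ind p := by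
  by_cases hp : p
  · rw [ind_pos hp, ind_neg (not_not.mpr hp)]; norm_num
  · rw [ind_neg hp, ind_pos hp]; norm_num
lemma ind_and (p q : Prop) : ind (p ∧ q) = ind p * ind q := by
  by_cases hp : p
  · by_cases hq : q
    · rw [ind_pos hp, ind_pos hq, ind_pos ⟨hp, hq⟩]; norm_num
    · rw [ind_neg hq, ind_neg (fun h => hq h.2)]; norm_num
  · rw [ind_neg hp, ind_neg (fun h => hp h.1)]; norm_num

lemma ind_forall_mem {κ : Type*} (S : Finset κ) (p : κ → Prop) :
    ind (∀ t ∈ S, p t) = ∏ t ∈ S, ind (p t) := by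
  by_cases h : ∀ t ∈ S, p t
  · rw [ind_pos h]; exact (Finset.prod_eq_one fun t ht => ind_pos (h t ht)).symm
  · rw [ind_neg h]
    push Not at h
    obtain ⟨t, ht, hp⟩ := h
    exact (Finset.prod_eq_zero ht (ind_neg hp)).symm

lemma card_filter_eq_sum_ind {κ : Type*} (S : Finset κ) (p : κ → Prop) [DecidablePred p] :
    ((S.filter p).card : ℝ) = ∑ t ∈ S, ind (p t) := by
  rw [Finset.card_filter]
  push_cast
  refine Finset.sum_congr rfl fun t _ => ?_
  by_cases h : p t
  · rw [if_pos h, ind_pos h]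
  · rw [if_neg h, ind_neg h]

lemma ind_exists_le {κ : Type*} (S : Finset κ) (p : κ → Prop) :
    ind (∃ t ∈ S, p t) ≤ ∑ t ∈ S, ind (p t) := by
  by_cases h : ∃ t ∈ S, p t
  · obtain ⟨t, ht, hp⟩ := h
    rw [ind_pos ⟨t, ht, hp⟩]
    calc (1 : ℝ) = ind (p t) := (ind_pos hp).symm
      _ ≤ _ := Finset.single_le_sum (f := fun t => ind (p t)) (fun s _ => ind_nonneg _) ht
  · rw [ind_neg h]; exact Finset.sum_nonneg fun s _ => ind_nonneg _

/-- Average of a real function on a finite type. -/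
noncomputable def ex {Ω : Type*} [Fintype Ω] (f : Ω → ℝ) : ℝ := (∑ ω, f ω) / Fintype.card Ω

/-- Probability of an event under the uniform law on a finite type. -/
noncomputable def pr {Ω : Type*} [Fintype Ω] (E : Ω → Prop) : ℝ := ex fun ω => ind (E ω)

section basic
variable {Ω : Type*} [Fintype Ω]

lemma ex_mono {f g : Ω → ℝ} (h : ∀ ω, f ω ≤ g ω) : ex f ≤ ex g := by
  unfold ex
  exact div_le_div_of_nonneg_right (Finset.sum_le_sum fun ω _ => h ω) (Nat.cast_nonneg _)

lemma ex_nonneg {f : Ω → ℝ} (h : ∀ ω, 0 ≤ f ω) : 0 ≤ ex f := by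
  unfold ex
  exact div_nonneg (Finset.sum_nonneg fun ω _ => h ω) (Nat.cast_nonneg _)

lemma ex_const [Nonempty Ω] (c : ℝ) : ex (fun _ : Ω => c) = c := by
  unfold ex
  have : (Fintype.card Ω : ℝ) ≠ 0 := by exact_mod_cast Fintype.card_ne_zero
  simp only [Finset.sum_const, Finset.card_univ, nsmul_eq_mul]
  field_simp

lemma ex_sum {κ : Type*} (S : Finset κ) (f : κ → Ω → ℝ) :
    ex (fun ω => ∑ t ∈ S, f t ω) = ∑ t ∈ S, ex (f t) := by
  unfold ex
  rw [Finset.sum_comm, Finset.sum_div]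

lemma ex_add (f g : Ω → ℝ) : ex (fun ω => f ω + g ω) = ex f + ex g := by
  unfold ex
  rw [Finset.sum_add_distrib, add_div]

lemma ex_sub (f g : Ω → ℝ) : ex (fun ω => f ω - g ω) = ex f - ex g := by
  unfold ex
  rw [Finset.sum_sub_distrib, sub_div]

lemma ex_mul_left (c : ℝ) (f : Ω → ℝ) : ex (fun ω => c * f ω) = c * ex f := by
  unfold ex
  rw [← Finset.mul_sum, mul_div_assoc]

lemma ex_mul_right (c : ℝ) (f : Ω → ℝ) : ex (fun ω => f ω * c) = ex f * c := by
  simp_rw [mul_comm _ c]; exact ex_mul_left c f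

lemma ex_le_of_le [Nonempty Ω] {f : Ω → ℝ} {c : ℝ} (h : ∀ ω, f ω ≤ c) : ex f ≤ c := by
  have := ex_mono (f := f) (g := fun _ => c) h
  rwa [ex_const] at this

lemma le_ex_of_le [Nonempty Ω] {f : Ω → ℝ} {c : ℝ} (h : ∀ ω, c ≤ f ω) : c ≤ ex f := by
  have := ex_mono (f := fun _ => c) (g := f) h
  rwa [ex_const] at this

lemma ex_equiv {Ω' : Type*} [Fintype Ω'] (e : Ω ≃ Ω') (f : Ω' → ℝ) :
    ex (fun ω => f (e ω)) = ex f := by
  unfold ex
  rw [Equiv.sum_comp e f, Fintype.card_congr e]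

lemma ex_prod {Ω' : Type*} [Fintype Ω'] (f : Ω × Ω' → ℝ) :
    ex f = ex (fun a => ex (fun b => f (a, b))) := by
  unfold ex
  rw [Fintype.sum_prod_type, Fintype.card_prod, ← Finset.sum_div]
  push_cast
  rw [div_div, mul_comm]

lemma pr_nonneg (E : Ω → Prop) : 0 ≤ pr E := ex_nonneg fun _ => ind_nonneg _

lemma pr_le_one [Nonempty Ω] (E : Ω → Prop) : pr E ≤ 1 := ex_le_of_le fun _ => ind_le_one _

lemma pr_mono {E F : Ω → Prop} (h : ∀ ω, E ω → F ω) : pr E ≤ pr F :=
  ex_mono fun ω => ind_mono (h ω)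

lemma pr_not [Nonempty Ω] (E : Ω → Prop) : pr (fun ω => ¬ E ω) = 1 - pr E := by
  unfold pr
  simp_rw [ind_not]
  rw [ex_sub, ex_const]

lemma pr_or_le (E F : Ω → Prop) : pr (fun ω => E ω ∨ F ω) ≤ pr E + pr F := by
  unfold pr
  rw [← ex_add]
  refine ex_mono fun ω => ?_
  by_cases h : E ω
  · rw [ind_pos (Or.inl h), ind_pos h]; linarith [ind_nonneg (F ω)]
  · rw [ind_neg h, zero_add]; exact ind_mono fun h' => h'.resolve_left h

lemma pr_exists_le {κ : Type*} (S : Finset κ) (E : κ → Ω → Prop) :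
    pr (fun ω => ∃ t ∈ S, E t ω) ≤ ∑ t ∈ S, pr (E t) := by
  unfold pr
  rw [← ex_sum]
  exact ex_mono fun ω => ind_exists_le S fun t => E t ω

lemma pr_exists_le_card {κ : Type*} (S : Finset κ) (E : κ → Ω → Prop) {b : ℝ}
    (h : ∀ t ∈ S, pr (E t) ≤ b) : pr (fun ω => ∃ t ∈ S, E t ω) ≤ S.card * b := by
  refine (pr_exists_le S E).trans ?_
  simpa using Finset.sum_le_card_nsmul S _ b h

lemma exists_not_of_pr_lt_one [Nonempty Ω] {E : Ω → Prop} (h : pr E < 1) : ∃ ω, ¬ E ω := by
  by_contra hc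
  push Not at hc
  have : pr E = 1 := by
    unfold pr
    simp_rw [fun ω => ind_pos (hc ω)]
    exact ex_const 1
  linarith

lemma exists_of_pr_lt {E F : Ω → Prop} (h : pr F < pr E) : ∃ ω, E ω ∧ ¬ F ω := by
  by_contra hc
  push Not at hc
  exact absurd (pr_mono hc) (not_le.mpr h)

lemma pr_eq_card (E : Ω → Prop) [DecidablePred E] :
    pr E = ((Finset.univ.filter E).card : ℝ) / Fintype.card Ω := by
  unfold pr ex
  rw [card_filter_eq_sum_ind]

lemma pr_mem_finset [DecidableEq Ω] (B : Finset Ω) :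
    pr (fun ω => ω ∈ B) = (B.card : ℝ) / Fintype.card Ω := by
  rw [pr_eq_card]; simp

/-- Markov's inequality. -/
lemma markov {f : Ω → ℝ} (hf : ∀ ω, 0 ≤ f ω) {a : ℝ} (ha : 0 < a) :
    pr (fun ω => a ≤ f ω) ≤ ex f / a := by
  rw [le_div_iff₀ ha]
  unfold pr
  rw [← ex_mul_right]
  refine ex_mono fun ω => ?_
  by_cases h : a ≤ f ω
  · rw [ind_pos h]; linarith
  · rw [ind_neg h]; simpa using hf ω

/-- Reverse Markov inequality for bounded functions. -/
lemma reverse_markov [Nonempty Ω] {f : Ω → ℝ} {b a : ℝ} (hf : ∀ ω, f ω ≤ b) (ha : 0 ≤ a) :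
    ex f - a ≤ b * pr (fun ω => a ≤ f ω) := by
  unfold pr
  rw [← ex_mul_left]
  have : ex f - a = ex (fun ω => f ω - a) := by rw [ex_sub, ex_const]
  rw [this]
  refine ex_mono fun ω => ?_
  by_cases h : a ≤ f ω
  · rw [ind_pos h]; linarith [hf ω]
  · rw [ind_neg h]; linarith [not_le.mp h]

end basic

section pi
variable {ι : Type*} [Fintype ι] [DecidableEq ι] {A : ι → Type*} [∀ i, Fintype (A i)]

/-- Independence of the coordinates. -/
lemma ex_prod_coord (g : ∀ i, A i → ℝ) :
    ex (fun ω : ∀ i, A i => ∏ i, g i (ω i)) = ∏ i, ex (g i) := by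
  unfold ex
  rw [Finset.prod_div_distrib, Fintype.card_pi, Finset.prod_univ_sum]
  simp

lemma ex_prod_coord_mem [∀ i, Nonempty (A i)] (S : Finset ι) (g : ∀ i, A i → ℝ) :
    ex (fun ω : ∀ i, A i => ∏ i ∈ S, g i (ω i)) = ∏ i ∈ S, ex (g i) := by
  have h := ex_prod_coord (A := A) (fun i a => if i ∈ S then g i a else 1)
  have h1 : ∀ ω : ∀ i, A i, (∏ i, if i ∈ S then g i (ω i) else 1) = ∏ i ∈ S, g i (ω i) := by
    intro ω; rw [Finset.prod_ite_mem]; simp
  have h2 : (∏ i, ex (fun a : A i => if i ∈ S then g i a else 1)) = ∏ i ∈ S, ex (g i) := by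
    rw [← Finset.prod_subset (Finset.subset_univ S)]
    · exact Finset.prod_congr rfl fun i hi => by simp [hi]
    · intro i _ hi; simp [hi, ex_const]
  simp_rw [h1] at h
  rw [h, h2]

lemma pr_forall_coord [∀ i, Nonempty (A i)] (S : Finset ι) (E : ∀ i, A i → Prop) :
    pr (fun ω : ∀ i, A i => ∀ i ∈ S, E i (ω i)) = ∏ i ∈ S, pr (E i) := by
  unfold pr
  simp_rw [ind_forall_mem]
  exact ex_prod_coord_mem S fun i a => ind (E i a)

lemma ex_coord [∀ i, Nonempty (A i)] (i : ι) (g : ∀ i, A i → ℝ) :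
    ex (fun ω : ∀ i, A i => g i (ω i)) = ex (g i) := by
  simpa using ex_prod_coord_mem {i} g

/-- Resampling the coordinates in `S`. -/
lemma ex_resample [∀ i, Nonempty (A i)] (S : Finset ι) (f : (∀ i, A i) → ℝ) :
    ex f = ex (fun ω => ex (fun ω' => f (S.piecewise ω' ω))) := by
  let e : ((∀ i, A i) × (∀ i, A i)) ≃ ((∀ i, A i) × (∀ i, A i)) :=
    { toFun := fun x => (S.piecewise x.2 x.1, S.piecewise x.1 x.2)
      invFun := fun x => (S.piecewise x.2 x.1, S.piecewise x.1 x.2)
      left_inv := by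
        rintro ⟨a, b⟩
        ext i <;> by_cases h : i ∈ S <;> simp [Finset.piecewise, h]
      right_inv := by
        rintro ⟨a, b⟩
        ext i <;> by_cases h : i ∈ S <;> simp [Finset.piecewise, h] }
  have h1 := ex_equiv e (fun x => f x.1)
  rw [ex_prod, ex_prod] at h1
  simp only [ex_const] at h1
  exact h1.symm

/-- Resampling one coordinate. -/
lemma ex_update [∀ i, Nonempty (A i)] (i : ι) (f : (∀ i, A i) → ℝ) :
    ex f = ex (fun ω => ex (fun a : A i => f (Function.update ω i a))) := by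
  rw [ex_resample {i} f]
  congr 1
  funext ω
  have h : ∀ ω' : ∀ i, A i, ({i} : Finset ι).piecewise ω' ω = Function.update ω i (ω' i) := by
    intro ω'
    funext j
    by_cases hj : j = i
    · subst hj; simp [Finset.piecewise]
    · simp [Finset.piecewise, hj]
  simp_rw [h]
  have := ex_coord (A := A) i
    (fun j a => if hj : j = i then f (Function.update ω i (hj ▸ a)) else 0)
  simpa using this

/-- Upper tail for the number of coordinates falling in prescribed sets. -/
lemma upper_tail [∀ i, Nonempty (A i)] (S : Finset ι) (E : ∀ i, A i → Prop) {σ θ n : ℝ}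
    (hσ : ∑ i ∈ S, pr (E i) ≤ σ) (hθ : 1 ≤ θ) :
    pr (fun ω : ∀ i, A i => n ≤ ∑ i ∈ S, ind (E i (ω i))) ≤ Real.exp (θ * σ - n * Real.log θ) := by
  have hθ0 : 0 < θ := by linarith
  have key : ∀ ω : ∀ i, A i, ind (n ≤ ∑ i ∈ S, ind (E i (ω i))) ≤
      (∏ i ∈ S, (1 + θ * ind (E i (ω i)))) * Real.exp (-(n * Real.log θ)) := by
    intro ω
    have hp : Real.exp ((∑ i ∈ S, ind (E i (ω i))) * Real.log θ) ≤
        ∏ i ∈ S, (1 + θ * ind (E i (ω i))) := by
      rw [Finset.sum_mul, Real.exp_sum]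
      refine Finset.prod_le_prod (fun i _ => (Real.exp_pos _).le) fun i _ => ?_
      by_cases h : E i (ω i)
      · rw [ind_pos h, one_mul, Real.exp_log hθ0]; linarith
      · rw [ind_neg h]; simp
    by_cases h : n ≤ ∑ i ∈ S, ind (E i (ω i))
    · rw [ind_pos h]
      have hl : 0 ≤ Real.log θ := Real.log_nonneg hθ
      have : Real.exp (n * Real.log θ) ≤ ∏ i ∈ S, (1 + θ * ind (E i (ω i))) :=
        (Real.exp_le_exp.mpr (mul_le_mul_of_nonneg_right h hl)).trans hp
      rw [Real.exp_neg, ← div_eq_mul_inv, le_div_iff₀ (Real.exp_pos _)]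
      linarith
    · rw [ind_neg h]
      exact mul_nonneg (le_trans (Real.exp_pos _).le hp) (Real.exp_pos _).le
  calc pr (fun ω : ∀ i, A i => n ≤ ∑ i ∈ S, ind (E i (ω i)))
      ≤ ex (fun ω : ∀ i, A i =>
        (∏ i ∈ S, (1 + θ * ind (E i (ω i)))) * Real.exp (-(n * Real.log θ))) := ex_mono key
    _ = (∏ i ∈ S, (1 + θ * pr (E i))) * Real.exp (-(n * Real.log θ)) := by
        rw [ex_mul_right, ex_prod_coord_mem S (fun i a => 1 + θ * ind (E i a))]
        congr 1
        refine Finset.prod_congr rfl fun i _ => ?_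
        rw [ex_add, ex_const, ex_mul_left]; rfl
    _ ≤ Real.exp (θ * σ) * Real.exp (-(n * Real.log θ)) := by
        refine mul_le_mul_of_nonneg_right ?_ (Real.exp_pos _).le
        calc ∏ i ∈ S, (1 + θ * pr (E i)) ≤ ∏ i ∈ S, Real.exp (θ * pr (E i)) :=
              Finset.prod_le_prod
                (fun i _ => by have := pr_nonneg (E i); positivity)
                (fun i _ => by have := Real.add_one_le_exp (θ * pr (E i)); linarith)
          _ = Real.exp (θ * ∑ i ∈ S, pr (E i)) := by rw [← Real.exp_sum, Finset.mul_sum]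
          _ ≤ _ := Real.exp_le_exp.mpr (mul_le_mul_of_nonneg_left hσ hθ0.le)
    _ = _ := by rw [← Real.exp_add]; ring_nf

/-- Conditional union bound: the family of events may depend on the coordinates outside `S`. -/
lemma upper_tail_family [∀ i, Nonempty (A i)] {κ : Type*} (S : Finset ι)
    (X : (∀ i, A i) → Finset κ) (hX : ∀ ω ω', X (S.piecewise ω' ω) = X ω)
    (E : κ → ∀ i, A i → Prop) {σ θ n M : ℝ}
    (hM : ∀ ω, ((X ω).card : ℝ) ≤ M)
    (hσ : ∀ ω, ∀ x ∈ X ω, ∑ i ∈ S, pr (E x i) ≤ σ) (hθ : 1 ≤ θ) :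
    pr (fun ω : ∀ i, A i => ∃ x ∈ X ω, n ≤ ∑ i ∈ S, ind (E x i (ω i))) ≤
      M * Real.exp (θ * σ - n * Real.log θ) := by
  unfold pr
  rw [ex_resample S]
  refine ex_le_of_le fun ω => ?_
  simp_rw [hX]
  have h1 : ∀ (x : κ) (ω' : ∀ i, A i), ∑ i ∈ S, ind (E x i (S.piecewise ω' ω i)) =
      ∑ i ∈ S, ind (E x i (ω' i)) := fun x ω' =>
    Finset.sum_congr rfl fun i hi => by simp [Finset.piecewise, hi]
  simp_rw [h1]
  refine (pr_exists_le_card (X ω) (fun x (ω' : ∀ i, A i) => n ≤ ∑ i ∈ S, ind (E x i (ω' i)))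
    (fun x hx => upper_tail S (E x) (hσ ω x hx) hθ)).trans ?_
  exact mul_le_mul_of_nonneg_right (hM ω) (Real.exp_pos _).le

lemma hoeffding_aux {Ω : Type*} [Fintype Ω] [Nonempty Ω] (g : Ω → ℝ) {c : ℝ} (hc : 0 < c)
    (h : ∀ a b, |g a - g b| ≤ c) (θ : ℝ) :
    ex (fun a => Real.exp (θ * g a)) ≤ Real.exp (θ * ex g + θ ^ 2 * c ^ 2 / 2) := by
  have hb : ∀ a, |g a - ex g| ≤ c := by
    intro a
    rw [abs_le]
    constructor
    · have : ex g ≤ g a + c := ex_le_of_le fun b => by have := abs_le.mp (h a b); linarith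
      linarith
    · have : g a - c ≤ ex g := le_ex_of_le fun b => by have := abs_le.mp (h a b); linarith
      linarith
  have key : ∀ a, Real.exp (θ * g a) ≤ Real.exp (θ * ex g) *
      (Real.cosh (θ * c) + (g a - ex g) * (Real.sinh (θ * c) / c)) := by
    intro a
    set y := g a - ex g with hy
    have hy1 := abs_le.mp (hb a)
    have e1 : θ * g a = θ * ex g + θ * y := by rw [hy]; ring
    rw [e1, Real.exp_add]
    refine mul_le_mul_of_nonneg_left ?_ (Real.exp_pos _).le
    have hconv := convexOn_exp.2 (Set.mem_univ (θ * c)) (Set.mem_univ (-(θ * c)))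
      (show 0 ≤ (c + y) / (2 * c) by apply div_nonneg <;> linarith)
      (show 0 ≤ (c - y) / (2 * c) by apply div_nonneg <;> linarith)
      (show (c + y) / (2 * c) + (c - y) / (2 * c) = 1 by field_simp; ring)
    simp only [smul_eq_mul] at hconv
    have e2 : (c + y) / (2 * c) * (θ * c) + (c - y) / (2 * c) * -(θ * c) = θ * y := by
      field_simp; ring
    rw [e2] at hconv
    refine hconv.trans (le_of_eq ?_)
    rw [Real.cosh_eq, Real.sinh_eq]
    field_simp; ring
  refine (ex_mono key).trans ?_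
  rw [ex_mul_left, ex_add, ex_const, ex_mul_right, ex_sub, ex_const, sub_self, zero_mul, add_zero,
    Real.exp_add]
  refine mul_le_mul_of_nonneg_left ?_ (Real.exp_pos _).le
  refine (Real.cosh_le_exp_half_sq _).trans (le_of_eq ?_)
  ring_nf

/-- Exponential moment bound for functions with bounded differences. -/
lemma exp_moment [∀ i, Nonempty (A i)] {c : ℝ} (hc : 0 < c) (θ : ℝ) (S : Finset ι) :
    ∀ f : (∀ i, A i) → ℝ, (∀ ω i a, |f ω - f (Function.update ω i a)| ≤ c) → ∀ ω₀,
      ex (fun ω => Real.exp (θ * f (S.piecewise ω ω₀))) ≤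
        Real.exp (θ * ex (fun ω => f (S.piecewise ω ω₀)) + S.card * (θ ^ 2 * c ^ 2 / 2)) := by
  induction S using Finset.induction_on with
  | empty => intro f _ ω₀; simp [ex_const]
  | insert j S hj ih =>
    intro f hf ω₀
    have hpw : ∀ (ω : ∀ i, A i) (a : A j), (insert j S).piecewise (Function.update ω j a) ω₀ =
        Function.update (S.piecewise ω ω₀) j a := by
      intro ω a
      funext i
      by_cases hi : i = j
      · subst hi; simp [Finset.piecewise]
      · by_cases hS : i ∈ S <;> simp [Finset.piecewise, hi, hS]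
    let F : (∀ i, A i) → ℝ := fun ω => ex (fun a : A j => f (Function.update ω j a))
    have hF : ∀ ω i a, |F ω - F (Function.update ω i a)| ≤ c := by
      intro ω i a
      by_cases hi : i = j
      · subst hi
        simp [F, hc.le]
      · have : F ω - F (Function.update ω i a) = ex (fun b : A j =>
            f (Function.update ω j b) - f (Function.update (Function.update ω j b) i a)) := by
          rw [ex_sub]
          simp only [F]
          congr 2
          funext b
          rw [Function.update_comm hi]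
        rw [this, abs_le]
        exact ⟨le_ex_of_le fun b => (abs_le.mp (hf _ i a)).1,
          ex_le_of_le fun b => (abs_le.mp (hf _ i a)).2⟩
    rw [ex_update j, ex_update j (fun ω => f ((insert j S).piecewise ω ω₀))]
    simp_rw [hpw]
    have h1 : ∀ ω : ∀ i, A i,
        ex (fun a : A j => Real.exp (θ * f (Function.update (S.piecewise ω ω₀) j a))) ≤
          Real.exp (θ * F (S.piecewise ω ω₀)) * Real.exp (θ ^ 2 * c ^ 2 / 2) := by
      intro ω
      rw [← Real.exp_add]
      refine hoeffding_aux (fun a : A j => f (Function.update (S.piecewise ω ω₀) j a)) hc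
        (fun a b => ?_) θ
      have := hf (Function.update (S.piecewise ω ω₀) j a) j b
      simpa using this
    refine (ex_mono h1).trans ?_
    rw [ex_mul_right]
    refine (mul_le_mul_of_nonneg_right (ih F hF ω₀) (Real.exp_pos _).le).trans (le_of_eq ?_)
    rw [← Real.exp_add, Finset.card_insert_of_notMem hj]
    push_cast
    congr 1
    simp only [F]
    ring

lemma mcdiarmid_upper [∀ i, Nonempty (A i)] {c t N : ℝ} (hc : 0 < c) (ht : 0 < t)
    (hN : (Fintype.card ι : ℝ) ≤ N) (hN0 : 0 < N) (f : (∀ i, A i) → ℝ)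
    (hf : ∀ ω i a, |f ω - f (Function.update ω i a)| ≤ c) :
    pr (fun ω => ex f + t ≤ f ω) ≤ Real.exp (-(t ^ 2 / (2 * N * c ^ 2))) := by
  set θ := t / (N * c ^ 2) with hθ
  have hθ0 : 0 < θ := by positivity
  obtain ⟨ω₀⟩ : Nonempty (∀ i, A i) := inferInstance
  have h1 := exp_moment hc θ Finset.univ f hf ω₀
  simp only [Finset.piecewise_univ, Finset.card_univ] at h1
  have h2 := markov (f := fun ω => Real.exp (θ * f ω)) (fun ω => (Real.exp_pos _).le)
    (a := Real.exp (θ * (ex f + t))) (Real.exp_pos _)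
  have h3 : pr (fun ω => ex f + t ≤ f ω) ≤
      pr (fun ω => Real.exp (θ * (ex f + t)) ≤ Real.exp (θ * f ω)) :=
    pr_mono fun ω h => Real.exp_le_exp.mpr (mul_le_mul_of_nonneg_left h hθ0.le)
  refine h3.trans (h2.trans ?_)
  rw [div_le_iff₀ (Real.exp_pos _), ← Real.exp_add]
  refine h1.trans (Real.exp_le_exp.mpr ?_)
  have h4 : (Fintype.card ι : ℝ) * (θ ^ 2 * c ^ 2 / 2) ≤ N * (θ ^ 2 * c ^ 2 / 2) :=
    mul_le_mul_of_nonneg_right hN (by positivity)
  have h5 : N * (θ ^ 2 * c ^ 2 / 2) = t ^ 2 / (2 * N * c ^ 2) := by rw [hθ]; field_simp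
  have h6 : θ * t = 2 * (t ^ 2 / (2 * N * c ^ 2)) := by rw [hθ]; field_simp
  have : (fun ω => f ω) = f := rfl
  nlinarith

lemma mcdiarmid_lower [∀ i, Nonempty (A i)] {c t N : ℝ} (hc : 0 < c) (ht : 0 < t)
    (hN : (Fintype.card ι : ℝ) ≤ N) (hN0 : 0 < N) (f : (∀ i, A i) → ℝ)
    (hf : ∀ ω i a, |f ω - f (Function.update ω i a)| ≤ c) :
    pr (fun ω => f ω ≤ ex f - t) ≤ Real.exp (-(t ^ 2 / (2 * N * c ^ 2))) := by
  have h := mcdiarmid_upper hc ht hN hN0 (fun ω => -f ω) (fun ω i a => by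
    have := hf ω i a
    rw [abs_le] at this ⊢
    constructor <;> linarith)
  refine le_trans (pr_mono fun ω hω => ?_) h
  have : ex (fun ω => -f ω) = - ex f := by
    have := ex_mul_left (-1) f
    simpa using this
  rw [this]; linarith

end pi

end Crest.Agent.R034
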