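import Crest.Agent.R034.Defs

set_option autoImplicit false

namespace Crest.Agent.R034

open Finset Filter

variable {F : Type} [Field F] [Fintype F] [DecidableEq F]

section core
open Polynomial

/-- The Rédei polynomial at `x`. -/
noncomputable def swR {κ : Type*} (S : Finset κ) (α β : κ → F) (x : F) : F[X] :=
  ∏ i ∈ S, (C (x - α i) - C (β i) * X)

omit [DecidableEq F] in
lemma sw_coeff {κ : Type*} (S : Finset κ) (α β : κ → F) (k d : ℕ)
    (h : k + S.card + 1 < Fintype.card F + d) :
    (∑ x : F, C (x ^ k) * swR S α β x).coeff d = 0 := by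
  classical
  induction S using Finset.induction_on generalizing k d with
  | empty =>
    simp only [swR, Finset.prod_empty, mul_one, ← map_sum, coeff_C]
    split_ifs with hd
    · exact FiniteField.sum_pow_lt_card_sub_one F k (by simp at h; omega)
    · rfl
  | insert i S hi ih =>
    rw [Finset.card_insert_of_notMem hi] at h
    have h1 : ∑ x : F, C (x ^ k) * swR (insert i S) α β x
        = ∑ x : F, C (x ^ (k + 1)) * swR S α β x - C (α i) * ∑ x : F, C (x ^ k) * swR S α β x
          - C (β i) * (X * ∑ x : F, C (x ^ k) * swR S α β x) := by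
      simp only [Finset.mul_sum, ← Finset.sum_sub_distrib, swR, Finset.prod_insert hi]
      refine Finset.sum_congr rfl fun x _ => ?_
      simp only [map_sub, pow_succ, map_mul]
      ring
    rw [h1, coeff_sub, coeff_sub, coeff_C_mul, coeff_C_mul, ih (k + 1) d (by omega),
      ih k d (by omega)]
    rcases d with _ | d
    · simp
    · rw [coeff_X_mul, ih k d (by omega)]; simp

omit [Fintype F] [DecidableEq F] in
lemma sw_eval {κ : Type*} (S : Finset κ) (α β : κ → F) (x y : F) :
    (swR S α β x).eval y ≠ 0 ↔ ∀ i ∈ S, x ≠ α i + β i * y := by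
  simp only [swR, eval_prod, Finset.prod_ne_zero_iff, eval_sub, eval_C, eval_mul, eval_X]
  refine forall₂_congr fun i _ => not_congr ?_
  rw [sub_sub, sub_eq_zero]

/-- Algebraic core (Hankel determinant). -/
theorem sw_core {κ : Type*} (S : Finset κ) (α β : κ → F) (hS : S.card = Fintype.card F) :
    ∑ y : F, ((univ.filter fun x : F => ∀ i ∈ S, x ≠ α i).card -
        (univ.filter fun x : F => ∀ i ∈ S, x ≠ α i + β i * y).card) ≤
      (univ.filter fun x : F => ∀ i ∈ S, x ≠ α i).card ^ 2 := by
  set U := univ.filter fun x : F => ∀ i ∈ S, x ≠ α i with hU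
  set u := U.card with hu
  let H : Matrix (Fin u) (Fin u) F[X] := fun i j => ∑ x : F, C (x ^ ((i : ℕ) + j)) * swR S α β x
  have hdeg : H.det.natDegree ≤ u ^ 2 := by
    rw [Matrix.det_apply]
    refine natDegree_sum_le_of_forall_le _ _ fun σ _ => (natDegree_smul_le _ _).trans ?_
    refine (natDegree_prod_le _ _).trans ((Finset.sum_le_sum (g := fun j : Fin u =>
      ((σ j : ℕ) + j + 1)) fun j _ => ?_).trans ?_)
    · rw [natDegree_le_iff_coeff_eq_zero]
      exact fun d hd => sw_coeff S α β _ d (by omega)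
    · have h1 := Finset.sum_range_id_mul_two u
      rw [Finset.sum_add_distrib, Finset.sum_add_distrib,
        Equiv.sum_comp σ (fun j : Fin u => (j : ℕ)), Fin.sum_univ_eq_sum_range (fun j => j) u]
      simp only [Finset.sum_const, Finset.card_univ, Fintype.card_fin, smul_eq_mul, mul_one]
      rcases Nat.eq_zero_or_pos u with h0 | h0
      · rw [h0]; simp
      · obtain ⟨w, hw⟩ : ∃ w, u = w + 1 := ⟨u - 1, by omega⟩
        rw [hw] at h1 ⊢
        simp only [Nat.add_sub_cancel] at h1
        nlinarith
  have hne : H.det ≠ 0 := by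
    intro h0
    let e : Fin u → F := fun k => (U.equivFin.symm k : F)
    have he : Function.Injective e := Subtype.val_injective.comp U.equivFin.symm.injective
    have h1 : H.map (evalRingHom 0) = (Matrix.vandermonde e).transpose *
        (Matrix.diagonal (fun k => (swR S α β (e k)).eval 0) * Matrix.vandermonde e) := by
      ext i j
      simp only [Matrix.map_apply, H, coe_evalRingHom, eval_finsetSum, eval_mul, eval_C,
        Matrix.mul_apply (M := (Matrix.vandermonde e).transpose), Matrix.diagonal_mul,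
        Matrix.transpose_apply, Matrix.vandermonde_apply]
      rw [← Finset.sum_subset (Finset.subset_univ U), ← Finset.sum_coe_sort U,
        ← Equiv.sum_comp U.equivFin.symm]
      · exact Finset.sum_congr rfl fun k _ => by simp only [e]; ring
      · intro x _ hx
        have : ¬ (swR S α β x).eval 0 ≠ 0 := by rw [sw_eval]; simpa [hU] using hx
        rw [not_not.1 this, mul_zero]
    have h2 := (evalRingHom (0 : F)).map_det H
    rw [h0, map_zero, RingHom.mapMatrix_apply, h1, Matrix.det_mul, Matrix.det_mul,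
      Matrix.det_transpose, Matrix.det_diagonal] at h2
    have h3 := Matrix.det_vandermonde_ne_zero_iff.2 he
    refine mul_ne_zero h3 (mul_ne_zero (Finset.prod_ne_zero_iff.2 fun k _ => ?_) h3) h2.symm
    rw [sw_eval]
    simpa using (Finset.mem_filter.1 (U.equivFin.symm k).2).2
  have hdvd : ∀ y : F, (X - C y) ^ (u - (univ.filter fun x : F =>
      ∀ i ∈ S, x ≠ α i + β i * y).card) ∣ H.det := by
    intro y
    have h1 : H = fun i : Fin u => ∑ x : F, (C (x ^ (i : ℕ)) * swR S α β x) •
        fun j : Fin u => (C (x ^ (j : ℕ)) : F[X]) := by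
      funext i j
      simp only [H, Finset.sum_apply, Pi.smul_apply, smul_eq_mul, pow_add, map_mul]
      exact Finset.sum_congr rfl fun x _ => by ring
    have h2 : H.det = ∑ r : Fin u → F, (∏ i : Fin u, C (r i ^ (i : ℕ)) * swR S α β (r i)) •
        Matrix.det (Matrix.of fun i j : Fin u => (C (r i ^ (j : ℕ)) : F[X])) := by
      rw [h1]
      refine ((Matrix.detRowAlternating : (Fin u → F[X]) [⋀^Fin u]→ₗ[F[X]] F[X]
        ).toMultilinearMap.map_sum _).trans (Finset.sum_congr rfl fun r _ => ?_)
      exact MultilinearMap.map_smul_univ _ _ _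
    rw [h2]
    refine Finset.dvd_sum fun r _ => ?_
    by_cases hr : Function.Injective r
    · rw [smul_eq_mul, Finset.prod_mul_distrib]
      refine Dvd.dvd.mul_right (Dvd.dvd.mul_left ?_ _) _
      let Z := univ.filter fun i : Fin u => (swR S α β (r i)).eval y = 0
      have h3 : (univ.filter fun i : Fin u => ¬ (swR S α β (r i)).eval y = 0).card
          ≤ (univ.filter fun x : F => ∀ i ∈ S, x ≠ α i + β i * y).card :=
        Finset.card_le_card_of_injOn r (fun i hi => by
          simpa using (sw_eval S α β (r i) y).1 (by simpa using hi)) hr.injOn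
      have h4 := Finset.card_filter_add_card_filter_not (s := univ)
        (fun i : Fin u => (swR S α β (r i)).eval y = 0)
      rw [Finset.card_univ, Fintype.card_fin] at h4
      refine (pow_dvd_pow _ (show _ ≤ Z.card by simp only [Z]; omega)).trans ?_
      rw [← Finset.prod_const]
      exact (Finset.prod_dvd_prod_of_dvd _ _ fun i hi =>
        dvd_iff_isRoot.2 (Finset.mem_filter.1 hi).2).trans
        (Finset.prod_dvd_prod_of_subset _ _ _ (Finset.subset_univ _))
    · obtain ⟨a, b, hab, hne⟩ := Function.not_injective_iff.1 hr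
      rw [Matrix.det_zero_of_row_eq hne (by funext j; simp [hab]), smul_zero]
      exact dvd_zero _
  have h5 := Finset.prod_dvd_of_coprime (t := univ) (fun a _ b _ hab =>
    ((pairwise_coprime_X_sub_C Function.injective_id hab).pow)) fun y _ => hdvd y
  refine le_trans (le_of_eq ?_) ((natDegree_le_of_dvd h5 hne).trans hdeg)
  rw [natDegree_prod_of_monic _ _ fun y _ => (monic_X_sub_C _).pow _]
  simp

end core

omit [Fintype F] [DecidableEq F] in
lemma sw_exists_frame (d : Dir F) : ∃ v v' : Pt F, v ≠ 0 ∧ ev d v = 0 ∧ ev d v' ≠ 0 ∧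
    ∀ w, ev d w = 0 → ∃ t : F, w = t • v := by
  cases d with
  | none =>
    refine ⟨(0, 1), (1, 0), by simp, rfl, by simp, fun w hw => ⟨w.2, Prod.ext ?_ ?_⟩⟩
    · simpa using hw
    · simp
  | some m =>
    refine ⟨(1, m), (0, 1), by simp, by simp, by simp, fun w hw => ⟨w.1, Prod.ext ?_ ?_⟩⟩
    · simp
    · simp only [ev_some] at hw
      simp only [Prod.smul_snd, smul_eq_mul]
      linear_combination hw

/-- Szőnyi–Weiner type inequality for the uncovered points on a line. -/
theorem sw_index (L : Finset (Ln F)) (hL : L.card = Fintype.card F) (l : Ln F)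
    (hl : 0 < idx (unc L) l) :
    ∃ u : ℕ, u ≤ idx (unc L) l ∧ idx (unc L) l ≤ u + 1 ∧
      u * (Fintype.card F - u) ≤ (unc L).card + Fintype.card F := by
  obtain ⟨p, hp⟩ := Finset.card_pos.1 hl
  obtain ⟨hpL, hpl⟩ := Finset.mem_filter.1 hp
  obtain ⟨v, v', hv0, hv, hv', hspan⟩ := sw_exists_frame l.1
  let a : Ln F → F := fun m => ev m.1 v / (m.2 - ev m.1 p)
  let b : Ln F → F := fun m => ev m.1 v' / (m.2 - ev m.1 p)
  have key : ∀ x y : F, x ≠ 0 →
      (p + x⁻¹ • (v + y • v') ∈ unc L ↔ ∀ m ∈ L, x ≠ a m + b m * y) := by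
    intro x y hx
    rw [mem_unc]
    refine forall₂_congr fun m hm => not_congr ?_
    have hc : m.2 - ev m.1 p ≠ 0 := sub_ne_zero.2 fun h => mem_unc.1 hpL m hm h.symm
    simp only [On, ev_add, ev_smul, a, b]
    field_simp
    constructor <;> intro h <;> linear_combination -h
  set U := univ.filter fun x : F => ∀ i ∈ L, x ≠ a i with hU
  have hcore : ∑ y : F, (U.card -
      (univ.filter fun x : F => ∀ i ∈ L, x ≠ a i + b i * y).card) ≤ U.card ^ 2 := by
    convert sw_core L a b hL
  have h1 : (U.erase 0).card = (((unc L).filter fun r => On r l).erase p).card := by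
    refine Finset.card_bij (fun x _ => p + x⁻¹ • v) (fun x hx => ?_) (fun x _ x' _ h => ?_)
      fun r hr => ?_
    · obtain ⟨hx0, hxU⟩ := Finset.mem_erase.1 hx
      refine Finset.mem_erase.2 ⟨by simp [hx0, hv0], Finset.mem_filter.2 ⟨?_, ?_⟩⟩
      · simpa using (key x 0 hx0).2 (by simpa [hU] using hxU)
      · simpa [On, ev_add, ev_smul, hv] using hpl
    · exact inv_injective (smul_left_injective F hv0 (add_left_cancel h))
    · obtain ⟨hrp, hr⟩ := Finset.mem_erase.1 hr
      obtain ⟨hrL, hrl⟩ := Finset.mem_filter.1 hr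
      obtain ⟨t, ht⟩ := hspan (r - p) (by rw [ev_sub, hrl, hpl, sub_self])
      have ht0 : t ≠ 0 := by rintro rfl; exact hrp (sub_eq_zero.1 (by simpa using ht))
      have hr' : p + t⁻¹⁻¹ • v = r := by rw [inv_inv, ← ht]; abel
      refine ⟨t⁻¹, Finset.mem_erase.2 ⟨inv_ne_zero ht0, ?_⟩, hr'⟩
      simpa [hU] using (key t⁻¹ 0 (inv_ne_zero ht0)).1 (by simpa [← hr'] using hrL)
  rw [Finset.card_erase_of_mem hp] at h1
  have h2 := Finset.pred_card_le_card_erase (s := U) (a := 0)
  have h3 := Finset.card_erase_le (s := U) (a := 0)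
  have h4 : ∑ y : F, ((univ.filter fun x : F => ∀ i ∈ L, x ≠ a i + b i * y).erase 0).card
      ≤ (unc L).card := by
    rw [← Finset.card_sigma]
    refine Finset.card_le_card_of_injOn (fun z => p + z.2⁻¹ • (v + z.1 • v')) (fun z hz => ?_) ?_
    · obtain ⟨hx0, hxU⟩ := Finset.mem_erase.1 (Finset.mem_sigma.1 hz).2
      exact (key _ _ hx0).2 (Finset.mem_filter.1 hxU).2
    · rintro ⟨y, x⟩ hz ⟨y', x'⟩ - h
      have hx0 : x ≠ 0 := (Finset.mem_erase.1 (Finset.mem_sigma.1 hz).2).1
      have h5 : x⁻¹ • (v + y • v') = x'⁻¹ • (v + y' • v') := add_left_cancel h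
      have h6 := congrArg (ev l.1) h5
      simp only [ev_add, ev_smul, hv, zero_add, ← mul_assoc] at h6
      have h7 := mul_right_cancel₀ hv' h6
      rw [smul_add, smul_add, smul_smul, smul_smul, h7] at h5
      obtain rfl : x = x' := inv_injective (smul_left_injective F hv0 (add_right_cancel h5))
      obtain rfl : y = y' := mul_left_cancel₀ (inv_ne_zero hx0) h7
      rfl
  have h5 : ∑ _y : F, U.card ≤ ∑ y : F, ((U.card -
      (univ.filter fun x : F => ∀ i ∈ L, x ≠ a i + b i * y).card) +
      ((univ.filter fun x : F => ∀ i ∈ L, x ≠ a i + b i * y).erase 0).card + 1) :=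
    Finset.sum_le_sum fun y _ => by
      have := Finset.pred_card_le_card_erase
        (s := univ.filter fun x : F => ∀ i ∈ L, x ≠ a i + b i * y) (a := 0)
      omega
  rw [Finset.sum_add_distrib, Finset.sum_add_distrib] at h5
  simp only [Finset.sum_const, Finset.card_univ, smul_eq_mul, mul_one] at h5
  refine ⟨U.card, by unfold idx at hl ⊢; omega, by unfold idx at hl ⊢; omega, ?_⟩
  rw [Nat.mul_sub, mul_comm, ← sq]
  omega

end Crest.Agent.R034
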