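import Crest.Agent.R034.Defs

set_option autoImplicit false

namespace Crest.Agent.R034

open Finset Filter

variable {F : Type} [Field F] [Fintype F] [DecidableEq F] {K : ℕ}

omit [Fintype F] in
lemma spr_sum_idx {κ : Type*} (X : Finset (Pt F)) (S : Finset κ) (ℓ : κ → Ln F) :
    ∑ k ∈ S, idx X (ℓ k) = ∑ p ∈ X, (S.filter fun k => On p (ℓ k)).card := by
  unfold idx
  simp_rw [Finset.card_filter]
  exact Finset.sum_comm

omit [Fintype F] in
lemma spr_idx_mono {X Y : Finset (Pt F)} (h : X ⊆ Y) (l : Ln F) : idx X l ≤ idx Y l :=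
  Finset.card_le_card (Finset.filter_subset_filter _ h)

lemma spr_pr_zero {G : ℕ} [NeZero G] : pr (fun c : Fin G => c = 0) = (G : ℝ)⁻¹ := by
  have := pr_mem_finset (Ω := Fin G) {0}
  simpa using this

lemma spr_tail {G : ℕ} [NeZero G] {ι : Type*} [Fintype ι] [DecidableEq ι] (S : Finset ι)
    {σ n : ℝ} (hσ : (S.card : ℝ) / G ≤ σ) :
    pr (fun χ : ι → Fin G => n ≤ ∑ i ∈ S, ind (χ i = 0)) ≤ Real.exp (3 * σ - n) := by
  have h1 : (1 : ℝ) ≤ Real.exp 1 := Real.one_le_exp (by norm_num)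
  have h := upper_tail (A := fun _ : ι => Fin G) S (fun _ c => c = 0) (σ := σ) (n := n)
    (by simp only [spr_pr_zero, Finset.sum_const, nsmul_eq_mul]; rwa [← div_eq_mul_inv]) h1
  refine h.trans (Real.exp_le_exp.2 ?_)
  rw [Real.log_exp]
  have hσ0 : 0 ≤ σ := le_trans (by positivity) hσ
  have := Real.exp_one_lt_d9
  nlinarith

/-- The random colouring. -/
lemma spr_colour (hK : 1 ≤ K) (T : Ix F K → F) (W : Finset (Pt F)) (M : Finset (Ln F))
    (hM : M.card ≤ Fintype.card F) (S : Ln F → Finset (Ix F K))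
    {C δ : ℝ} {G J a : ℕ} [NeZero G] (hC : 0 < C) (hδ : 0 < δ) (hG : 48 / δ ≤ G)
    (hJ : 4 * K * C ≤ J) (hS : ∀ l ∈ M, (S l).card ≤ a)
    (hidx : ∀ l, (idx W l : ℝ) ≤ C * W.card / Fintype.card F) (hW0 : (0 : ℝ) < W.card)
    (hnum : Fintype.card F * Real.exp (-(a * δ / 16)) + Real.exp (-(Fintype.card F / (G : ℝ))) <
      ((G : ℝ)⁻¹) ^ J / 4) :
    ∃ χ : Ix F K → Fin G,
      ((G : ℝ)⁻¹) ^ J * W.card / 4
        ≤ ((W.filter fun p => ∀ i, On p (tl T i) → χ i = 0).card : ℝ) ∧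
      (∀ l ∈ M, ∑ i ∈ S l, ind (χ i = 0) < a * δ / 8) ∧
      ((univ.filter fun i => χ i = 0).card : ℝ) < 8 * K * Fintype.card F / G := by
  have hq1 : (1 : ℝ) ≤ Fintype.card F := by exact_mod_cast Fintype.card_pos
  have hG0 : (0 : ℝ) < G := by exact_mod_cast Nat.pos_of_neZero G
  have hG1 : (1 : ℝ) ≤ G := by exact_mod_cast Nat.pos_of_neZero G
  have hK1 : (1 : ℝ) ≤ K := by exact_mod_cast hK
  have hN : (Fintype.card (Ix F K) : ℝ) = (Fintype.card F + 1) * K := by
    rw [Fintype.card_prod, card_dir, Fintype.card_fin]; push_cast; ring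
  let th : Pt F → Finset (Ix F K) := fun p => univ.filter fun i => On p (tl T i)
  have hsum : ∑ p ∈ W, ((th p).card : ℝ) ≤ 2 * K * C * W.card := by
    have h1 := spr_sum_idx W univ (tl T)
    have h2 : ∑ p ∈ W, ((th p).card : ℝ) = ∑ i, (idx W (tl T i) : ℝ) := by exact_mod_cast h1.symm
    rw [h2]
    refine (Finset.sum_le_sum fun i _ => hidx _).trans ?_
    rw [Finset.sum_const, Finset.card_univ, nsmul_eq_mul, hN, ← mul_div_assoc,
      div_le_iff₀ (by linarith)]
    have : 0 ≤ K * C * W.card := by positivity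
    nlinarith
  let f : (Ix F K → Fin G) → ℝ := fun χ => ∑ p ∈ W, ind (∀ i ∈ th p, χ i = 0)
  have hEf : ((G : ℝ)⁻¹) ^ J * W.card / 2 ≤ ex f := by
    have h1 : ex f = ∑ p ∈ W, ((G : ℝ)⁻¹) ^ (th p).card := by
      simp only [f]
      rw [ex_sum]
      refine Finset.sum_congr rfl fun p _ => ?_
      have := pr_forall_coord (A := fun _ : Ix F K => Fin G) (th p) (fun _ c => c = 0)
      simp only [spr_pr_zero, Finset.prod_const] at this
      exact this
    have h2 : ∀ p, ((G : ℝ)⁻¹) ^ J * (1 - (th p).card / (4 * K * C))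
        ≤ ((G : ℝ)⁻¹) ^ (th p).card := by
      intro p
      by_cases hp : (th p).card ≤ J
      · have h3 : ((G : ℝ)⁻¹) ^ J ≤ ((G : ℝ)⁻¹) ^ (th p).card :=
          pow_le_pow_of_le_one (by positivity) (inv_le_one_of_one_le₀ hG1) hp
        refine le_trans (mul_le_of_le_one_right (by positivity) ?_) h3
        have : 0 ≤ ((th p).card : ℝ) / (4 * K * C) := by positivity
        linarith
      · have h3 : (J : ℝ) ≤ (th p).card := by exact_mod_cast (not_le.1 hp).le
        have h4 : 1 ≤ ((th p).card : ℝ) / (4 * K * C) := by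
          rw [le_div_iff₀ (by positivity)]; linarith
        exact le_trans (mul_nonpos_of_nonneg_of_nonpos (by positivity) (by linarith))
          (by positivity)
    rw [h1]
    refine le_trans ?_ (Finset.sum_le_sum fun p _ => h2 p)
    rw [← Finset.mul_sum, Finset.sum_sub_distrib, ← Finset.sum_div, mul_div_assoc]
    refine mul_le_mul_of_nonneg_left ?_ (by positivity)
    have h5 : (∑ p ∈ W, ((th p).card : ℝ)) / (4 * K * C) ≤ W.card / 2 := by
      rw [div_le_iff₀ (by positivity)]; linarith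
    simp only [Finset.sum_const, nsmul_eq_mul, mul_one]
    linarith
  have hgood : ((G : ℝ)⁻¹) ^ J / 4 ≤ pr (fun χ => ((G : ℝ)⁻¹) ^ J * W.card / 4 ≤ f χ) := by
    have h1 := reverse_markov (f := f) (b := W.card) (a := ((G : ℝ)⁻¹) ^ J * W.card / 4)
      (fun χ => by
        simp only [f]
        refine (Finset.sum_le_sum fun p _ => ind_le_one _).trans (by simp)) (by positivity)
    refine le_of_mul_le_mul_left ?_ hW0
    linarith
  have hbad1 : pr (fun χ : Ix F K → Fin G => ∃ l ∈ M, a * δ / 8 ≤ ∑ i ∈ S l, ind (χ i = 0))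
      ≤ Fintype.card F * Real.exp (-(a * δ / 16)) := by
    refine (pr_exists_le_card M _ (b := Real.exp (-(a * δ / 16))) fun l hl => ?_).trans ?_
    · refine (spr_tail (S l) (σ := a * δ / 48) ?_).trans (le_of_eq (by congr 1; ring))
      have h1 : ((S l).card : ℝ) ≤ a := by exact_mod_cast hS l hl
      rw [div_le_iff₀ hG0]
      rw [div_le_iff₀ hδ] at hG
      have : (0 : ℝ) ≤ a := Nat.cast_nonneg _
      nlinarith
    · gcongr
  have hbad2 : pr (fun χ : Ix F K → Fin G =>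
      8 * K * Fintype.card F / (G : ℝ) ≤ ∑ i, ind (χ i = 0))
      ≤ Real.exp (-(Fintype.card F / (G : ℝ))) := by
    refine (spr_tail univ (σ := 2 * K * Fintype.card F / G) ?_).trans (Real.exp_le_exp.2 ?_)
    · rw [Finset.card_univ, hN]
      refine div_le_div_of_nonneg_right ?_ hG0.le
      nlinarith
    · have : (Fintype.card F : ℝ) / G ≤ 2 * K * Fintype.card F / G := by
        gcongr; nlinarith
      have e : 8 * K * Fintype.card F / (G : ℝ) = 4 * (2 * K * Fintype.card F / G) := by ring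
      linarith
  obtain ⟨χ, h1, h2⟩ := exists_of_pr_lt
    (((pr_or_le _ _).trans (add_le_add hbad1 hbad2)).trans_lt (hnum.trans_le hgood))
  push Not at h2
  refine ⟨χ, ?_, h2.1, ?_⟩
  · refine h1.trans (le_of_eq ?_)
    rw [card_filter_eq_sum_ind]
    exact Finset.sum_congr rfl fun p _ => ind_congr (by simp [th])
  · rw [card_filter_eq_sum_ind]; exact h2.2

/-- The spread case of the stability theorem. -/
theorem spread_det (hK : 1 ≤ K) (T : Ix F K → F) (L : Finset (Ln F))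
    (hL : L.card = Fintype.card F) (hcov : ∀ p ∈ Uoff T ∅, ∃ l ∈ L, On p l)
    (IH : Finset (Ix F K)) (W : Finset (Pt F))
    (hW : ∀ p, p ∈ W ↔ p ∈ unc L ∧ ∀ i ∈ IH, ¬ On p (tl T i))
    {C δ ρ η : ℝ} {G J a : ℕ} (hC : 0 < C) (hδ : 0 < δ) (hδ1 : δ ≤ 1) (hρ : 0 < ρ) (hρ1 : ρ ≤ 1)
    (hη : η ≤ ρ ^ 2 * δ / 16) (hG : 48 / δ ≤ G) (hGK : 32 * K ≤ G) (hJ : 4 * K * C ≤ J)
    (ha : ρ * Fintype.card F ≤ a) (ha2 : 2 * a ≤ Fintype.card F)
    (hidx : ∀ l, (idx W l : ℝ) ≤ C * W.card / Fintype.card F)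
    (hWc : Fintype.card F * √(Fintype.card F : ℝ) / 8 ≤ W.card)
    (hfree : ∀ l, 3 / 4 * δ * Fintype.card F ≤ (free T l).card)
    (hexc : ∑ p ∈ Uoff T ∅, ((deg L (Sum.inl p) - 1 : ℕ) : ℝ) ≤ η * Fintype.card F ^ 2)
    (hnT : ((L.filter fun l => ∃ i, l = tl T i).card : ℝ) ≤ η * Fintype.card F)
    (hnum : Fintype.card F * Real.exp (-(a * δ / 16)) + Real.exp (-(Fintype.card F / (G : ℝ))) <
      ((G : ℝ)⁻¹) ^ J / 4) :
    BadSp a (8 / (ρ * δ)) (32 * (G : ℝ) ^ J) (((G : ℝ)⁻¹) ^ J / (8 * C)) T := by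
  classical
  set q : ℝ := (Fintype.card F : ℝ) with hq
  have hq1 : (1 : ℝ) ≤ q := by rw [hq]; exact_mod_cast Fintype.card_pos
  have hq0 : 0 < q := by linarith
  have hG48 : (48 : ℝ) ≤ G := le_trans (by rw [le_div_iff₀ hδ]; linarith) hG
  have hG0 : (0 : ℝ) < G := by linarith
  have : NeZero G := ⟨by rintro rfl; simp at hG0⟩
  have ha0 : (0 : ℝ) < a := lt_of_lt_of_le (by positivity) ha
  have ha2' : 2 * (a : ℝ) ≤ q := by rw [hq]; exact_mod_cast ha2
  have hsq : 0 < √q := Real.sqrt_pos.2 hq0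
  have hW0 : (0 : ℝ) < W.card := lt_of_lt_of_le (by positivity) hWc
  have hηq : η * q ≤ a * δ / 16 := by
    calc η * q ≤ ρ ^ 2 * δ / 16 * q := by gcongr
      _ = ρ * (ρ * q) * δ / 16 := by ring
      _ ≤ 1 * a * δ / 16 := by gcongr
      _ = _ := by ring
  have hηq2 : η * q ^ 2 ≤ a * a * δ / 16 := by
    calc η * q ^ 2 ≤ ρ ^ 2 * δ / 16 * q ^ 2 := by gcongr
      _ = (ρ * q) * (ρ * q) * δ / 16 := by ring
      _ ≤ a * a * δ / 16 := by gcongr
  set U := Uoff T ∅ with hU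
  have hUmem : ∀ p, p ∈ U ↔ ∀ i, ¬ On p (tl T i) := fun p => by simp [hU, mem_Uoff]
  set LT := L.filter fun l => ∃ i, l = tl T i with hLT
  have hLT16 : (LT.card : ℝ) ≤ a / 16 := by nlinarith
  obtain ⟨L₀, hL₀, hL₀c⟩ : ∃ L₀ ⊆ L \ LT, L₀.card = a := by
    refine Finset.exists_subset_card_eq ?_
    rw [Finset.card_sdiff_of_subset (show LT ⊆ L from Finset.filter_subset _ _), hL]
    have : LT.card ≤ a := by
      have : (LT.card : ℝ) ≤ a := by linarith
      exact_mod_cast this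
    omega
  have hL₀L : L₀ ⊆ L := hL₀.trans Finset.sdiff_subset
  have hnonT : ∀ l ∈ L \ LT, ∀ i, l ≠ tl T i := by
    intro l hl i h
    obtain ⟨h1, h2⟩ := Finset.mem_sdiff.1 hl
    exact h2 (Finset.mem_filter.2 ⟨h1, i, h⟩)
  have hhit : ∀ p, ∃ i : Ix F K, p ∉ U → On p (tl T i) := by
    intro p
    by_cases hp : p ∈ U
    · exact ⟨(none, ⟨0, hK⟩), fun h => absurd hp h⟩
    · rw [hUmem] at hp
      push Not at hp
      obtain ⟨i, hi⟩ := hp
      exact ⟨i, fun _ => hi⟩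
  choose hit hhit using hhit
  let P : Ln F → Finset (Pt F) := fun l => (pts l \ unc L₀) \ U
  have hPc : ∀ l, l ∉ L₀ → (P l).card ≤ a := by
    intro l hl
    have h1 : P l ⊆ L₀.biUnion fun l' => (pts l).filter fun p => On p l' := by
      intro p hp
      obtain ⟨h2, h3⟩ := Finset.mem_sdiff.1 (Finset.mem_sdiff.1 hp).1
      rw [mem_unc] at h3
      push Not at h3
      obtain ⟨l', hl', hon⟩ := h3
      exact Finset.mem_biUnion.2 ⟨l', hl', Finset.mem_filter.2 ⟨h2, hon⟩⟩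
    refine (Finset.card_le_card h1).trans ?_
    have := Finset.card_biUnion_le_card_mul L₀ (fun l' => (pts l).filter fun p => On p l') 1
      fun l' hl' => card_inter_le_one (by rintro rfl; exact hl hl')
    omega
  obtain ⟨χ, hχ1, hχ2, hχ3⟩ := spr_colour hK T W ((L \ LT) \ L₀)
    (by rw [← hL]; exact Finset.card_le_card (Finset.sdiff_subset.trans Finset.sdiff_subset))
    (fun l => (P l).image hit) (G := G) (a := a) hC hδ hG hJ
    (fun l hl => Finset.card_image_le.trans (hPc l (Finset.mem_sdiff.1 hl).2)) hidx hW0 hnum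
  set I := (univ.filter fun i => χ i = 0) \ IH with hI
  set X := Uoff T I with hX
  have hUX : U ⊆ X := fun p hp => mem_Uoff.2 fun i _ => (hUmem p).1 hp i
  set W₂ := X ∩ unc L with hW₂
  have hW₂W : W₂ ⊆ W := by
    intro p hp
    obtain ⟨h1, h2⟩ := Finset.mem_inter.1 hp
    exact (hW p).2 ⟨h2, fun i hi => mem_Uoff.1 h1 i fun h => (Finset.mem_sdiff.1 h).2 hi⟩
  have hW₂c : ((G : ℝ)⁻¹) ^ J * W.card / 4 ≤ W₂.card := by
    refine hχ1.trans (Nat.cast_le.2 (Finset.card_le_card fun p hp => ?_))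
    obtain ⟨h1, h2⟩ := Finset.mem_filter.1 hp
    obtain ⟨h3, h4⟩ := (hW p).1 h1
    refine Finset.mem_inter.2 ⟨mem_Uoff.2 fun i hi hon => hi ?_, h3⟩
    exact Finset.mem_sdiff.2 ⟨Finset.mem_filter.2 ⟨mem_univ _, h2 i hon⟩, fun h => h4 i h hon⟩
  have hW₂0 : (0 : ℝ) < W₂.card := lt_of_lt_of_le (by positivity) hW₂c
  set V := U \ unc L₀ with hV
  have hVdeg : ∀ p ∈ V, 1 ≤ (L₀.filter fun l => On p l).card := by
    intro p hp
    have h3 := (Finset.mem_sdiff.1 hp).2
    rw [mem_unc] at h3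
    push Not at h3
    obtain ⟨l', hl', hon⟩ := h3
    exact Finset.card_pos.2 ⟨l', Finset.mem_filter.2 ⟨hl', hon⟩⟩
  have hdeg : ∀ p, deg L (Sum.inl p) = (L₀.filter fun l => On p l).card
      + ((L \ L₀).filter fun l => On p l).card := by
    intro p
    unfold deg
    rw [← Finset.card_union_of_disjoint (Finset.disjoint_filter_filter Finset.disjoint_sdiff),
      ← Finset.filter_union, Finset.union_sdiff_of_subset hL₀L]
    rfl
  have hexcV : ∑ p ∈ V, ((deg L (Sum.inl p) - 1 : ℕ) : ℝ) ≤ η * q ^ 2 :=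
    le_trans (Finset.sum_le_sum_of_subset_of_nonneg Finset.sdiff_subset
      fun p _ _ => Nat.cast_nonneg _) hexc
  have hVc : a * δ * q / 2 ≤ V.card := by
    have h1 : ∀ l ∈ L₀, 3 / 4 * δ * q ≤ idx V l := by
      intro l hl
      refine (hfree l).trans (Nat.cast_le.2 (Finset.card_le_card fun p hp => ?_))
      obtain ⟨h2, h3⟩ := mem_free.1 hp
      refine Finset.mem_filter.2 ⟨Finset.mem_sdiff.2 ⟨(hUmem p).2 fun i hon => ?_,
        fun h => mem_unc.1 h l hl h2⟩, h2⟩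
      by_cases hd : i.1 = l.1
      · exact hnonT l (hL₀ hl) i (eq_of_on_of_dir h2 hon hd.symm)
      · exact h3 i hd hon
    have h2 := Finset.sum_le_sum h1
    rw [Finset.sum_const, hL₀c, nsmul_eq_mul] at h2
    have h3 : ∑ l ∈ L₀, (idx V l : ℝ) = ∑ p ∈ V, ((L₀.filter fun l => On p l).card : ℝ) := by
      exact_mod_cast spr_sum_idx V L₀ id
    have h4 : ∑ p ∈ V, ((L₀.filter fun l => On p l).card : ℝ)
        ≤ ∑ p ∈ V, (1 + ((deg L (Sum.inl p) - 1 : ℕ) : ℝ)) := by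
      refine Finset.sum_le_sum fun p _ => ?_
      have := hdeg p
      have h5 : (L₀.filter fun l => On p l).card ≤ 1 + (deg L (Sum.inl p) - 1) := by omega
      exact_mod_cast h5
    rw [Finset.sum_add_distrib, Finset.sum_const, nsmul_eq_mul, mul_one] at h4
    have h6 : η * q ^ 2 ≤ a * δ / 16 * q := by rw [sq, ← mul_assoc]; gcongr
    have h7 : 0 ≤ a * δ * q := by positivity
    linarith
  set Λ := X \ unc L₀ with hΛ
  have hΛc : a * δ * q / 2 ≤ Λ.card :=
    hVc.trans (Nat.cast_le.2 (Finset.card_le_card (Finset.sdiff_subset_sdiff hUX subset_rfl)))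
  have hΛ0 : (0 : ℝ) < Λ.card := lt_of_lt_of_le (by positivity) hΛc
  set B₂ := (L \ L₀).filter fun l => a * δ / 8 ≤ (idx V l : ℝ) with hB₂
  have hB₂c : (B₂.card : ℝ) ≤ a / 2 := by
    have h1 : ∑ l ∈ L \ L₀, (idx V l : ℝ)
        = ∑ p ∈ V, (((L \ L₀).filter fun l => On p l).card : ℝ) := by
      exact_mod_cast spr_sum_idx V (L \ L₀) id
    have h2 : ∑ p ∈ V, (((L \ L₀).filter fun l => On p l).card : ℝ)
        ≤ ∑ p ∈ V, ((deg L (Sum.inl p) - 1 : ℕ) : ℝ) := by
      refine Finset.sum_le_sum fun p hp => ?_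
      have := hdeg p
      have := hVdeg p hp
      exact Nat.cast_le.2 (by omega)
    have h3 : ∑ l ∈ B₂, a * δ / 8 ≤ ∑ l ∈ L \ L₀, (idx V l : ℝ) :=
      (Finset.sum_le_sum fun l hl => (Finset.mem_filter.1 hl).2).trans
        (Finset.sum_le_sum_of_subset_of_nonneg (Finset.filter_subset _ _)
          fun l _ _ => Nat.cast_nonneg _)
    rw [Finset.sum_const, nsmul_eq_mul] at h3
    refine le_of_mul_le_mul_right ?_ (show 0 < a * δ / 8 by positivity)
    linarith
  obtain ⟨L₁, hBL₁, hL₁L, hL₁c⟩ := Finset.exists_subsuperset_card_eq (s := LT ∪ B₂) (t := L)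
    (n := a) (Finset.union_subset (Finset.filter_subset _ _)
      ((Finset.filter_subset _ _).trans Finset.sdiff_subset))
    (by
      have h1 : ((LT ∪ B₂).card : ℝ) ≤ LT.card + B₂.card := by
        exact_mod_cast Finset.card_union_le _ _
      have : ((LT ∪ B₂).card : ℝ) ≤ a := by linarith
      exact_mod_cast this)
    (by omega)
  refine ⟨I, L, ⟨L₀, L₁, (L \ L₀) \ L₁, hL₀c, hL₁c, ?_, ?_, ?_⟩, ?_, ?_⟩
  · have h1 := card_dev_idx_le Λ (a := Λ.card / (2 * q)) (by positivity) (E1 X L₀) fun l hl => by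
      have h2 : (idx Λ l : ℝ) ≤ Λ.card / (2 * q) := (Finset.mem_filter.1 hl).2
      have h3 : (Λ.card : ℝ) / q = 2 * (Λ.card / (2 * q)) := by field_simp
      rw [le_abs]; right; linarith
    refine h1.trans ?_
    have h4 : q * Λ.card / (Λ.card / (2 * q)) ^ 2 = 4 * q ^ 3 / Λ.card := by field_simp; ring
    rw [h4, div_le_iff₀ hΛ0]
    calc 4 * q ^ 3 = 8 / (ρ * δ) * q * ((ρ * q) * δ * q / 2) := by field_simp; ring
      _ ≤ 8 / (ρ * δ) * q * (a * δ * q / 2) := by gcongr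
      _ ≤ _ := by gcongr
  · intro l hl
    obtain ⟨hl1, hl2⟩ := Finset.mem_sdiff.1 hl
    obtain ⟨hlL, hl0⟩ := Finset.mem_sdiff.1 hl1
    have hlT : l ∈ L \ LT :=
      Finset.mem_sdiff.2 ⟨hlL, fun h => hl2 (hBL₁ (Finset.mem_union_left _ h))⟩
    have h1 : (idx V l : ℝ) < a * δ / 8 := by
      by_contra hc
      exact hl2 (hBL₁ (Finset.mem_union_right _ (Finset.mem_filter.2 ⟨hl1, not_lt.1 hc⟩)))
    have h2 := hχ2 l (Finset.mem_sdiff.2 ⟨hlT, hl0⟩)
    have hinj : Set.InjOn hit (P l) := by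
      intro p hp p' hp' h
      obtain ⟨h3, h4⟩ := Finset.mem_sdiff.1 hp
      obtain ⟨h5, h6⟩ := Finset.mem_sdiff.1 hp'
      exact pt_eq_of_on_of_ne (hnonT l hlT (hit p)) (mem_pts.1 (Finset.mem_sdiff.1 h3).1)
        (hhit p h4) (mem_pts.1 (Finset.mem_sdiff.1 h5).1) (h ▸ hhit p' h6)
    rw [Finset.sum_image hinj, ← card_filter_eq_sum_ind] at h2
    have h3 : idx Λ l ≤ idx V l + ((P l).filter fun p => χ (hit p) = 0).card := by
      refine le_trans (Finset.card_le_card fun p hp => ?_) (Finset.card_union_le _ _)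
      obtain ⟨h4, h5⟩ := Finset.mem_filter.1 hp
      obtain ⟨h6, h7⟩ := Finset.mem_sdiff.1 h4
      by_cases hpU : p ∈ U
      · exact Finset.mem_union_left _ (Finset.mem_filter.2 ⟨Finset.mem_sdiff.2 ⟨hpU, h7⟩, h5⟩)
      · refine Finset.mem_union_right _ (Finset.mem_filter.2
          ⟨Finset.mem_sdiff.2 ⟨Finset.mem_sdiff.2 ⟨mem_pts.2 h5, h7⟩, hpU⟩, ?_⟩)
        have h8 : hit p ∈ I := by
          by_contra hc
          exact mem_Uoff.1 h6 _ hc (hhit p hpU)
        exact (Finset.mem_filter.1 (Finset.mem_sdiff.1 h8).1).2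
    have h4 : (idx Λ l : ℝ) ≤ idx V l + ((P l).filter fun p => χ (hit p) = 0).card := by
      exact_mod_cast h3
    refine Finset.mem_filter.2 ⟨mem_univ _, ?_⟩
    change (idx Λ l : ℝ) ≤ Λ.card / (2 * q)
    rw [le_div_iff₀ (by positivity)]
    nlinarith
  · rw [Finset.union_assoc, Finset.union_sdiff_self_eq_union, ← Finset.union_assoc,
      Finset.union_right_comm, Finset.union_sdiff_of_subset hL₀L,
      Finset.union_eq_left.2 hL₁L]
  · have h1 := card_dev_idx_le W₂ (a := W₂.card / q) (by positivity) (E2 W₂) fun l hl => by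
      have h2 : 2 * (W₂.card : ℝ) / q ≤ idx W₂ l := (Finset.mem_filter.1 hl).2
      have h3 : 2 * (W₂.card : ℝ) / q = 2 * (W₂.card / q) := by ring
      rw [le_abs]; left; linarith
    refine h1.trans ?_
    have h4 : q * W₂.card / (W₂.card / q) ^ 2 = q ^ 3 / W₂.card := by field_simp
    rw [h4, div_le_iff₀ hW₂0]
    have h5 : √q * √q = q := Real.mul_self_sqrt hq0.le
    calc q ^ 3 = q * q * (√q * √q) := by rw [h5]; ring
      _ = 32 * (G : ℝ) ^ J * q * √q * (((G : ℝ)⁻¹) ^ J * (q * √q / 8) / 4) := by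
          rw [inv_pow]; field_simp; ring
      _ ≤ 32 * (G : ℝ) ^ J * q * √q * (((G : ℝ)⁻¹) ^ J * W.card / 4) := by gcongr
      _ ≤ _ := by gcongr
  · have h1 : (W₂.card : ℝ) ≤ ∑ i ∈ I, (idx W₂ (tl T i) : ℝ) := by
      have h2 : W₂.card ≤ ∑ i ∈ I, idx W₂ (tl T i) := by
        rw [spr_sum_idx, Finset.card_eq_sum_ones]
        refine Finset.sum_le_sum fun p hp => Finset.card_pos.2 ?_
        obtain ⟨h3, h4⟩ := Finset.mem_inter.1 hp
        have hpU : p ∉ U := fun h => by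
          obtain ⟨l, hl, hon⟩ := hcov p h
          exact mem_unc.1 h4 l hl hon
        refine ⟨hit p, Finset.mem_filter.2 ⟨?_, hhit p hpU⟩⟩
        by_contra hc
        exact mem_Uoff.1 h3 _ hc (hhit p hpU)
      exact_mod_cast h2
    have h2 : ∀ i, (idx W₂ (tl T i) : ℝ)
        ≤ 2 * W₂.card / q + C * W.card / q * ind (tl T i ∈ E2 W₂) := by
      intro i
      by_cases hi : tl T i ∈ E2 W₂
      · rw [ind_pos hi, mul_one]
        have h3 : (idx W₂ (tl T i) : ℝ) ≤ idx W (tl T i) := Nat.cast_le.2 (spr_idx_mono hW₂W _)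
        have h4 : 0 ≤ 2 * (W₂.card : ℝ) / q := by positivity
        linarith [hidx (tl T i)]
      · rw [ind_neg hi, mul_zero, add_zero]
        by_contra hc
        exact hi (Finset.mem_filter.2 ⟨mem_univ _, (not_le.1 hc).le⟩)
    have h3 := h1.trans (Finset.sum_le_sum fun i _ => h2 i)
    rw [Finset.sum_add_distrib, Finset.sum_const, nsmul_eq_mul, ← Finset.mul_sum] at h3
    have h4 : (I.card : ℝ) ≤ q / 4 := by
      have h5 : (I.card : ℝ) ≤ (univ.filter fun i => χ i = 0).card :=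
        Nat.cast_le.2 (Finset.card_le_card Finset.sdiff_subset)
      have h6 : 32 * (K : ℝ) ≤ G := by exact_mod_cast hGK
      have h7 : 8 * K * q / G ≤ q / 4 := by
        rw [div_le_iff₀ hG0]; nlinarith
      linarith
    have h5 : I.card * (2 * (W₂.card : ℝ) / q) ≤ W₂.card / 2 := by
      calc _ ≤ q / 4 * (2 * (W₂.card : ℝ) / q) := by gcongr
        _ = _ := by field_simp; ring
    refine le_of_mul_le_mul_left ?_ (show 0 < C * W.card / q by positivity)
    have h6 : C * W.card / q * (((G : ℝ)⁻¹) ^ J / (8 * C) * q)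
        = ((G : ℝ)⁻¹) ^ J * W.card / 4 / 2 := by field_simp; ring
    rw [h6]
    linarith

end Crest.Agent.R034
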