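import Crest.Agent.R034.Defs

set_option autoImplicit false

namespace Crest.Agent.R034

open Finset Filter

variable {F : Type} [Field F] [Fintype F] [DecidableEq F]

lemma st_unc_add (L : Finset (Ln F)) :
    (unc L).card + (L.biUnion pts).card = Fintype.card F ^ 2 := by
  rw [← card_pt, ← Finset.card_univ, ← Finset.card_union_of_disjoint]
  · congr 1
    ext p
    simp only [Finset.mem_union, mem_unc, Finset.mem_biUnion, mem_pts, Finset.mem_univ, iff_true]
    by_cases h : ∃ l ∈ L, On p l
    · exact Or.inr h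
    · left; push Not at h; exact h
  · rw [Finset.disjoint_left]
    intro p hp hp'
    obtain ⟨l, hl, hpl⟩ := Finset.mem_biUnion.mp hp'
    exact mem_unc.mp hp l hl (mem_pts.mp hpl)

theorem step1a (L : Finset (Ln F)) (hL : L.card = Fintype.card F) (y : PPt F) :
    (Fintype.card F - deg L y) * (deg L y - 1) ≤ (unc L).card := by
  set A := L.filter fun l => POn y l with hA
  set B := L.filter fun l => ¬ POn y l with hB
  have hM : deg L y = A.card := rfl
  have hAB : A.card + B.card = Fintype.card F := by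
    rw [← hL]; exact Finset.card_filter_add_card_filter_not _
  have h1 : L.biUnion pts ⊆ A.biUnion pts ∪ B.biUnion fun l => pts l \ A.biUnion pts := by
    intro p hp
    obtain ⟨l, hl, hpl⟩ := Finset.mem_biUnion.mp hp
    by_cases h : p ∈ A.biUnion pts
    · exact Finset.mem_union_left _ h
    · refine Finset.mem_union_right _ (Finset.mem_biUnion.mpr ⟨l, ?_, Finset.mem_sdiff.mpr ⟨hpl, h⟩⟩)
      refine Finset.mem_filter.mpr ⟨hl, fun hy => h ?_⟩
      exact Finset.mem_biUnion.mpr ⟨l, Finset.mem_filter.mpr ⟨hl, hy⟩, hpl⟩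
  have h2 : ∀ l ∈ B, (pts l \ A.biUnion pts).card + (A.card - 1) ≤ Fintype.card F := by
    intro l hl
    have hly := (Finset.mem_filter.mp hl).2
    have h3 : (A.filter fun l' => l'.1 = l.1).card ≤ 1 := by
      rw [Finset.card_le_one]
      intro a ha b hb
      by_contra hab
      obtain ⟨ha1, ha2⟩ := Finset.mem_filter.mp ha
      obtain ⟨hb1, hb2⟩ := Finset.mem_filter.mp hb
      have := ppt_eq_of_pon (y' := Sum.inr l.1) hab (Finset.mem_filter.mp ha1).2
        (Finset.mem_filter.mp hb1).2 ha2 hb2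
      exact hly (this ▸ rfl)
    have h4 : (A.filter fun l' => ¬ l'.1 = l.1).card ≤ (pts l ∩ A.biUnion pts).card := by
      refine Finset.card_le_card_of_injOn (fun l' => meet l' l) (fun a ha => ?_)
        (fun a ha b hb hab => ?_)
      · obtain ⟨ha1, ha2⟩ := Finset.mem_filter.mp ha
        exact Finset.mem_coe.mpr (Finset.mem_inter.mpr ⟨mem_pts.mpr (meet_on_right ha2),
          Finset.mem_biUnion.mpr ⟨a, ha1, mem_pts.mpr (meet_on_left ha2)⟩⟩)
      · obtain ⟨ha1, ha2⟩ := Finset.mem_filter.mp ha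
        obtain ⟨hb1, hb2⟩ := Finset.mem_filter.mp hb
        by_contra hne
        have hab' : meet a l = meet b l := hab
        have := ppt_eq_of_pon (y' := Sum.inl (meet a l)) hne (Finset.mem_filter.mp ha1).2
          (Finset.mem_filter.mp hb1).2 (meet_on_left ha2) (hab' ▸ meet_on_left hb2)
        exact hly (this ▸ meet_on_right ha2)
    have h5 := Finset.card_filter_add_card_filter_not (s := A) (fun l' => l'.1 = l.1)
    have h6 := Finset.card_sdiff_add_card_inter (pts l) (A.biUnion pts)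
    rw [card_pts] at h6
    omega
  have h7 : (L.biUnion pts).card + B.card * (A.card - 1) ≤
      A.card * Fintype.card F + B.card * Fintype.card F := by
    have h8 : (A.biUnion pts).card ≤ A.card * Fintype.card F :=
      Finset.card_biUnion_le.trans (by simp [card_pts])
    have h9 : (B.biUnion fun l => pts l \ A.biUnion pts).card + B.card * (A.card - 1) ≤
        B.card * Fintype.card F := by
      calc _ ≤ ∑ l ∈ B, (pts l \ A.biUnion pts).card + ∑ l ∈ B, (A.card - 1) :=
            Nat.add_le_add Finset.card_biUnion_le (by simp)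
        _ = ∑ l ∈ B, ((pts l \ A.biUnion pts).card + (A.card - 1)) := Finset.sum_add_distrib.symm
        _ ≤ ∑ l ∈ B, Fintype.card F := Finset.sum_le_sum h2
        _ = _ := by simp
    have := (Finset.card_le_card h1).trans (Finset.card_union_le _ _)
    omega
  have h10 := st_unc_add L
  rw [← add_mul, hAB, ← sq] at h7
  rw [hM, show Fintype.card F - A.card = B.card by omega]
  omega

omit [Fintype F] in
/-- Double counting of incidences between a point set and a line set. -/
lemma st_sum_idx (X : Finset (Pt F)) (L : Finset (Ln F)) :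
    ∑ l ∈ L, idx X l = ∑ p ∈ X, deg L (Sum.inl p) := by
  unfold idx deg
  simp only [Finset.card_filter, pon_inl]
  exact Finset.sum_comm

lemma st_idx_univ (l : Ln F) : idx univ l = Fintype.card F := card_pts l

lemma st_sum_excess (L : Finset (Ln F)) (hL : L.card = Fintype.card F) :
    ∑ p, (deg L (Sum.inl p) - 1) = (unc L).card := by
  have h1 : ∑ p, deg L (Sum.inl p) = Fintype.card F ^ 2 := by
    rw [← st_sum_idx]; simp [st_idx_univ, hL, sq]
  have h2 : ∀ p, deg L (Sum.inl p) + (if p ∈ unc L then 1 else 0) = (deg L (Sum.inl p) - 1) + 1 := by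
    intro p
    by_cases h : p ∈ unc L
    · have : deg L (Sum.inl p) = 0 := by
        unfold deg
        rw [Finset.card_eq_zero, Finset.filter_eq_empty_iff]
        exact mem_unc.mp h
      simp [h, this]
    · have : 0 < deg L (Sum.inl p) := by
        rw [mem_unc] at h
        push Not at h
        obtain ⟨l, hl, hpl⟩ := h
        exact Finset.card_pos.mpr ⟨l, Finset.mem_filter.mpr ⟨hl, hpl⟩⟩
      simp only [h, if_false]
      omega
  have h3 := Finset.sum_congr rfl (fun p (_ : p ∈ (univ : Finset (Pt F))) => h2 p)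
  rw [Finset.sum_add_distrib, Finset.sum_add_distrib, h1, ← Finset.card_filter] at h3
  simp only [Finset.filter_mem_eq_inter, Finset.univ_inter, Finset.sum_const, Finset.card_univ,
    card_pt, smul_eq_mul, mul_one] at h3
  omega

theorem step1b (L : Finset (Ln F)) (hL : L.card = Fintype.card F) :
    ∃ y : PPt F, ((Fintype.card F : ℝ) - 1) ≤
      ((deg L y : ℝ) - 1) * (2 * (unc L).card / Fintype.card F + 1) := by
  have hq : 0 < Fintype.card F := Fintype.card_pos
  have hq' : (0 : ℝ) < Fintype.card F := by exact_mod_cast hq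
  set X : Finset (Pt F) := univ.filter fun p => 2 ≤ deg L (Sum.inl p) with hX
  have h1 : ∑ l ∈ L, idx X l ≤ 2 * (unc L).card := by
    rw [st_sum_idx, ← st_sum_excess L hL, Finset.mul_sum, hX, Finset.sum_filter]
    refine Finset.sum_le_sum fun p _ => ?_
    split_ifs <;> omega
  obtain ⟨l, hl, hr⟩ : ∃ l ∈ L, (idx X l : ℝ) ≤ 2 * (unc L).card / Fintype.card F := by
    refine Finset.exists_le_of_sum_le (Finset.card_pos.mp (hL ▸ hq)) ?_
    rw [Finset.sum_const, hL, nsmul_eq_mul, mul_div_cancel₀ _ hq'.ne']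
    exact_mod_cast h1
  set Y : Finset (PPt F) := insert (Sum.inr l.1) ((X.filter fun p => On p l).image Sum.inl) with hY
  have hYc : Y.card ≤ idx X l + 1 :=
    (Finset.card_insert_le _ _).trans (Nat.add_le_add_right Finset.card_image_le _)
  have hYl : ∀ y ∈ Y, POn y l := by
    intro y hy
    rcases Finset.mem_insert.mp hy with rfl | hy
    · rfl
    · obtain ⟨p, hp, rfl⟩ := Finset.mem_image.mp hy
      exact (Finset.mem_filter.mp hp).2
  obtain ⟨y, hy, hmax⟩ := Finset.exists_max_image Y (fun y => deg L y) ⟨_, Finset.mem_insert_self _ _⟩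
  have h2 : L.erase l ⊆ Y.biUnion fun y => (L.filter fun l' => POn y l').erase l := by
    intro l' hl'
    obtain ⟨hne, hl'L⟩ := Finset.mem_erase.mp hl'
    obtain ⟨y', h1, h2⟩ := exists_ppt l l'
    refine Finset.mem_biUnion.mpr ⟨y', ?_, Finset.mem_erase.mpr ⟨hne, Finset.mem_filter.mpr ⟨hl'L, h2⟩⟩⟩
    rcases y' with p | d
    · refine Finset.mem_insert_of_mem (Finset.mem_image_of_mem _ (Finset.mem_filter.mpr ⟨?_, h1⟩))
      refine Finset.mem_filter.mpr ⟨Finset.mem_univ _, ?_⟩
      have : ({l', l} : Finset (Ln F)) ⊆ L.filter fun l' => POn (Sum.inl p) l' := by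
        intro a ha
        rcases Finset.mem_insert.mp ha with rfl | ha
        · exact Finset.mem_filter.mpr ⟨hl'L, h2⟩
        · rw [Finset.mem_singleton.mp ha]; exact Finset.mem_filter.mpr ⟨hl, h1⟩
      have h3 := Finset.card_le_card this
      rwa [Finset.card_pair hne] at h3
    · have : l.1 = d := h1
      rw [← this]; exact Finset.mem_insert_self _ _
  have h3 : Fintype.card F - 1 ≤ Y.card * (deg L y - 1) := by
    rw [← hL, ← Finset.card_erase_of_mem hl]
    refine (Finset.card_le_card h2).trans (Finset.card_biUnion_le.trans ?_)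
    rw [← smul_eq_mul, ← Finset.sum_const]
    refine Finset.sum_le_sum fun y' hy' => ?_
    rw [Finset.card_erase_of_mem (Finset.mem_filter.mpr ⟨hl, hYl y' hy'⟩)]
    exact Nat.sub_le_sub_right (hmax y' hy') 1
  have h4 : 1 ≤ deg L y := Finset.card_pos.mpr ⟨l, Finset.mem_filter.mpr ⟨hl, hYl y hy⟩⟩
  refine ⟨y, ?_⟩
  have h5 : ((Fintype.card F - 1 : ℕ) : ℝ) ≤ (Y.card * (deg L y - 1) : ℕ) := by exact_mod_cast h3
  rw [Nat.cast_mul, Nat.cast_sub h4, Nat.cast_sub hq] at h5
  have h6 : (Y.card : ℝ) ≤ idx X l + 1 := by exact_mod_cast hYc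
  have h7 : (1 : ℝ) ≤ deg L y := by exact_mod_cast h4
  push_cast at h5
  nlinarith

lemma st_idx_U {K : ℕ} (T : Ix F K → F) {l : Ln F} (hl : ¬ ∃ i, l = tl T i) :
    idx (Uoff T ∅) l = (free T l).card := by
  unfold idx
  congr 1
  ext p
  rw [Finset.mem_filter, mem_Uoff, mem_free]
  constructor
  · rintro ⟨h1, h2⟩
    exact ⟨h2, fun i _ => h1 i (Finset.notMem_empty i)⟩
  · rintro ⟨h1, h2⟩
    refine ⟨fun i _ hi => ?_, h1⟩
    by_cases hd : i.1 = l.1
    · exact hl ⟨i, eq_of_on_of_dir h1 hi hd.symm⟩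
    · exact h2 i hd hi

lemma st_idx_U_zero {K : ℕ} (T : Ix F K → F) {l : Ln F} (hl : ∃ i, l = tl T i) :
    idx (Uoff T ∅) l = 0 := by
  obtain ⟨i, rfl⟩ := hl
  unfold idx
  rw [Finset.card_eq_zero, Finset.filter_eq_empty_iff]
  intro p hp
  exact mem_Uoff.mp hp i (Finset.notMem_empty i)

theorem step0 {K : ℕ} (T : Ix F K → F) (L : Finset (Ln F)) (hL : L.card = Fintype.card F)
    (hcov : ∀ p ∈ Uoff T ∅, ∃ l ∈ L, On p l) {x γ : ℝ} (hx : 0 ≤ x) (hx1 : x ≤ 1) (hγ : 0 ≤ γ)
    (hq : (K : ℝ) ≤ γ * Fintype.card F)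
    (hfree : ∀ l, |((free T l).card : ℝ) - x * Fintype.card F| ≤ γ * Fintype.card F) :
    ∑ p ∈ Uoff T ∅, ((deg L (Sum.inl p) - 1 : ℕ) : ℝ) +
      (L.filter fun l => ∃ i, l = tl T i).card * (x * Fintype.card F) ≤
        3 * γ * Fintype.card F ^ 2 := by
  have hq0 : (0 : ℝ) ≤ Fintype.card F := Nat.cast_nonneg _
  have hup : ∀ l : Ln F, (idx (Uoff T ∅) l : ℝ) + ind (∃ i, l = tl T i) * (x * Fintype.card F) ≤
      (x + γ) * Fintype.card F := by
    intro l
    by_cases hl : ∃ i, l = tl T i
    · rw [st_idx_U_zero T hl, ind_pos hl]; push_cast; nlinarith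
    · rw [st_idx_U T hl, ind_neg hl]
      have := (abs_le.mp (hfree l)).2
      linarith
  have hlo : ∀ l : Ln F, (x - γ) * Fintype.card F - ind (∃ i, l = tl T i) * Fintype.card F ≤
      (idx (Uoff T ∅) l : ℝ) := by
    intro l
    by_cases hl : ∃ i, l = tl T i
    · rw [st_idx_U_zero T hl, ind_pos hl]; push_cast; nlinarith
    · rw [st_idx_U T hl, ind_neg hl]
      have := (abs_le.mp (hfree l)).1
      linarith
  have h1 : ∑ l ∈ L, (idx (Uoff T ∅) l : ℝ) =
      (Uoff T ∅).card + ∑ p ∈ Uoff T ∅, ((deg L (Sum.inl p) - 1 : ℕ) : ℝ) := by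
    rw [← Nat.cast_sum, st_sum_idx, Nat.cast_sum, Finset.card_eq_sum_ones, Nat.cast_sum,
      ← Finset.sum_add_distrib]
    refine Finset.sum_congr rfl fun p hp => ?_
    obtain ⟨l, hl, hpl⟩ := hcov p hp
    have : 1 ≤ deg L (Sum.inl p) := Finset.card_pos.mpr ⟨l, Finset.mem_filter.mpr ⟨hl, hpl⟩⟩
    rw [Nat.cast_sub this]; push_cast; ring
  have h2 := Finset.sum_le_sum (fun l (_ : l ∈ L) => hup l)
  rw [Finset.sum_add_distrib, ← Finset.sum_mul, ← card_filter_eq_sum_ind, Finset.sum_const, hL,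
    nsmul_eq_mul, h1] at h2
  have h3 : ((Uoff T ∅).card : ℝ) = ∑ c : F, (idx (Uoff T ∅) (none, c) : ℝ) := by
    simp_rw [idx_eq_sum]
    rw [sum_dir, ← card_filter_eq_sum_ind]
    simp
  have h4 := Finset.sum_le_sum (fun c (_ : c ∈ (univ : Finset F)) => hlo (none, c))
  rw [← h3, Finset.sum_sub_distrib, Finset.sum_const, ← Finset.sum_mul, ← card_filter_eq_sum_ind,
    Finset.card_univ, nsmul_eq_mul] at h4
  have h5 : ((univ.filter fun c : F => ∃ i, ((none, c) : Ln F) = tl T i).card : ℝ) ≤ K := by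
    have : (univ.filter fun c : F => ∃ i, ((none, c) : Ln F) = tl T i) ⊆
        univ.image fun j : Fin K => T (none, j) := by
      intro c hc
      obtain ⟨⟨d, j⟩, hi⟩ := (Finset.mem_filter.mp hc).2
      obtain ⟨h1, h2⟩ := Prod.mk.inj hi
      dsimp only at h1
      subst h1
      exact Finset.mem_image.mpr ⟨j, Finset.mem_univ _, h2.symm⟩
    have h6 := (Finset.card_le_card this).trans Finset.card_image_le
    simp only [Finset.card_univ, Fintype.card_fin] at h6
    exact_mod_cast h6
  have h7 := mul_le_mul_of_nonneg_right (h5.trans hq) hq0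
  nlinarith

end Crest.Agent.R034
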