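import Crest.Agent.R034.SW
import Crest.Agent.R034.B1
import Crest.Agent.R034.Spread
import Crest.Agent.R034.Step01

set_option autoImplicit false

namespace Crest.Agent.R034

open Finset Filter

lemma exp_neg_two_mul_le {x : ℝ} (h0 : 0 ≤ x) (h1 : x ≤ 1 / 2) : Real.exp (-(2 * x)) ≤ 1 - x := by
  have h2 : 1 + 2 * x ≤ Real.exp (2 * x) := by have := Real.add_one_le_exp (2 * x); linarith
  rw [Real.exp_neg, inv_le_comm₀ (Real.exp_pos _) (by linarith)]
  refine le_trans ?_ h2
  rw [inv_le_iff_one_le_mul₀ (by linarith)]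
  nlinarith

lemma delta_le (K q : ℕ) (hq : 2 ≤ q) :
    Real.exp (-(2 * (K : ℝ))) ≤ (1 - 1 / (q : ℝ)) ^ (K * q) := by
  have hq0 : (2 : ℝ) ≤ q := by exact_mod_cast hq
  have h1 := exp_neg_two_mul_le (x := 1 / (q : ℝ)) (by positivity)
    (one_div_le_one_div_of_le (by norm_num) hq0)
  refine le_trans (le_of_eq ?_) (pow_le_pow_left₀ (Real.exp_pos _).le h1 (K * q))
  rw [← Real.exp_nat_mul]
  congr 1
  push_cast
  field_simp

lemma tendsto_pow_exp (n : ℕ) {c : ℝ} (hc : 0 < c) :
    Tendsto (fun x : ℝ => x ^ n * Real.exp (-(c * x))) atTop (nhds 0) := by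
  have := tendsto_rpow_mul_exp_neg_mul_atTop_nhds_zero (n : ℝ) c hc
  simpa [Real.rpow_natCast] using this

section core
variable {F : Type} [Field F] [Fintype F] [DecidableEq F] {K : ℕ}

lemma idx_le_card (X : Finset (Pt F)) (l : Ln F) : idx X l ≤ Fintype.card F := by
  rw [← card_pts l]
  exact Finset.card_le_card fun p hp => mem_pts.mpr (Finset.mem_filter.mp hp).2

omit [Fintype F] in
lemma idx_mono {X Y : Finset (Pt F)} (h : X ⊆ Y) (l : Ln F) : idx X l ≤ idx Y l :=
  Finset.card_le_card (Finset.filter_subset_filter _ h)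

omit [Fintype F] in
lemma deg_le_card (L : Finset (Ln F)) (y : PPt F) : deg L y ≤ L.card := Finset.card_filter_le _ _

/-- The index dichotomy. -/
lemma idx_dichotomy (L : Finset (Ln F)) (hL : L.card = Fintype.card F) (l : Ln F) :
    (idx (unc L) l : ℝ) ≤ 2 * ((unc L).card / Fintype.card F) + 3 ∨
      (Fintype.card F : ℝ) - 2 * ((unc L).card / Fintype.card F) - 2 ≤ idx (unc L) l := by
  have hq : (0 : ℝ) < Fintype.card F := by exact_mod_cast Fintype.card_pos
  have ht0 : (0 : ℝ) ≤ (unc L).card / Fintype.card F := by positivity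
  rcases Nat.eq_zero_or_pos (idx (unc L) l) with h | h
  · left; rw [h]; push_cast; linarith
  obtain ⟨u, h1, h2, h3⟩ := sw_index L hL l h
  have hu : u ≤ Fintype.card F := h1.trans (idx_le_card _ _)
  have h4 : (u : ℝ) * (Fintype.card F - u) ≤ (unc L).card + Fintype.card F := by
    have : ((u * (Fintype.card F - u) : ℕ) : ℝ) ≤ ((unc L).card + Fintype.card F : ℕ) := by
      exact_mod_cast h3
    rw [Nat.cast_mul, Nat.cast_sub hu] at this
    push_cast at this
    exact this
  have h1' : (u : ℝ) ≤ idx (unc L) l := by exact_mod_cast h1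
  have h2' : (idx (unc L) l : ℝ) ≤ u + 1 := by exact_mod_cast h2
  have hu' : (u : ℝ) ≤ Fintype.card F := by exact_mod_cast hu
  have hu0 : (0 : ℝ) ≤ u := by positivity
  set t : ℝ := (unc L).card / Fintype.card F with ht
  have hW : ((unc L).card : ℝ) = t * Fintype.card F := by rw [ht]; field_simp
  rw [hW] at h4
  by_cases hc : 2 * (u : ℝ) ≤ Fintype.card F
  · left
    have : (u : ℝ) * Fintype.card F ≤ (2 * t + 2) * Fintype.card F := by nlinarith
    have := le_of_mul_le_mul_right this hq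
    linarith
  · right
    have : ((Fintype.card F : ℝ) - u) * Fintype.card F ≤ (2 * t + 2) * Fintype.card F := by
      nlinarith
    have := le_of_mul_le_mul_right this hq
    linarith

/-- If no point carries more than half of the lines, there are many uncovered points. -/
lemma unc_large (L : Finset (Ln F)) (hL : L.card = Fintype.card F) (hq4 : 4 ≤ Fintype.card F)
    (hdeg : ∀ y, 2 * deg L y ≤ Fintype.card F) :
    √(Fintype.card F : ℝ) / 4 ≤ (unc L).card / Fintype.card F := by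
  have hq : (4 : ℝ) ≤ Fintype.card F := by exact_mod_cast hq4
  obtain ⟨y, hy⟩ := step1b L hL
  have h1 := step1a L hL y
  set t : ℝ := (unc L).card / Fintype.card F with ht
  have ht0 : 0 ≤ t := by positivity
  have hW : ((unc L).card : ℝ) = t * Fintype.card F := by rw [ht]; field_simp
  have hy' : (Fintype.card F : ℝ) - 1 ≤ ((deg L y : ℝ) - 1) * (2 * t + 1) := by
    rw [ht, ← mul_div_assoc]; exact hy
  have hM1 : 1 ≤ deg L y := by
    by_contra hc
    have : deg L y = 0 := by omega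
    rw [this] at hy'
    push_cast at hy'
    linarith
  have hMq : deg L y ≤ Fintype.card F := by have := hdeg y; omega
  have h2 : ((Fintype.card F : ℝ) - deg L y) * ((deg L y : ℝ) - 1) ≤ t * Fintype.card F := by
    have : (((Fintype.card F - deg L y) * (deg L y - 1) : ℕ) : ℝ) ≤ (unc L).card := by
      exact_mod_cast h1
    rw [Nat.cast_mul, Nat.cast_sub hMq, Nat.cast_sub hM1, hW] at this
    simpa using this
  have h3 : 2 * (deg L y : ℝ) ≤ Fintype.card F := by exact_mod_cast hdeg y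
  have h4 : (1 : ℝ) ≤ deg L y := by exact_mod_cast hM1
  have h5 : (deg L y : ℝ) - 1 ≤ 2 * t := by
    have : ((deg L y : ℝ) - 1) * Fintype.card F ≤ (2 * t) * Fintype.card F := by nlinarith
    exact le_of_mul_le_mul_right this (by linarith)
  have h6 : (Fintype.card F : ℝ) - 1 ≤ 2 * t * (2 * t + 1) :=
    hy'.trans (mul_le_mul_of_nonneg_right h5 (by linarith))
  by_contra hc
  push Not at hc
  set r := √(Fintype.card F : ℝ) with hr
  have hr2 : r * r = Fintype.card F := Real.mul_self_sqrt (by linarith)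
  have hr0 : 2 ≤ r := by
    rw [hr]; exact Real.le_sqrt_of_sq_le (by linarith)
  nlinarith

lemma stab_core (hK : 1 ≤ K) (T : Ix F K → F) {δ ε C ρ η γ γ' x : ℝ} {G J a : ℕ}
    (hδ : 0 < δ) (hδ1 : δ ≤ 1) (hx : δ ≤ x) (hx1 : x ≤ 1) (hε : 0 < ε) (hε1 : 3 * ε ≤ γ')
    (hε2 : ε ≤ 1 / 50000) (hε3 : ε ≤ δ / 16) (hC : 6 ≤ C) (hC1 : 1 / ε ≤ C) (hρ : 0 < ρ)
    (hρ1 : ρ ≤ 1) (hη : η = ρ ^ 2 * δ / 16) (hγ : γ = η * δ / 3) (hG : 48 / δ ≤ G)
    (hGK : 32 * K ≤ G) (hJ : 4 * K * C ≤ J) (ha : ρ * Fintype.card F ≤ a)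
    (ha2 : 2 * a ≤ Fintype.card F) (hq1 : 640000 ≤ Fintype.card F)
    (hq2 : (K : ℝ) ≤ γ * Fintype.card F) (hq3 : 1 / ε ≤ √(Fintype.card F : ℝ))
    (hq4 : 4 / δ < Fintype.card F)
    (hq5 : (Fintype.card F + 1) * Fintype.card F *
      Real.exp (-(√(Fintype.card F : ℝ) / 400 / (8 * 76800 ^ 2))) < 1 / 2)
    (hq6 : Fintype.card F * Real.exp (-(a * δ / 16)) + Real.exp (-(Fintype.card F / (G : ℝ))) <
      ((G : ℝ)⁻¹) ^ J / 4)
    (hfree : ∀ l, |((free T l).card : ℝ) - x * Fintype.card F| ≤ γ * Fintype.card F)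
    (hB1 : ¬ BadB1 T)
    (hSp : ¬ BadSp a (8 / (ρ * δ)) (32 * (G : ℝ) ^ J) (((G : ℝ)⁻¹) ^ J / (8 * C)) T) :
    Stab (γ' * Fintype.card F) T := by
  classical
  intro L hL hcov
  have hq : (640000 : ℝ) ≤ Fintype.card F := by exact_mod_cast hq1
  have hq0 : (0 : ℝ) < Fintype.card F := by linarith
  have hη0 : 0 < η := by rw [hη]; positivity
  have hη1 : η ≤ 1 / 16 := by
    rw [hη]
    have : ρ ^ 2 * δ ≤ 1 := by
      have : ρ ^ 2 ≤ 1 := pow_le_one₀ hρ.le hρ1
      nlinarith
    linarith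
  have hγ0 : 0 < γ := by rw [hγ]; positivity
  have hγ1 : γ ≤ δ / 4 := by rw [hγ]; nlinarith
  have h0 := step0 T L hL hcov (hδ.le.trans hx) hx1 hγ0.le hq2 hfree
  have hs0 : 0 ≤ ∑ p ∈ Uoff T ∅, ((deg L (Sum.inl p) - 1 : ℕ) : ℝ) :=
    Finset.sum_nonneg fun p _ => Nat.cast_nonneg _
  have hn0 : (0 : ℝ) ≤ (L.filter fun l => ∃ i, l = tl T i).card := Nat.cast_nonneg _
  have hexc : ∑ p ∈ Uoff T ∅, ((deg L (Sum.inl p) - 1 : ℕ) : ℝ) ≤ η * Fintype.card F ^ 2 := by
    have h1 : 0 ≤ ((L.filter fun l => ∃ i, l = tl T i).card : ℝ) * (x * Fintype.card F) :=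
      mul_nonneg hn0 (mul_nonneg (hδ.le.trans hx) hq0.le)
    have h2 : 3 * γ ≤ η := by rw [hγ]; nlinarith
    have h3 : 3 * γ * (Fintype.card F : ℝ) ^ 2 ≤ η * Fintype.card F ^ 2 :=
      mul_le_mul_of_nonneg_right h2 (by positivity)
    linarith
  have hnT : ((L.filter fun l => ∃ i, l = tl T i).card : ℝ) ≤ η * Fintype.card F := by
    have h1 : ((L.filter fun l => ∃ i, l = tl T i).card : ℝ) * (δ * Fintype.card F) ≤
        ((L.filter fun l => ∃ i, l = tl T i).card : ℝ) * (x * Fintype.card F) :=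
      mul_le_mul_of_nonneg_left (mul_le_mul_of_nonneg_right hx hq0.le) hn0
    have h2 : ((L.filter fun l => ∃ i, l = tl T i).card : ℝ) * (δ * Fintype.card F) ≤
        (η * Fintype.card F) * (δ * Fintype.card F) := by
      have : 3 * γ * (Fintype.card F : ℝ) ^ 2 = (η * Fintype.card F) * (δ * Fintype.card F) := by
        rw [hγ]; ring
      linarith
    exact le_of_mul_le_mul_right h2 (by positivity)
  have hfree' : ∀ l, 3 / 4 * δ * Fintype.card F ≤ (free T l).card := by
    intro l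
    have h1 := (abs_le.mp (hfree l)).1
    have h2 : δ * Fintype.card F ≤ x * Fintype.card F := mul_le_mul_of_nonneg_right hx hq0.le
    have h3 : γ * Fintype.card F ≤ δ / 4 * Fintype.card F := mul_le_mul_of_nonneg_right hγ1 hq0.le
    linarith
  have hspread : ∀ (IH : Finset (Ix F K)) (W : Finset (Pt F)),
      (∀ p, p ∈ W ↔ p ∈ unc L ∧ ∀ i ∈ IH, ¬ On p (tl T i)) →
      (∀ l, (idx W l : ℝ) ≤ C * W.card / Fintype.card F) →
      Fintype.card F * √(Fintype.card F : ℝ) / 8 ≤ W.card → False := fun IH W h1 h2 h3 =>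
    hSp (spread_det hK T L hL hcov IH W h1 (by linarith) hδ hδ1 hρ hρ1 hη.le hG hGK hJ ha ha2
      h2 h3 hfree' hexc hnT hq6)
  set r := √(Fintype.card F : ℝ) with hr
  have hr2 : r * r = Fintype.card F := Real.mul_self_sqrt hq0.le
  have hr0 : 800 ≤ r := by
    rw [hr]; exact Real.le_sqrt_of_sq_le (by linarith)
  set t : ℝ := (unc L).card / Fintype.card F with ht
  have ht0 : 0 ≤ t := by positivity
  have hW : ((unc L).card : ℝ) = t * Fintype.card F := by rw [ht]; field_simp
  have hεr : 1 ≤ ε * r := by rwa [div_le_iff₀ hε, mul_comm] at hq3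
  by_cases hbig : ε * Fintype.card F ≤ t
  · exfalso
    refine hspread ∅ (unc L) (fun p => by simp) (fun l => ?_) ?_
    · have h1 : (idx (unc L) l : ℝ) ≤ Fintype.card F := by exact_mod_cast idx_le_card _ _
      rw [mul_div_assoc, ← ht]
      have h2 : 1 ≤ C * ε := by rwa [div_le_iff₀ hε] at hC1
      nlinarith
    · rw [hW]
      have : r / 8 ≤ t := by nlinarith
      nlinarith
  push Not at hbig
  by_cases hM : ∃ y, Fintype.card F < 2 * deg L y
  · obtain ⟨y, hy⟩ := hM
    refine ⟨y, ?_⟩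
    have h1 := step1a L hL y
    have hMq : deg L y ≤ Fintype.card F := hL ▸ deg_le_card L y
    have hM1 : 1 ≤ deg L y := by omega
    have h2 : ((Fintype.card F : ℝ) - deg L y) * ((deg L y : ℝ) - 1) ≤ t * Fintype.card F := by
      have : (((Fintype.card F - deg L y) * (deg L y - 1) : ℕ) : ℝ) ≤ (unc L).card := by
        exact_mod_cast h1
      rw [Nat.cast_mul, Nat.cast_sub hMq, Nat.cast_sub hM1, hW] at this
      simpa using this
    have h3 : (Fintype.card F : ℝ) < 2 * deg L y := by exact_mod_cast hy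
    have h4 : (deg L y : ℝ) ≤ Fintype.card F := by exact_mod_cast hMq
    have h5 : ((Fintype.card F : ℝ) - deg L y) * Fintype.card F ≤ (3 * t) * Fintype.card F := by
      nlinarith
    have h6 := le_of_mul_le_mul_right h5 hq0
    have h7 : 3 * ε * Fintype.card F ≤ γ' * Fintype.card F := mul_le_mul_of_nonneg_right hε1 hq0.le
    linarith
  exfalso
  push Not at hM
  have ht1 : r / 4 ≤ t := unc_large L hL (by omega) hM
  have ht2 : 200 ≤ t := by linarith
  set s : ℕ := ⌈t / 100⌉₊ with hs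
  have hs1 : t / 100 ≤ s := Nat.le_ceil _
  have hs2 : (s : ℝ) ≤ t / 50 := by
    have := Nat.ceil_lt_add_one (show 0 ≤ t / 100 by linarith)
    linarith
  set H : Finset (Ln F) := univ.filter fun l =>
    (Fintype.card F : ℝ) - 2 * t - 2 ≤ idx (unc L) l with hH
  have hδq : 4 < δ * Fintype.card F := by rwa [div_lt_iff₀ hδ, mul_comm] at hq4
  have hεq : ε * Fintype.card F ≤ δ / 16 * Fintype.card F := mul_le_mul_of_nonneg_right hε3 hq0.le
  have hε5 : ε * Fintype.card F ≤ 1 / 50000 * Fintype.card F :=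
    mul_le_mul_of_nonneg_right hε2 hq0.le
  have hHT : ∀ l ∈ H, ∃ i, l = tl T i := by
    intro l hl
    by_contra hc
    push Not at hc
    have h1 := (Finset.mem_filter.mp hl).2
    have h2 : idx (unc L) l + (free T l).card ≤ Fintype.card F := by
      rw [← card_pts l]
      unfold idx
      rw [← Finset.card_union_of_disjoint]
      · refine Finset.card_le_card fun p hp => ?_
        rcases Finset.mem_union.mp hp with h | h
        · exact mem_pts.mpr (Finset.mem_filter.mp h).2
        · exact mem_pts.mpr (mem_free.mp h).1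
      · rw [Finset.disjoint_left]
        intro p hp hp'
        rw [mem_free] at hp'
        obtain ⟨l', hl', hpl'⟩ := hcov p (mem_Uoff.mpr fun i _ hi => by
          by_cases hd : i.1 = l.1
          · exact hc i (eq_of_on_of_dir hp'.1 hi hd.symm)
          · exact hp'.2 i hd hi)
        exact mem_unc.mp (Finset.mem_filter.mp hp).1 l' hl' hpl'
    have h3 : (idx (unc L) l : ℝ) + (free T l).card ≤ Fintype.card F := by exact_mod_cast h2
    have h4 := hfree' l
    linarith
  by_cases hHc : t / 2 ≤ H.card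
  · have hs3 : 2 ≤ s := by
      have : (2 : ℝ) ≤ s := by linarith
      exact_mod_cast this
    have hs4 : 2457600 * s ≤ Fintype.card F := by
      have : 2457600 * (s : ℝ) ≤ Fintype.card F := by linarith
      exact_mod_cast this
    obtain ⟨ω, hω1, hω2⟩ := b1_sample L hL (fun d => hM _) H s hs3 hs4 (fun l hl => by
      have h1 := (Finset.mem_filter.mp hl).2
      constructor
      · intro hlL
        have : idx (unc L) l = 0 := by
          unfold idx
          rw [Finset.card_eq_zero, Finset.filter_eq_empty_iff]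
          intro p hp
          exact mem_unc.mp hp l hlL
        rw [this] at h1
        push_cast at h1
        linarith
      · have : (Fintype.card F : ℝ) ≤ idx (unc L) l + 300 * s := by linarith
        exact_mod_cast this) (by
      refine lt_of_le_of_lt ?_ hq5
      have h1 : (H.card : ℝ) ≤ (Fintype.card F + 1) * Fintype.card F := by
        have := Finset.card_le_univ H
        rw [card_ln] at this
        exact_mod_cast this
      refine mul_le_mul h1 (Real.exp_le_exp.mpr ?_) (Real.exp_pos _).le (by positivity)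
      have : r / 400 ≤ s := by linarith
      have := div_le_div_of_nonneg_right this (show (0 : ℝ) ≤ 8 * 76800 ^ 2 by positivity)
      linarith)
    refine hB1 ⟨s, by omega, by linarith, ω, hω1, ?_⟩
    have h1 : H ⊆ (univ.filter fun i => tl T i ∈ Eb ω).image (tl T) := by
      intro l hl
      obtain ⟨i, rfl⟩ := hHT l hl
      exact Finset.mem_image_of_mem _ (Finset.mem_filter.mpr ⟨Finset.mem_univ _, hω2 hl⟩)
    have h2 : H.card ≤ (univ.filter fun i => tl T i ∈ Eb ω).card :=
      (Finset.card_le_card h1).trans Finset.card_image_le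
    rw [← card_filter_eq_sum_ind]
    have h3 : (H.card : ℝ) ≤ (univ.filter fun i => tl T i ∈ Eb ω).card := by exact_mod_cast h2
    linarith
  · push Not at hHc
    set W : Finset (Pt F) := (unc L).filter fun p => ∀ l ∈ H, ¬ On p l with hWdef
    have hWc : t * Fintype.card F / 2 ≤ W.card := by
      have h1 : unc L ⊆ W ∪ H.biUnion pts := by
        intro p hp
        by_cases h : ∀ l ∈ H, ¬ On p l
        · exact Finset.mem_union_left _ (Finset.mem_filter.mpr ⟨hp, h⟩)
        · push Not at h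
          obtain ⟨l, hl, hpl⟩ := h
          exact Finset.mem_union_right _ (Finset.mem_biUnion.mpr ⟨l, hl, mem_pts.mpr hpl⟩)
      have h2 : (unc L).card ≤ W.card + H.card * Fintype.card F := by
        refine (Finset.card_le_card h1).trans ((Finset.card_union_le _ _).trans ?_)
        refine Nat.add_le_add_left (Finset.card_biUnion_le.trans ?_) _
        simp [card_pts]
      have h3 : ((unc L).card : ℝ) ≤ W.card + H.card * Fintype.card F := by exact_mod_cast h2
      nlinarith
    refine hspread (univ.filter fun i => tl T i ∈ H) W (fun p => ?_) (fun l => ?_) ?_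
    · rw [hWdef, Finset.mem_filter]
      refine and_congr_right fun _ => ⟨fun h i hi => h _ (Finset.mem_filter.mp hi).2, ?_⟩
      intro h l hl
      obtain ⟨i, rfl⟩ := hHT l hl
      exact h i (Finset.mem_filter.mpr ⟨Finset.mem_univ _, hl⟩)
    · have h6 : 3 * t ≤ C * W.card / Fintype.card F := by
        rw [le_div_iff₀ hq0]
        have : (0 : ℝ) ≤ W.card := Nat.cast_nonneg _
        nlinarith
      by_cases hl : l ∈ H
      · have : idx W l = 0 := by
          unfold idx
          rw [Finset.card_eq_zero, Finset.filter_eq_empty_iff]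
          intro p hp
          exact (Finset.mem_filter.mp hp).2 l hl
        rw [this]; push_cast; linarith
      · have h1 : (idx W l : ℝ) ≤ idx (unc L) l := by
          exact_mod_cast idx_mono (Finset.filter_subset _ _) l
        rcases idx_dichotomy L hL l with h | h
        · linarith
        · exact absurd (by rw [hH]; exact Finset.mem_filter.mpr ⟨Finset.mem_univ l, h⟩) hl
    · nlinarith

end core

theorem stab_det (K : ℕ) (hK : 1 ≤ K) {γ' : ℝ} (hγ' : 0 < γ') :
    ∃ γ C₁ C₂ c₀ : ℝ, 0 < γ ∧ 0 ≤ C₁ ∧ 0 ≤ C₂ ∧ 0 < c₀ ∧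
      ∀ᶠ q : ℕ in atTop, ∀ (F : Type) [Field F] [Fintype F] [DecidableEq F], Fintype.card F = q →
        ∀ T : Ix F K → F, Q1 γ T → ¬ BadB1 T → ¬ BadSp ⌈c₀ / 48 * q⌉₊ C₁ C₂ c₀ T →
          Stab (γ' * q) T := by
  set δ : ℝ := Real.exp (-(2 * (K : ℝ))) with hδ
  have hδ0 : 0 < δ := Real.exp_pos _
  have hδ1 : δ ≤ 1 := Real.exp_le_one_iff.mpr (by
    have : (0 : ℝ) ≤ K := Nat.cast_nonneg _
    linarith)
  set ε : ℝ := min (min (γ' / 3) (1 / 50000)) (δ / 16) with hε
  have hε0 : 0 < ε := by positivity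
  have hε1 : 3 * ε ≤ γ' := by
    have : ε ≤ γ' / 3 := (min_le_left _ _).trans (min_le_left _ _)
    linarith
  have hε2 : ε ≤ 1 / 50000 := (min_le_left _ _).trans (min_le_right _ _)
  have hε3 : ε ≤ δ / 16 := min_le_right _ _
  set C : ℝ := 6 + 1 / ε with hC
  have hεi : 0 < 1 / ε := by positivity
  have hC6 : 6 ≤ C := by linarith
  set G : ℕ := ⌈48 / δ⌉₊ + 32 * K with hG
  have hG1 : 48 / δ ≤ G := by
    rw [hG]; push_cast
    have := Nat.le_ceil (48 / δ)
    have : (0 : ℝ) ≤ K := Nat.cast_nonneg _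
    linarith
  have hG2 : (1 : ℝ) ≤ G := by
    have : 1 ≤ G := by omega
    exact_mod_cast this
  set J : ℕ := ⌈4 * K * C⌉₊ with hJ
  set c₀ : ℝ := ((G : ℝ)⁻¹) ^ J / (8 * C) with hc₀
  have hGJ : 0 < ((G : ℝ)⁻¹) ^ J := by positivity
  have hGJ1 : ((G : ℝ)⁻¹) ^ J ≤ 1 := pow_le_one₀ (by positivity) (inv_le_one_of_one_le₀ hG2)
  have hc0 : 0 < c₀ := by positivity
  have hc1 : c₀ ≤ 1 := by
    rw [hc₀, div_le_one (by linarith)]; linarith
  set ρ : ℝ := c₀ / 48 with hρ
  have hρ0 : 0 < ρ := by positivity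
  set γ : ℝ := ρ ^ 2 * δ / 16 * δ / 3 with hγ
  have hγ0 : 0 < γ := by positivity
  refine ⟨γ, 8 / (ρ * δ), 32 * (G : ℝ) ^ J, c₀, hγ0, by positivity, by positivity, hc0, ?_⟩
  have tq : Tendsto (fun q : ℕ => (q : ℝ)) atTop atTop := tendsto_natCast_atTop_atTop
  have tr : Tendsto (fun q : ℕ => √(q : ℝ)) atTop atTop := Real.tendsto_sqrt_atTop.comp tq
  have e2 : ∀ᶠ q : ℕ in atTop, (K : ℝ) / γ ≤ q := tq.eventually_ge_atTop _
  have e3 : ∀ᶠ q : ℕ in atTop, 1 / ε ≤ √(q : ℝ) := tr.eventually_ge_atTop _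
  have e4 : ∀ᶠ q : ℕ in atTop, 4 / δ < q := tq.eventually_gt_atTop _
  have e5 : ∀ᶠ q : ℕ in atTop, √(q : ℝ) ^ 4 *
      Real.exp (-(1 / (400 * (8 * 76800 ^ 2)) * √(q : ℝ))) < 1 / 4 :=
    ((tendsto_pow_exp 4 (by positivity)).comp tr).eventually_lt_const (by norm_num)
  have e6 : ∀ᶠ q : ℕ in atTop, (q : ℝ) ^ 1 * Real.exp (-(ρ * δ / 16 * q)) < ((G : ℝ)⁻¹) ^ J / 8 :=
    ((tendsto_pow_exp 1 (by positivity)).comp tq).eventually_lt_const (by positivity)
  have e7 : ∀ᶠ q : ℕ in atTop, (q : ℝ) ^ 0 * Real.exp (-(1 / G * q)) < ((G : ℝ)⁻¹) ^ J / 8 :=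
    ((tendsto_pow_exp 0 (by positivity)).comp tq).eventually_lt_const (by positivity)
  filter_upwards [e2, e3, e4, e5, e6, e7, eventually_ge_atTop 640000] with q e2 e3 e4 e5 e6 e7 e1
  intro F _ _ _ hF T h1 h2 h3
  subst hF
  have hq : (640000 : ℝ) ≤ Fintype.card F := by exact_mod_cast e1
  have ha : ρ * Fintype.card F ≤ ⌈ρ * Fintype.card F⌉₊ := Nat.le_ceil _
  refine stab_core hK T hδ0 hδ1 (delta_le K _ (by omega)) ?_ hε0 hε1 hε2 hε3 hC6 (by linarith) hρ0
    (by linarith) rfl hγ hG1 (by omega) (Nat.le_ceil _) ha ?_ e1 ?_ e3 e4 ?_ ?_ h1 h2 h3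
  · refine pow_le_one₀ ?_ ?_
    · rw [sub_nonneg, div_le_one (by linarith)]; linarith
    · have : (0 : ℝ) ≤ 1 / Fintype.card F := by positivity
      linarith
  · have h4 := Nat.ceil_lt_add_one (show 0 ≤ ρ * Fintype.card F by positivity)
    have h5 : ρ * Fintype.card F ≤ 1 / 48 * Fintype.card F :=
      mul_le_mul_of_nonneg_right (by linarith) (by positivity)
    have : 2 * (⌈ρ * Fintype.card F⌉₊ : ℝ) ≤ Fintype.card F := by linarith
    exact_mod_cast this
  · rwa [div_le_iff₀ hγ0, mul_comm] at e2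
  · have h4 : √(Fintype.card F : ℝ) ^ 4 = (Fintype.card F : ℝ) ^ 2 := by
      rw [show 4 = 2 * 2 by norm_num, pow_mul, Real.sq_sqrt (by positivity)]
    rw [h4] at e5
    have h5 : -(√(Fintype.card F : ℝ) / 400 / (8 * 76800 ^ 2)) =
        -(1 / (400 * (8 * 76800 ^ 2)) * √(Fintype.card F : ℝ)) := by ring
    rw [h5]
    have h6 : ((Fintype.card F : ℝ) + 1) * Fintype.card F ≤ 2 * (Fintype.card F : ℝ) ^ 2 := by
      nlinarith
    have h7 := mul_le_mul_of_nonneg_right h6
      (Real.exp_pos (-(1 / (400 * (8 * 76800 ^ 2)) * √(Fintype.card F : ℝ)))).le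
    linarith
  · have h4 : Real.exp (-((⌈ρ * Fintype.card F⌉₊ : ℝ) * δ / 16)) ≤
        Real.exp (-(ρ * δ / 16 * Fintype.card F)) := by
      refine Real.exp_le_exp.mpr ?_
      have := mul_le_mul_of_nonneg_right ha hδ0.le
      linarith
    have h5 := mul_le_mul_of_nonneg_left h4 (show (0 : ℝ) ≤ Fintype.card F by positivity)
    have h6 : -((Fintype.card F : ℝ) / G) = -(1 / G * Fintype.card F) := by ring
    rw [h6]
    rw [pow_one] at e6
    rw [pow_zero, one_mul] at e7
    linarith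

end Crest.Agent.R034
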