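import Crest.Agent.R034.Defs

set_option autoImplicit false

namespace Crest.Agent.R034

open Finset

theorem transfer (F : Type) [Fintype F] (q : ℕ) (hq : Fintype.card F = q) (h : Goal F) :
    ∃ (N : ℕ) (part : Fin N → Fin (q + 1)) (E : Finset (Finset (Fin N))),
      E.Nonempty ∧
      (∀ e ∈ E, ∀ i : Fin (q + 1), (e.filter (fun v => part v = i)).card = 1) ∧
      (∀ e ∈ E, ∀ f ∈ E, (e ∩ f).Nonempty) ∧
      (∀ i : Fin (q + 1), (Finset.univ.filter (fun v => part v = i)).card = q + 1) ∧
      (∀ v : Fin N, ∃ e ∈ E, v ∈ e) ∧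
      (∀ S : Finset (Fin N), (∀ e ∈ E, (e ∩ S).Nonempty) → q + 1 ≤ S.card) := by
  classical
  obtain ⟨E, hne, hint, huse, hcov⟩ := h
  have hD : Fintype.card (Option F) = q + 1 := by rw [Fintype.card_option, hq]
  let eD : Dir F ≃ Fin (q + 1) := Fintype.equivFinOfCardEq hD
  let eV : Dir F × Option F ≃ Fin (Fintype.card (Dir F × Option F)) := Fintype.equivFin _
  let ed : (Dir F → Option F) → Finset (Fin (Fintype.card (Dir F × Option F))) :=
    fun f => univ.image fun d => eV (d, f d)
  have hed : ∀ f v, v ∈ ed f ↔ f (eV.symm v).1 = (eV.symm v).2 := by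
    intro f v
    simp only [ed, Finset.mem_image, Finset.mem_univ, true_and]
    constructor
    · rintro ⟨d, rfl⟩; simp
    · intro hv
      refine ⟨(eV.symm v).1, ?_⟩
      rw [hv]; simp
  refine ⟨Fintype.card (Dir F × Option F), fun v => eD (eV.symm v).1, E.image ed,
    hne.image _, ?_, ?_, ?_, ?_, ?_⟩
  · intro e he i
    obtain ⟨f, _, rfl⟩ := Finset.mem_image.mp he
    rw [Finset.card_eq_one]
    refine ⟨eV (eD.symm i, f (eD.symm i)), ?_⟩
    ext v
    simp only [Finset.mem_filter, hed, Finset.mem_singleton]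
    constructor
    · rintro ⟨h1, h2⟩
      have h3 : (eV.symm v).1 = eD.symm i := by rw [← h2]; simp
      rw [← h3, h1]; simp
    · rintro rfl; simp
  · intro e he e' he'
    obtain ⟨f, hf, rfl⟩ := Finset.mem_image.mp he
    obtain ⟨f', hf', rfl⟩ := Finset.mem_image.mp he'
    obtain ⟨d, hd⟩ := hint f hf f' hf'
    refine ⟨eV (d, f d), ?_⟩
    simp only [Finset.mem_inter, hed, Equiv.symm_apply_apply, true_and]
    exact hd.symm
  · intro i
    refine Eq.trans ?_ ((Finset.card_univ (α := Option F)).trans hD)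
    symm
    refine Finset.card_bij (fun x _ => eV (eD.symm i, x)) (fun x _ => by simp)
      (fun x _ x' _ hx => by simpa using hx) (fun v hv => ⟨(eV.symm v).2, Finset.mem_univ _, ?_⟩)
    have h2 := (Finset.mem_filter.mp hv).2
    have h3 : (eV.symm v).1 = eD.symm i := by rw [← h2]; simp
    rw [← h3]; simp
  · intro v
    obtain ⟨f, hf, hv⟩ := huse (eV.symm v).1 (eV.symm v).2
    exact ⟨ed f, Finset.mem_image_of_mem _ hf, (hed f v).mpr hv⟩
  · intro S hS
    have := hcov (S.image eV.symm) (fun f hf => by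
      obtain ⟨v, hv⟩ := hS (ed f) (Finset.mem_image_of_mem _ hf)
      rw [Finset.mem_inter, hed] at hv
      refine ⟨(eV.symm v).1, ?_⟩
      rw [hv.1]
      exact Finset.mem_image_of_mem _ hv.2)
    rw [hq] at this
    exact this.trans Finset.card_image_le

end Crest.Agent.R034
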